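import Vale.Agent.P012.Ranged

namespace Vale.Agent.P012

open Finset

/-- Ranged version of `egyptian_of_rep`: a small fraction `a / b` (`a * G ≤ b ≤ Z`, `D ≤ G * Z`) is a sum
of at most `2 * H` distinct unit fractions, all of whose denominators are at least `b / a`. -/
theorem egyptian_of_rrep {D Z G H a b : ℕ} (hR : RRep D Z H) (hD : 0 < D) (hG : 2 ≤ G)
    (hDG : D ≤ G * Z) (hb : 0 < b) (hbZ : b ≤ Z) (hsmall : a * G ≤ b) :
    ∃ S : Finset ℕ, (∀ n ∈ S, 2 ≤ n ∧ b ≤ a * n) ∧ ∑ n ∈ S, (1 / (n : ℚ)) = (a : ℚ) / b ∧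
      S.card ≤ 2 * H := by
  have hDpos : 0 < D := hD
  set Q := a * D / b with hQ
  set R := a * D % b with hRdef
  have hdiv : b * Q + R = a * D := Nat.div_add_mod (a * D) b
  have hRb : R < b := Nat.mod_lt _ hb
  have hbQ : b * Q ≤ a * D := by omega
  have hQZ : Q ≤ Z := by
    have h1 : b * (Q * G) ≤ b * D := by
      calc b * (Q * G) = (b * Q) * G := by ring
        _ ≤ (a * D) * G := Nat.mul_le_mul_right _ hbQ
        _ = (a * G) * D := by ring
        _ ≤ b * D := Nat.mul_le_mul_right _ hsmall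
    have h2 : Q * G ≤ D := Nat.le_of_mul_le_mul_left h1 hb
    have h3 : G * Q ≤ G * Z := by
      calc G * Q = Q * G := Nat.mul_comm _ _
        _ ≤ D := h2
        _ ≤ G * Z := hDG
    exact Nat.le_of_mul_le_mul_left h3 (by omega)
  obtain ⟨T1, t1, c1, s1⟩ := hR Q hQZ
  obtain ⟨T2, t2, c2, s2⟩ := hR R (by omega)
  have hle1 : ∀ d ∈ T1, d ≤ Q := fun d hd => by
    rw [← s1]; exact Finset.single_le_sum (f := fun d => d) (fun _ _ => Nat.zero_le _) hd
  have hle2 : ∀ d ∈ T2, d ≤ R := fun d hd => by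
    rw [← s2]; exact Finset.single_le_sum (f := fun d => d) (fun _ _ => Nat.zero_le _) hd
  have hdd : ∀ d ∈ D.divisors, 0 < d ∧ d * (D / d) = D ∧ 0 < D / d := by
    intro d hd
    have h1 := Nat.mem_divisors.1 hd
    have h2 : 0 < d := Nat.pos_of_dvd_of_pos h1.1 hDpos
    exact ⟨h2, Nat.mul_div_cancel' h1.1, Nat.div_pos (Nat.le_of_dvd hDpos h1.1) h2⟩
  have hinj : ∀ d ∈ D.divisors, ∀ d' ∈ D.divisors, D / d = D / d' → d = d' := by
    intro d hd d' hd' h
    obtain ⟨_, e1, p1⟩ := hdd d hd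
    obtain ⟨_, e2, _⟩ := hdd d' hd'
    rw [← h] at e2
    exact Nat.eq_of_mul_eq_mul_right p1 (e1.trans e2.symm)
  have hinj1 : Set.InjOn (fun d => D / d) (T1 : Set ℕ) := fun d hd d' hd' h =>
    hinj d (t1 hd) d' (t1 hd') h
  have hinj2 : Set.InjOn (fun d => b * (D / d)) (T2 : Set ℕ) := fun d hd d' hd' h =>
    hinj d (t2 hd) d' (t2 hd') (Nat.eq_of_mul_eq_mul_left hb h)
  have hsm : ∀ n ∈ T1.image (fun d => D / d), (2 ≤ n ∧ b ≤ a * n) ∧ n ≤ D := by
    intro n hn
    obtain ⟨d, hd, rfl⟩ := Finset.mem_image.1 hn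
    obtain ⟨p0, e1, p1⟩ := hdd d (t1 hd)
    have hdQ := hle1 d hd
    have hban : b ≤ a * (D / d) := by
      have h1 : d * b ≤ d * (a * (D / d)) := by
        calc d * b ≤ Q * b := Nat.mul_le_mul_right _ hdQ
          _ = b * Q := Nat.mul_comm _ _
          _ ≤ a * D := hbQ
          _ = a * (d * (D / d)) := by rw [e1]
          _ = d * (a * (D / d)) := by ring
      exact Nat.le_of_mul_le_mul_left h1 p0
    refine ⟨⟨?_, hban⟩, Nat.div_le_self _ _⟩
    have ha : 0 < a := by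
      rcases Nat.eq_zero_or_pos a with h | h
      · rw [h, Nat.zero_mul] at hban
        omega
      · exact h
    have h2 : a * 2 ≤ a * (D / d) :=
      calc a * 2 ≤ a * G := Nat.mul_le_mul_left _ hG
        _ ≤ b := hsmall
        _ ≤ a * (D / d) := hban
    exact Nat.le_of_mul_le_mul_left h2 ha
  have hbig : ∀ n ∈ T2.image (fun d => b * (D / d)), (2 ≤ n ∧ b ≤ a * n) ∧ D < n := by
    intro n hn
    obtain ⟨d, hd, rfl⟩ := Finset.mem_image.1 hn
    obtain ⟨p0, e1, p1⟩ := hdd d (t2 hd)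
    have hdR := hle2 d hd
    have h1 : d < b := lt_of_le_of_lt hdR hRb
    have hlt : D < b * (D / d) :=
      calc D = d * (D / d) := e1.symm
        _ < b * (D / d) := Nat.mul_lt_mul_of_pos_right h1 p1
    have ha : 0 < a := by
      rcases Nat.eq_zero_or_pos a with h | h
      · rw [h, Nat.zero_mul] at hdiv
        omega
      · exact h
    refine ⟨⟨by omega, ?_⟩, hlt⟩
    calc b = 1 * (b * 1) := by ring
      _ ≤ a * (b * (D / d)) := Nat.mul_le_mul ha (Nat.mul_le_mul_left _ p1)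
  have hdisj : Disjoint (T1.image (fun d => D / d)) (T2.image (fun d => b * (D / d))) := by
    rw [Finset.disjoint_left]
    intro n h1 h2
    have := (hsm n h1).2
    have := (hbig n h2).2
    omega
  refine ⟨T1.image (fun d => D / d) ∪ T2.image (fun d => b * (D / d)), ?_, ?_, ?_⟩
  · intro n hn
    rcases Finset.mem_union.1 hn with h | h
    · exact (hsm n h).1
    · exact (hbig n h).1
  · rw [Finset.sum_union hdisj, Finset.sum_image hinj1, Finset.sum_image hinj2]
    have hDq : (D : ℚ) ≠ 0 := by exact_mod_cast hDpos.ne'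
    have hbq : (b : ℚ) ≠ 0 := by exact_mod_cast hb.ne'
    have e1 : ∑ d ∈ T1, (1 / ((D / d : ℕ) : ℚ)) = (Q : ℚ) / D := by
      rw [← s1, Nat.cast_sum, Finset.sum_div]
      apply Finset.sum_congr rfl
      intro d hd
      obtain ⟨p0, e1, p1⟩ := hdd d (t1 hd)
      have h1 : (d : ℚ) * ((D / d : ℕ) : ℚ) = D := by exact_mod_cast e1
      have h2 : ((D / d : ℕ) : ℚ) ≠ 0 := by exact_mod_cast p1.ne'
      rw [div_eq_div_iff h2 hDq, one_mul, h1]
    have e2 : ∑ d ∈ T2, (1 / ((b * (D / d) : ℕ) : ℚ)) = (R : ℚ) / (b * D) := by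
      rw [← s2, Nat.cast_sum, Finset.sum_div]
      apply Finset.sum_congr rfl
      intro d hd
      obtain ⟨p0, e1, p1⟩ := hdd d (t2 hd)
      have h1 : (d : ℚ) * ((D / d : ℕ) : ℚ) = D := by exact_mod_cast e1
      have h2 : ((D / d : ℕ) : ℚ) ≠ 0 := by exact_mod_cast p1.ne'
      rw [Nat.cast_mul, div_eq_div_iff (mul_ne_zero hbq h2) (mul_ne_zero hbq hDq), one_mul, ← h1]
      ring
    rw [e1, e2]
    have h3 : (b : ℚ) * Q + R = a * D := by exact_mod_cast hdiv
    field_simp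
    linarith
  · calc _ ≤ (T1.image (fun d => D / d)).card + (T2.image (fun d => b * (D / d))).card :=
          Finset.card_union_le _ _
      _ ≤ T1.card + T2.card := Nat.add_le_add Finset.card_image_le Finset.card_image_le
      _ ≤ 2 * H := by omega

end Vale.Agent.P012
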