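import Vale.Agent.P012.Ranged

namespace Vale.Agent.P012

open Finset

theorem greedy_core (k : ℕ) : ∀ (a b T G : ℕ), 2 ≤ T → a * T ≤ b → G ≤ T ^ (2 ^ k) →
    ∃ (S : Finset ℕ) (a' P : ℕ), S.card ≤ k ∧
      (∀ n ∈ S, T ≤ n ∧ b ≤ a * n ∧ a' * n < b * P) ∧ 0 < P ∧
      (P = 1 ∨ P * b ≤ a * G ^ 2) ∧ a' ≤ a * P ∧ a' * G ≤ b * P ∧
      (a : ℚ) / b = ∑ n ∈ S, 1 / (n : ℚ) + (a' : ℚ) / ((b * P : ℕ) : ℚ) := by
  have base : ∀ (k a b T G : ℕ), a * G ≤ b →
      ∃ (S : Finset ℕ) (a' P : ℕ), S.card ≤ k ∧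
      (∀ n ∈ S, T ≤ n ∧ b ≤ a * n ∧ a' * n < b * P) ∧ 0 < P ∧
      (P = 1 ∨ P * b ≤ a * G ^ 2) ∧ a' ≤ a * P ∧ a' * G ≤ b * P ∧
      (a : ℚ) / b = ∑ n ∈ S, 1 / (n : ℚ) + (a' : ℚ) / ((b * P : ℕ) : ℚ) := by
    intro k a b T G h
    refine ⟨∅, a, 1, by simp, by simp, one_pos, Or.inl rfl, by simp, by simpa using h, by simp⟩
  induction k with
  | zero =>
    intro a b T G hT hab hG
    apply base
    have : G ≤ T := by simpa using hG
    exact (Nat.mul_le_mul_left a this).trans hab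
  | succ k ih =>
    intro a b T G hT hab hG
    by_cases hsmall : a * G ≤ b
    · exact base _ a b T G hsmall
    have hlt : b < a * G := not_le.1 hsmall
    have ha : 0 < a := by
      rcases Nat.eq_zero_or_pos a with h | h
      · subst h
        simp at hlt
      · exact h
    have hb : 0 < b := lt_of_lt_of_le (by positivity) hab
    obtain ⟨n, hn⟩ : ∃ n, n = (b + a - 1) / a := ⟨_, rfl⟩
    have hdm := Nat.div_add_mod (b + a - 1) a
    have hmod := Nat.mod_lt (b + a - 1) ha
    rw [← hn] at hdm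
    have hn1 : b ≤ a * n := by omega
    have hn2 : a * n < b + a := by omega
    have hTn : T ≤ n := Nat.le_of_mul_le_mul_left (hab.trans hn1) ha
    have hnG : n ≤ G := by
      have : a * n < a * (G + 1) := by
        rw [Nat.mul_add]
        omega
      have := Nat.lt_of_mul_lt_mul_left this
      omega
    have hnpos : 0 < n := by omega
    obtain ⟨a1, ha1⟩ : ∃ a1, a1 = a * n - b := ⟨_, rfl⟩
    have ha1a : a1 < a := by omega
    have ha1n : a1 + b = a * n := by omega
    have hab' : a < b := by nlinarith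
    have h1 : a1 * T ^ 2 ≤ b * n := by
      calc a1 * T ^ 2 ≤ a * T ^ 2 := Nat.mul_le_mul_right _ ha1a.le
        _ = (a * T) * T := by ring
        _ ≤ b * n := Nat.mul_le_mul hab hTn
    have h2 : G ≤ (T ^ 2) ^ (2 ^ k) := by
      rw [← pow_mul, ← pow_succ']
      exact hG
    obtain ⟨S1, a', P1, c1, c2, c3, c4, c5, c6, c7⟩ := ih a1 (b * n) (T ^ 2) G (by nlinarith) h1 h2
    have hnS : n ∉ S1 := by
      intro hmem
      have := (c2 n hmem).2.1
      have h3 : b * n ≤ a * n := this.trans (Nat.mul_le_mul_right _ ha1a.le)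
      have := Nat.le_of_mul_le_mul_right h3 hnpos
      omega
    have hassoc : b * (n * P1) = b * n * P1 := by ring
    refine ⟨insert n S1, a', n * P1, ?_, ?_, by positivity, ?_, ?_, ?_, ?_⟩
    · rw [Finset.card_insert_of_notMem hnS]
      omega
    · intro m hm
      rcases Finset.mem_insert.1 hm with rfl | hm
      · refine ⟨hTn, hn1, ?_⟩
        have h3 : a' < b * P1 := by
          calc a' ≤ a1 * P1 := c5
            _ < b * P1 := Nat.mul_lt_mul_of_pos_right (by omega) c3
        calc a' * m < b * P1 * m := Nat.mul_lt_mul_of_pos_right h3 hnpos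
          _ = b * (m * P1) := by ring
      · obtain ⟨d1, d2, d3⟩ := c2 m hm
        refine ⟨?_, ?_, ?_⟩
        · calc T ≤ T ^ 2 := by nlinarith
            _ ≤ m := d1
        · calc b ≤ b * n := Nat.le_mul_of_pos_right _ hnpos
            _ ≤ a1 * m := d2
            _ ≤ a * m := Nat.mul_le_mul_right _ ha1a.le
        · rw [hassoc]
          exact d3
    · right
      rcases c4 with rfl | c4
      · calc n * 1 * b = n * b := by ring
          _ ≤ G * (a * G) := Nat.mul_le_mul hnG hlt.le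
          _ = a * G ^ 2 := by ring
      · calc n * P1 * b = P1 * (b * n) := by ring
          _ ≤ a1 * G ^ 2 := c4
          _ ≤ a * G ^ 2 := Nat.mul_le_mul_right _ ha1a.le
    · calc a' ≤ a1 * P1 := c5
        _ ≤ a * (n * P1) := by
          calc a1 * P1 ≤ a * P1 := Nat.mul_le_mul_right _ ha1a.le
            _ ≤ a * (n * P1) := Nat.mul_le_mul_left _ (Nat.le_mul_of_pos_left _ hnpos)
    · rw [hassoc]
      exact c6
    · rw [Finset.sum_insert hnS, hassoc, add_assoc, ← c7]
      have hbq : (b : ℚ) ≠ 0 := by exact_mod_cast hb.ne'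
      have hnq : (n : ℚ) ≠ 0 := by exact_mod_cast hnpos.ne'
      have e1 : (a1 : ℚ) = a * n - b := by
        have : (a1 : ℚ) + b = a * n := by exact_mod_cast ha1n
        linarith
      rw [e1]
      push_cast
      field_simp
      ring

theorem greedy_pre (k a b G : ℕ) (hab : a < b) (hG : 2 ≤ G) (hk : G ≤ 2 ^ (2 ^ k)) :
    ∃ (S : Finset ℕ) (a' P : ℕ), S.card ≤ k + 1 ∧ (∀ n ∈ S, 2 ≤ n ∧ a' * n < b * P) ∧ 0 < P ∧
      P ≤ G ^ 2 ∧ a' * G ≤ b * P ∧
      (a : ℚ) / b = ∑ n ∈ S, 1 / (n : ℚ) + (a' : ℚ) / ((b * P : ℕ) : ℚ) := by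
  have hb : 0 < b := by omega
  have hG2 : 2 ≤ G ^ 2 := by nlinarith
  by_cases h2 : a * 2 ≤ b
  · obtain ⟨S, a', P, c1, c2, c3, c4, c5, c6, c7⟩ := greedy_core k a b 2 G le_rfl h2 hk
    refine ⟨S, a', P, by omega, fun n hn => ⟨(c2 n hn).1, (c2 n hn).2.2⟩, c3, ?_, c6, c7⟩
    rcases c4 with rfl | c4
    · omega
    · have : P * b ≤ G ^ 2 * b := by
        calc P * b ≤ a * G ^ 2 := c4
          _ ≤ b * G ^ 2 := Nat.mul_le_mul_right _ hab.le
          _ = G ^ 2 * b := by ring
      exact Nat.le_of_mul_le_mul_right this hb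
  · obtain ⟨a1, ha1⟩ : ∃ a1, a1 = 2 * a - b := ⟨_, rfl⟩
    have ha1b : a1 < b := by omega
    have ha1n : a1 + b = 2 * a := by omega
    obtain ⟨S1, a', P1, c1, c2, c3, c4, c5, c6, c7⟩ :=
      greedy_core k a1 (b * 2) 2 G le_rfl (by omega) hk
    have hnS : 2 ∉ S1 := by
      intro hmem
      have := (c2 2 hmem).2.1
      omega
    have hassoc : b * (2 * P1) = b * 2 * P1 := by ring
    refine ⟨insert 2 S1, a', 2 * P1, ?_, ?_, by positivity, ?_, ?_, ?_⟩
    · rw [Finset.card_insert_of_notMem hnS]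
      omega
    · intro m hm
      rcases Finset.mem_insert.1 hm with rfl | hm
      · refine ⟨le_rfl, ?_⟩
        have h3 : a' < b * P1 := by
          calc a' ≤ a1 * P1 := c5
            _ < b * P1 := Nat.mul_lt_mul_of_pos_right ha1b c3
        calc a' * 2 < b * P1 * 2 := Nat.mul_lt_mul_of_pos_right h3 (by norm_num)
          _ = b * (2 * P1) := by ring
      · refine ⟨(c2 m hm).1, ?_⟩
        rw [hassoc]
        exact (c2 m hm).2.2
    · rcases c4 with rfl | c4
      · omega
      · have : 2 * P1 * b ≤ G ^ 2 * b := by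
          calc 2 * P1 * b = P1 * (b * 2) := by ring
            _ ≤ a1 * G ^ 2 := c4
            _ ≤ b * G ^ 2 := Nat.mul_le_mul_right _ ha1b.le
            _ = G ^ 2 * b := by ring
        exact Nat.le_of_mul_le_mul_right this hb
    · rw [hassoc]
      exact c6
    · rw [Finset.sum_insert hnS, hassoc, add_assoc, ← c7]
      have hbq : (b : ℚ) ≠ 0 := by exact_mod_cast hb.ne'
      have e1 : (a1 : ℚ) = 2 * a - b := by
        have : (a1 : ℚ) + b = 2 * a := by exact_mod_cast ha1n
        linarith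
      rw [e1]
      push_cast
      field_simp
      ring

end Vale.Agent.P012
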