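import Vale.Agent.P012.Main

namespace Vale.Agent.P012

open Finset

theorem loglog_sixteen_gt_one : 1 < Real.log (Real.log 16) := by
  rw [Real.lt_log_iff_exp_lt]
  · have h1 : Real.log 16 = 4 * Real.log 2 := by
      rw [show (16 : ℝ) = 2 ^ 4 by norm_num, Real.log_pow]
      norm_num
    rw [h1]
    have := Real.exp_one_lt_d9
    have := Real.log_two_gt_d9
    linarith
  · exact Real.log_pos (by norm_num)

theorem loglog_mono16 {b : ℕ} (hb : 16 ≤ b) :
    Real.log (Real.log 16) ≤ Real.log (Real.log b) := by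
  have h3 : (16 : ℝ) ≤ b := by exact_mod_cast hb
  have h1 : Real.log 16 ≤ Real.log b := Real.log_le_log (by norm_num) h3
  have h0 : 0 < Real.log 16 := Real.log_pos (by norm_num)
  exact Real.log_le_log h0 h1

theorem main2_of_nat_bound2
    (hnb : ∃ C e0 : ℕ, ∀ e a b : ℕ, e0 ≤ e → a < b → b ≤ 2 ^ 2 ^ e →
      ∃ S : Finset ℕ, (∀ n ∈ S, 2 ≤ n) ∧ ∑ n ∈ S, (1 / (n : ℚ)) = (a : ℚ) / b ∧
        (S.card : ℝ) ≤ C * (e * (1 + Real.log e))) :
    ∃ C : ℝ, ∀ a b : ℕ, 1 ≤ a → a < b → 16 ≤ b →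
      ∃ S : Finset ℕ, (∀ n ∈ S, 2 ≤ n) ∧ ∑ n ∈ S, (1 / (n : ℚ)) = (a : ℚ) / b ∧
        (S.card : ℝ) ≤ C * (Real.log (Real.log b) * Real.log (Real.log (Real.log b))) := by
  obtain ⟨C0, e0, hC0⟩ := hnb
  set L0 : ℝ := Real.log (Real.log 16) with hL0
  have hL01 : 1 < L0 := loglog_sixteen_gt_one
  set M0 : ℝ := Real.log L0 with hM0
  have hM0pos : 0 < M0 := Real.log_pos hL01
  set e1 : ℕ := max e0 6 with he1
  set c1 : ℝ := C0 * (e1 * (1 + Real.log e1)) with hc1
  have he1R : (1 : ℝ) ≤ e1 := by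
    have : 1 ≤ e1 := le_trans (by norm_num) (le_max_right e0 6)
    exact_mod_cast this
  have hc1pos : 0 ≤ c1 := by
    have := Real.log_nonneg he1R
    positivity
  have hC0pos : (0 : ℝ) ≤ C0 := Nat.cast_nonneg C0
  refine ⟨c1 / (L0 * M0) + 15 * C0, ?_⟩
  intro a b ha hab hb
  set L : ℝ := Real.log (Real.log b) with hL
  have hLL0 : L0 ≤ L := loglog_mono16 hb
  have hLpos : 0 < L := by linarith
  set M : ℝ := Real.log L with hM
  have hMM0 : M0 ≤ M := Real.log_le_log (by linarith) hLL0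
  have hMpos : 0 < M := by linarith
  have hLM : L0 * M0 ≤ L * M := mul_le_mul hLL0 hMM0 hM0pos.le hLpos.le
  by_cases hsmall : b ≤ 2 ^ 2 ^ e1
  · obtain ⟨S, hS1, hS2, hS3⟩ := hC0 e1 a b (le_max_left _ _) hab hsmall
    refine ⟨S, hS1, hS2, ?_⟩
    have h1 : c1 ≤ c1 / (L0 * M0) * (L * M) := by
      rw [div_mul_eq_mul_div, le_div_iff₀ (by positivity)]
      exact mul_le_mul_of_nonneg_left hLM hc1pos
    have h2 : 0 ≤ 15 * C0 * (L * M) := by positivity
    calc (S.card : ℝ) ≤ c1 := hS3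
      _ ≤ c1 / (L0 * M0) * (L * M) + 15 * C0 * (L * M) := by linarith
      _ = (c1 / (L0 * M0) + 15 * C0) * (L * M) := by ring
  · have hex : ∃ k, b ≤ 2 ^ 2 ^ k :=
      ⟨b, (Nat.lt_two_pow_self).le.trans
        (Nat.pow_le_pow_right (by norm_num) (Nat.lt_two_pow_self).le)⟩
    classical
    set k := Nat.find hex with hk
    have hkspec : b ≤ 2 ^ 2 ^ k := Nat.find_spec hex
    have hke1 : e1 < k := by
      by_contra hlt
      apply hsmall
      have hk7 : k ≤ e1 := by omega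
      exact hkspec.trans
        (Nat.pow_le_pow_right (by norm_num) (Nat.pow_le_pow_right (by norm_num) hk7))
    have h6 : 6 ≤ e1 := le_max_right _ _
    have he0 : e0 ≤ e1 := le_max_left _ _
    obtain ⟨m, hm⟩ : ∃ m, k = m + 2 := ⟨k - 2, by omega⟩
    have hmin : ¬ b ≤ 2 ^ 2 ^ (m + 1) := Nat.find_min hex (by omega)
    have hlow := loglog_lower (not_le.mp hmin)
    rw [← hL] at hlow
    have hm5 : (5 : ℝ) ≤ m := by
      have : 5 ≤ m := by omega
      exact_mod_cast this
    have hL2 : 2 < L := by linarith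
    have hkR : (k : ℝ) = m + 2 := by
      rw [hm]
      push_cast
      ring
    have hkL : (k : ℝ) ≤ 3 * L := by
      rw [hkR]
      linarith
    have hkpos : (0 : ℝ) < k := by
      rw [hkR]
      linarith
    obtain ⟨S, hS1, hS2, hS3⟩ := hC0 k a b (by omega) hab hkspec
    refine ⟨S, hS1, hS2, ?_⟩
    have hlogk : Real.log k ≤ Real.log 3 + M := by
      rw [hM, ← Real.log_mul (by norm_num) hLpos.ne']
      exact Real.log_le_log hkpos hkL
    have hlog3 : Real.log 3 ≤ 2 * Real.log 2 := by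
      have h4 : Real.log 4 = 2 * Real.log 2 := by
        rw [show (4 : ℝ) = 2 ^ 2 by norm_num, Real.log_pow]
        norm_num
      rw [← h4]
      exact Real.log_le_log (by norm_num) (by norm_num)
    have hMlog2 : Real.log 2 ≤ M := Real.log_le_log (by norm_num) hL2.le
    have hl2a := Real.log_two_gt_d9
    have hl2b := Real.log_two_lt_d9
    have h5 : 1 + Real.log k ≤ 5 * M := by linarith
    have h6' : (k : ℝ) * (1 + Real.log k) ≤ 15 * (L * M) := by
      calc (k : ℝ) * (1 + Real.log k) ≤ (3 * L) * (5 * M) :=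
            mul_le_mul hkL h5 (by
              have : 0 ≤ Real.log k := Real.log_nonneg (by rw [hkR]; linarith)
              linarith) (by positivity)
        _ = 15 * (L * M) := by ring
    have h0 : 0 ≤ c1 / (L0 * M0) * (L * M) := by positivity
    calc (S.card : ℝ) ≤ C0 * (k * (1 + Real.log k)) := hS3
      _ ≤ C0 * (15 * (L * M)) := mul_le_mul_of_nonneg_left h6' hC0pos
      _ ≤ c1 / (L0 * M0) * (L * M) + 15 * C0 * (L * M) := by linarith
      _ = (c1 / (L0 * M0) + 15 * C0) * (L * M) := by ring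

end Vale.Agent.P012
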