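import Vale.Agent.P012.Final2
import Vale.Agent.P012.Greedy
import Vale.Agent.P012.Egyptian2
import Vale.Agent.P012.Main2

namespace Vale.Agent.P012

open Finset

theorem egyptian_of_good2 {e c z H a b : ℕ} (hG : Good2 e c z H) (hz : 5 * 2 ^ e ≤ z)
    (hab : a < b) (hb : b ≤ 2 ^ 2 ^ e) :
    ∃ S : Finset ℕ, (∀ n ∈ S, 2 ≤ n) ∧ ∑ n ∈ S, (1 / (n : ℚ)) = (a : ℚ) / b ∧
      S.card ≤ (e + 2) + 2 * H := by
  classical
  obtain ⟨S, Z, hS, -, -, hzZ, hD, hR⟩ := hG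
  set G := 4 ^ (2 ^ e) with hGdef
  have hGpow : G = 2 ^ (2 ^ (e + 1)) := by
    rw [hGdef, show (4 : ℕ) = 2 ^ 2 by norm_num, ← pow_mul]
    congr 1
    rw [pow_succ]
    ring
  have hG2 : 2 ≤ G := by
    rw [hGpow]
    calc 2 = 2 ^ 1 := by norm_num
      _ ≤ 2 ^ (2 ^ (e + 1)) := Nat.pow_le_pow_right (by norm_num) Nat.one_le_two_pow
  obtain ⟨S1, a', P, c1, c2, c3, c4, c5, c6⟩ := greedy_pre (e + 1) a b G hab hG2 hGpow.le
  have hbpos : 0 < b := by omega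
  have hbP : b * P ≤ Z := by
    calc b * P ≤ 2 ^ 2 ^ e * G ^ 2 := Nat.mul_le_mul hb c4
      _ = 2 ^ (5 * 2 ^ e) := by
          rw [hGpow, ← pow_mul, ← pow_add]
          congr 1
          rw [pow_succ]
          ring
      _ ≤ 2 ^ z := Nat.pow_le_pow_right (by norm_num) hz
      _ ≤ Z := hzZ
  obtain ⟨S2, d1, d2, d3⟩ := egyptian_of_rrep (a := a') (b := b * P) hR (prod_primes_pos S hS) hG2 hD
    (Nat.mul_pos hbpos c3) hbP c5
  have hdisj : Disjoint S1 S2 := by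
    rw [Finset.disjoint_left]
    intro n h1 h2
    have := (c2 n h1).2
    have := (d1 n h2).2
    omega
  refine ⟨S1 ∪ S2, ?_, ?_, ?_⟩
  · intro n hn
    rcases Finset.mem_union.1 hn with h | h
    · exact (c2 n h).1
    · exact (d1 n h).1
  · rw [Finset.sum_union hdisj, d2, c6]
  · rw [Finset.card_union_of_disjoint hdisj]
    omega

theorem nat_bound2 : ∃ C e0 : ℕ, ∀ e a b : ℕ, e0 ≤ e → a < b → b ≤ 2 ^ 2 ^ e →
    ∃ S : Finset ℕ, (∀ n ∈ S, 2 ≤ n) ∧ ∑ n ∈ S, (1 / (n : ℚ)) = (a : ℚ) / b ∧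
      (S.card : ℝ) ≤ C * (e * (1 + Real.log e)) := by
  obtain ⟨C, e0, hC⟩ := good2_final
  refine ⟨2 * C + 3, max e0 1, fun e a b he hab hb => ?_⟩
  obtain ⟨c, H, hG, hH⟩ := hC e (le_trans (le_max_left _ _) he)
  obtain ⟨S, s1, s2, s3⟩ := egyptian_of_good2 hG le_rfl hab hb
  refine ⟨S, s1, s2, ?_⟩
  have he1 : (1 : ℝ) ≤ e := by
    have : 1 ≤ e := le_trans (le_max_right _ _) he
    exact_mod_cast this
  have hlog : 0 ≤ Real.log e := Real.log_nonneg he1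
  have s3' : (S.card : ℝ) ≤ (e + 2) + 2 * H := by exact_mod_cast s3
  have h1 : (e : ℝ) ≤ e * (1 + Real.log e) := by nlinarith
  push_cast
  nlinarith

theorem main2 : ∃ C : ℝ, ∀ a b : ℕ, 1 ≤ a → a < b → 16 ≤ b →
    ∃ S : Finset ℕ, (∀ n ∈ S, 2 ≤ n) ∧ ∑ n ∈ S, (1 / (n : ℚ)) = (a : ℚ) / b ∧
      (S.card : ℝ) ≤ C * (Real.log (Real.log b) * Real.log (Real.log (Real.log b))) :=
  main2_of_nat_bound2 nat_bound2

end Vale.Agent.P012
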