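import Vale.Agent.P012.BlockAux

namespace Vale.Agent.P012

open Finset

theorem energy_bound (q cA cB N t s : ℝ) (ht : 0 < t) (hcA0 : 0 ≤ cA)
    (hcB0 : 0 ≤ cB) (hq : q ≤ t ^ 4) (hA : t ^ 3 * cA ≤ 49 * N ^ 2)
    (hB : t ^ 3 * cB ≤ 49 * N ^ 2) (hs : 49 ≤ s) : q * cA * cB ≤ (s / t * N * N) ^ 2 := by
  have h1 : q * cA * cB ≤ t ^ 4 * cA * cB := by
    have : q * cA ≤ t ^ 4 * cA := mul_le_mul_of_nonneg_right hq hcA0
    exact mul_le_mul_of_nonneg_right this hcB0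
  have h2 : (t ^ 3 * cA) * (t ^ 3 * cB) ≤ (49 * N ^ 2) * (49 * N ^ 2) := by
    apply mul_le_mul hA hB (by positivity) (by positivity)
  have h3 : (49 * N ^ 2) * (49 * N ^ 2) ≤ (s * N ^ 2) * (s * N ^ 2) := by
    have : 49 * N ^ 2 ≤ s * N ^ 2 := mul_le_mul_of_nonneg_right hs (by positivity)
    apply mul_le_mul this this (by positivity) (by positivity)
  have h4 : (s / t * N * N) ^ 2 = (s * N ^ 2) * (s * N ^ 2) / t ^ 2 := by
    field_simp
  rw [h4, le_div_iff₀ (by positivity)]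
  calc q * cA * cB * t ^ 2 ≤ t ^ 4 * cA * cB * t ^ 2 :=
        mul_le_mul_of_nonneg_right h1 (by positivity)
    _ = (t ^ 3 * cA) * (t ^ 3 * cB) := by ring
    _ ≤ _ := h2.trans h3

theorem hsum_bound (J : Finset ℕ) (x j : ℕ) (hJc : J.card = j)
    (hJle : ∀ p ∈ J, p ≤ 2 ^ (4 * x)) (h5 : 2 * j * 2 ^ 48 ≤ 2 ^ (4 * x)) :
    ∑ I ∈ J.powerset.erase ∅, ((∏ p ∈ I, p : ℕ) : ℝ) * (((64 : ℝ) / 2 ^ x) ^ I.card) ^ 8 < 1 := by
  set z : ℝ := 2 ^ x with hz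
  have hz0 : 0 < z := by positivity
  have hz4 : (2 : ℝ) ^ (4 * x) = z ^ 4 := by rw [hz, ← pow_mul, mul_comm]
  set y : ℝ := 2 ^ 48 / z ^ 4 with hy
  have hy0 : 0 ≤ y := by positivity
  have hterm : ∀ I ∈ J.powerset.erase ∅,
      ((∏ p ∈ I, p : ℕ) : ℝ) * ((64 / z) ^ I.card) ^ 8 ≤ ∏ _p ∈ I, y := by
    intro I hI
    have hIJ : I ⊆ J := Finset.mem_powerset.mp (Finset.mem_of_mem_erase hI)
    rw [Nat.cast_prod, ← pow_mul, mul_comm I.card 8, pow_mul, ← Finset.prod_const,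
      ← Finset.prod_mul_distrib]
    apply Finset.prod_le_prod
    · intro p _
      positivity
    · intro p hp
      have hp4 : (p : ℝ) ≤ z ^ 4 := by
        rw [← hz4]
        exact_mod_cast hJle p (hIJ hp)
      have h8 : (64 / z) ^ 8 = 2 ^ 48 / z ^ 8 := by
        rw [div_pow]
        norm_num
      rw [h8]
      calc (p : ℝ) * (2 ^ 48 / z ^ 8) ≤ z ^ 4 * (2 ^ 48 / z ^ 8) :=
            mul_le_mul_of_nonneg_right hp4 (by positivity)
        _ = y := by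
            rw [hy]
            field_simp
  have hjy : (j : ℝ) * y ≤ 1 / 2 := by
    have h5' : (2 : ℝ) * j * 2 ^ 48 ≤ z ^ 4 := by
      rw [← hz4]
      exact_mod_cast h5
    rw [hy, mul_div_assoc', div_le_iff₀ (by positivity)]
    linarith
  have hlt := one_add_pow_lt_two y j hy0 hjy
  have hsum : ∑ I ∈ J.powerset.erase ∅, ∏ _p ∈ I, y = (1 + y) ^ j - 1 := by
    rw [Finset.sum_erase_eq_sub (Finset.empty_mem_powerset J), ← Finset.prod_one_add,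
      Finset.prod_const, hJc]
    simp
  calc _ ≤ ∑ I ∈ J.powerset.erase ∅, ∏ _p ∈ I, y := Finset.sum_le_sum hterm
    _ = (1 + y) ^ j - 1 := hsum
    _ < 1 := by linarith

end Vale.Agent.P012
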