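import Vale.Agent.P012.Defs

namespace Vale.Agent.P012

open Finset

theorem rep_mono {D H H' : ℕ} (h : Rep D H) (hH : H ≤ H') : Rep D H' := by
  intro m hm
  obtain ⟨S, h1, h2, h3⟩ := h m hm
  exact ⟨S, h1, h2.trans hH, h3⟩

theorem rep_step {D q H K : ℕ} (hD : 0 < D) (hq : 1 < q) (hcop : Nat.Coprime q D) (hRep : Rep D H)
    (hres : ∀ r : ℕ, ∃ T : Finset ℕ, T ⊆ D.divisors ∧ T.card ≤ K ∧ ∑ d ∈ T, d ≤ D ∧
      (∑ d ∈ T, d) ≡ r [MOD q]) :
    Rep (q * D) (H + K) := by
  intro m hm
  have hQN : q * D ≠ 0 := by positivity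
  by_cases hmN : m ≤ D
  · obtain ⟨S, h1, h2, h3⟩ := hRep m hmN
    refine ⟨S, ?_, by omega, h3⟩
    intro d hd
    have := Nat.mem_divisors.1 (h1 hd)
    exact Nat.mem_divisors.2 ⟨this.1.mul_left q, hQN⟩
  · obtain ⟨T, t1, t2, t3, t4⟩ := hres m
    have hTm : ∑ d ∈ T, d ≤ m := by omega
    have hdvd : q ∣ m - ∑ d ∈ T, d := (Nat.modEq_iff_dvd' hTm).1 t4
    obtain ⟨m', hm'⟩ := hdvd
    have hm'N : m' ≤ D := by
      by_contra hcon
      have : q * (D + 1) ≤ q * m' := Nat.mul_le_mul_left q (by omega)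
      rw [Nat.mul_add] at this
      omega
    obtain ⟨S, s1, s2, s3⟩ := hRep m' hm'N
    have hinj : Function.Injective (fun d : ℕ => q * d) := fun a b hab =>
      Nat.eq_of_mul_eq_mul_left (by omega) hab
    have hdisj : Disjoint T (S.image (fun d => q * d)) := by
      rw [Finset.disjoint_left]
      intro d hdT hdS
      obtain ⟨e, _, rfl⟩ := Finset.mem_image.1 hdS
      have h1 : q * e ∣ D := (Nat.mem_divisors.1 (t1 hdT)).1
      have h2 : q ∣ D := (Dvd.intro e rfl).trans h1
      have h3 : q ∣ Nat.gcd q D := Nat.dvd_gcd dvd_rfl h2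
      rw [hcop] at h3
      have := Nat.le_of_dvd one_pos h3
      omega
    refine ⟨T ∪ S.image (fun d => q * d), ?_, ?_, ?_⟩
    · intro d hd
      rcases Finset.mem_union.1 hd with hd | hd
      · have := Nat.mem_divisors.1 (t1 hd)
        exact Nat.mem_divisors.2 ⟨this.1.mul_left q, hQN⟩
      · obtain ⟨e, he, rfl⟩ := Finset.mem_image.1 hd
        have := Nat.mem_divisors.1 (s1 he)
        exact Nat.mem_divisors.2 ⟨Nat.mul_dvd_mul_left q this.1, hQN⟩
    · rw [Finset.card_union_of_disjoint hdisj, Finset.card_image_of_injective _ hinj]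
      omega
    · rw [Finset.sum_union hdisj, Finset.sum_image (fun a _ b _ hab => hinj hab), ← Finset.mul_sum, s3,
        ← hm']
      omega

theorem primesLE_succ_of_prime {Y : ℕ} (hp : (Y + 1).Prime) :
    Nat.primesLE (Y + 1) = insert (Y + 1) (Nat.primesLE Y) := by
  ext p
  simp only [Nat.mem_primesLE, Finset.mem_insert]
  constructor
  · rintro ⟨h1, h2⟩
    rcases Nat.lt_or_ge p (Y + 1) with h | h
    · exact Or.inr ⟨by omega, h2⟩
    · exact Or.inl (by omega)
  · rintro (rfl | ⟨h1, h2⟩)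
    · exact ⟨le_rfl, hp⟩
    · exact ⟨by omega, h2⟩

theorem primesLE_succ_of_not_prime {Y : ℕ} (hp : ¬ (Y + 1).Prime) :
    Nat.primesLE (Y + 1) = Nat.primesLE Y := by
  ext p
  simp only [Nat.mem_primesLE]
  constructor
  · rintro ⟨h1, h2⟩
    refine ⟨?_, h2⟩
    rcases Nat.lt_or_ge p (Y + 1) with h | h
    · omega
    · have : p = Y + 1 := by omega
      subst this
      exact absurd h2 hp
  · rintro ⟨h1, h2⟩
    exact ⟨by omega, h2⟩

theorem rep_primorial (Y : ℕ) : ∃ H, Rep (∏ p ∈ Nat.primesLE Y, p) H := by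
  induction Y with
  | zero =>
    refine ⟨1, ?_⟩
    intro m hm
    simp only [Nat.primesLE_zero, Finset.prod_empty] at hm ⊢
    interval_cases m
    · exact ⟨∅, by simp, by simp, by simp⟩
    · exact ⟨{1}, by simp, by simp, by simp⟩
  | succ Y ih =>
    obtain ⟨H, hH⟩ := ih
    by_cases hp : (Y + 1).Prime
    · refine ⟨H + H, ?_⟩
      have hnot : Y + 1 ∉ Nat.primesLE Y := by
        simp [Nat.mem_primesLE]
      rw [primesLE_succ_of_prime hp, Finset.prod_insert hnot]
      set D := ∏ p ∈ Nat.primesLE Y, p with hD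
      have hDpos : 0 < D := Finset.prod_pos fun p hp' => (Nat.mem_primesLE.1 hp').2.pos
      have hcop : Nat.Coprime (Y + 1) D := by
        apply Nat.Coprime.prod_right
        intro p hp'
        have h1 := Nat.mem_primesLE.1 hp'
        rw [Nat.coprime_primes hp h1.2]
        omega
      have hle : Y + 1 ≤ D + 1 := by
        have hne : D + 1 ≠ 1 := by omega
        have hmf := Nat.minFac_prime hne
        have h1 : (D + 1).minFac ≤ D + 1 := Nat.minFac_le (by omega)
        have h2 : Y < (D + 1).minFac := by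
          by_contra hcon
          have hmem : (D + 1).minFac ∈ Nat.primesLE Y := Nat.mem_primesLE.2 ⟨by omega, hmf⟩
          have hd1 : (D + 1).minFac ∣ D := Finset.dvd_prod_of_mem (fun p => p) hmem
          have hd2 : (D + 1).minFac ∣ D + 1 := Nat.minFac_dvd _
          have hd3 : (D + 1).minFac ∣ 1 := (Nat.dvd_add_right hd1).1 hd2
          exact hmf.one_lt.ne' (Nat.dvd_one.1 hd3)
        omega
      apply rep_step hDpos hp.one_lt hcop hH
      intro r
      have hr : r % (Y + 1) ≤ D := by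
        have : r % (Y + 1) < Y + 1 := Nat.mod_lt r (Nat.succ_pos Y)
        omega
      obtain ⟨T, t1, t2, t3⟩ := hH _ hr
      refine ⟨T, t1, t2, by omega, ?_⟩
      rw [t3]
      exact Nat.mod_modEq r (Y + 1)
    · exact ⟨H, by rw [primesLE_succ_of_not_prime hp]; exact hH⟩

end Vale.Agent.P012
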