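import Vale.Agent.P012.Defs

namespace Vale.Agent.P012

open Finset

theorem greedy (P : Finset ℕ) (F : Finset ℕ → ℝ) (hF : ∀ I, 0 ≤ F I) (w c δ : ℝ)
    (hc : 0 ≤ c) (hδ : 0 ≤ δ)
    (hstep : ∀ I ⊆ P, ∑ p ∈ P \ I, F (insert p I) ≤ w * F I)
    (j : ℕ) (hj : j ≤ P.card) (hcond : c * w ≤ δ * ((P.card : ℝ) - j)) :
    ∀ i ≤ j, ∃ J ⊆ P, J.card = i ∧
      ∑ I ∈ J.powerset, c ^ I.card * F I ≤ (1 + δ) ^ i * F ∅ := by
  intro i
  induction i with
  | zero =>
    intro _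
    exact ⟨∅, Finset.empty_subset _, rfl, by simp⟩
  | succ i ih =>
    intro hi
    obtain ⟨J, hJP, hJc, hJ⟩ := ih (by omega)
    set Φ := ∑ I ∈ J.powerset, c ^ I.card * F I with hΦ
    have hΦnn : 0 ≤ Φ := Finset.sum_nonneg (fun I _ => mul_nonneg (pow_nonneg hc _) (hF I))
    have hcardsd : (P \ J).card = P.card - i := by rw [Finset.card_sdiff_of_subset hJP, hJc]
    have hne : (P \ J).Nonempty := by
      rw [← Finset.card_pos, hcardsd]; omega
    have hsum : ∑ p ∈ P \ J, ∑ I ∈ J.powerset, c ^ (I.card + 1) * F (insert p I)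
        ≤ ∑ _p ∈ P \ J, δ * Φ := by
      rw [Finset.sum_comm, Finset.sum_const, nsmul_eq_mul, hcardsd]
      have h1 : ∀ I ∈ J.powerset, ∑ p ∈ P \ J, c ^ (I.card + 1) * F (insert p I)
          ≤ c * w * (c ^ I.card * F I) := by
        intro I hI
        have hIJ : I ⊆ J := Finset.mem_powerset.mp hI
        rw [← Finset.mul_sum]
        have h2 : ∑ p ∈ P \ J, F (insert p I) ≤ ∑ p ∈ P \ I, F (insert p I) :=
          Finset.sum_le_sum_of_subset_of_nonneg (Finset.sdiff_subset_sdiff (le_refl P) hIJ)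
            (fun p _ _ => hF _)
        have h3 := h2.trans (hstep I (hIJ.trans hJP))
        calc c ^ (I.card + 1) * ∑ p ∈ P \ J, F (insert p I)
            ≤ c ^ (I.card + 1) * (w * F I) :=
              mul_le_mul_of_nonneg_left h3 (pow_nonneg hc _)
          _ = c * w * (c ^ I.card * F I) := by ring
      calc ∑ I ∈ J.powerset, ∑ p ∈ P \ J, c ^ (I.card + 1) * F (insert p I)
          ≤ ∑ I ∈ J.powerset, c * w * (c ^ I.card * F I) := Finset.sum_le_sum h1
        _ = c * w * Φ := by rw [← Finset.mul_sum]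
        _ ≤ δ * ((P.card : ℝ) - j) * Φ := mul_le_mul_of_nonneg_right hcond hΦnn
        _ ≤ δ * ((P.card : ℝ) - i) * Φ := by
            apply mul_le_mul_of_nonneg_right _ hΦnn
            apply mul_le_mul_of_nonneg_left _ hδ
            have : (i : ℝ) ≤ j := by exact_mod_cast (by omega : i ≤ j)
            linarith
        _ = ((P.card - i : ℕ) : ℝ) * (δ * Φ) := by
            rw [Nat.cast_sub (by omega)]; ring
    obtain ⟨p, hp, hpG⟩ := Finset.exists_le_of_sum_le hne hsum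
    have hpJ : p ∉ J := (Finset.mem_sdiff.mp hp).2
    refine ⟨insert p J, ?_, ?_, ?_⟩
    · exact Finset.insert_subset (Finset.mem_sdiff.mp hp).1 hJP
    · rw [Finset.card_insert_of_notMem hpJ, hJc]
    · rw [Finset.sum_powerset_insert hpJ]
      have h4 : ∑ I ∈ J.powerset, c ^ (insert p I).card * F (insert p I)
          = ∑ I ∈ J.powerset, c ^ (I.card + 1) * F (insert p I) := by
        apply Finset.sum_congr rfl
        intro I hI
        rw [Finset.card_insert_of_notMem (fun h => hpJ (Finset.mem_powerset.mp hI h))]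
      rw [h4]
      calc Φ + ∑ I ∈ J.powerset, c ^ (I.card + 1) * F (insert p I)
          ≤ Φ + δ * Φ := by linarith
        _ = (1 + δ) * Φ := by ring
        _ ≤ (1 + δ) * ((1 + δ) ^ i * F ∅) := mul_le_mul_of_nonneg_left hJ (by linarith)
        _ = (1 + δ) ^ (i + 1) * F ∅ := by ring

theorem card_prime_dvd_le (Q : Finset ℕ) (hQ : ∀ p ∈ Q, p.Prime) (z : ℤ) (hz : z ≠ 0) (w : ℕ)
    (hzw : z.natAbs ≤ 2 ^ w) : (Q.filter (fun p : ℕ => (p : ℤ) ∣ z)).card ≤ w := by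
  set R := Q.filter (fun p : ℕ => (p : ℤ) ∣ z) with hR
  have h1 : ∏ p ∈ R, p ∣ z.natAbs := by
    apply Finset.prod_primes_dvd
    · intro p hp
      exact (hQ p (Finset.mem_filter.mp hp).1).prime
    · intro p hp
      exact Int.natCast_dvd.mp (Finset.mem_filter.mp hp).2
  have h2 : ∏ p ∈ R, p ≤ z.natAbs := Nat.le_of_dvd (Int.natAbs_pos.mpr hz) h1
  have h3 : 2 ^ R.card ≤ ∏ p ∈ R, p := by
    rw [← Finset.prod_const]
    apply Finset.prod_le_prod'
    intro p hp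
    exact (hQ p (Finset.mem_filter.mp hp).1).two_le
  exact (Nat.pow_le_pow_iff_right (by norm_num)).mp (h3.trans (h2.trans hzw))

theorem collOff_step (P : Finset ℕ) (hP : ∀ p ∈ P, p.Prime) (A : Finset ℤ) (w : ℕ)
    (hA : ∀ a ∈ A, 0 ≤ a ∧ a ≤ 2 ^ w) (I : Finset ℕ) :
    ∑ p ∈ P \ I, collOff A (∏ q ∈ insert p I, q) ≤ w * collOff A (∏ q ∈ I, q) := by
  classical
  unfold collOff
  set T := A.offDiag.filter (fun x => ((∏ q ∈ I, q : ℕ) : ℤ) ∣ x.1 - x.2) with hT
  have h1 : ∀ p ∈ P \ I, (A.offDiag.filter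
      (fun x => ((∏ q ∈ insert p I, q : ℕ) : ℤ) ∣ x.1 - x.2)).card
      ≤ ∑ x ∈ T, (if (p : ℤ) ∣ x.1 - x.2 then 1 else 0) := by
    intro p hp
    rw [← Finset.card_filter]
    apply Finset.card_le_card
    intro x hx
    obtain ⟨hx1, hx2⟩ := Finset.mem_filter.mp hx
    rw [Finset.prod_insert (Finset.mem_sdiff.mp hp).2] at hx2
    push_cast at hx2
    rw [Finset.mem_filter, hT, Finset.mem_filter]
    refine ⟨⟨hx1, ?_⟩, (dvd_mul_right _ _).trans hx2⟩
    push_cast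
    exact (dvd_mul_left _ _).trans hx2
  calc ∑ p ∈ P \ I, (A.offDiag.filter
      (fun x => ((∏ q ∈ insert p I, q : ℕ) : ℤ) ∣ x.1 - x.2)).card
      ≤ ∑ p ∈ P \ I, ∑ x ∈ T, (if (p : ℤ) ∣ x.1 - x.2 then 1 else 0) := Finset.sum_le_sum h1
    _ = ∑ x ∈ T, ∑ p ∈ P \ I, (if (p : ℤ) ∣ x.1 - x.2 then 1 else 0) := Finset.sum_comm
    _ ≤ ∑ _x ∈ T, w := by
        apply Finset.sum_le_sum
        intro x hx
        rw [← Finset.card_filter]
        have hxo : x ∈ A.offDiag := (Finset.mem_filter.mp hx).1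
        obtain ⟨hx1, hx2, hne⟩ := Finset.mem_offDiag.mp hxo
        apply card_prime_dvd_le _ (fun p hp => hP p (Finset.mem_sdiff.mp hp).1) _ (sub_ne_zero.mpr hne)
        have ha := hA _ hx1
        have hb := hA _ hx2
        have : |x.1 - x.2| ≤ 2 ^ w := by
          rw [abs_le]; constructor <;> linarith [ha.1, ha.2, hb.1, hb.2]
        have h5 : ((x.1 - x.2).natAbs : ℤ) ≤ ((2 ^ w : ℕ) : ℤ) := by
          rw [Int.natCast_natAbs]; push_cast; exact this
        exact_mod_cast h5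
    _ = w * T.card := by rw [Finset.sum_const, smul_eq_mul, mul_comm]

theorem one_add_inv_pow_le (j : ℕ) (hj : 1 ≤ j) : (1 + 1 / (j : ℝ)) ^ j ≤ 3 := by
  have hjpos : (0 : ℝ) < j := by exact_mod_cast hj
  have h1 : 1 + 1 / (j : ℝ) ≤ Real.exp (1 / (j : ℝ)) := by
    have := Real.add_one_le_exp (1 / (j : ℝ))
    linarith
  calc (1 + 1 / (j : ℝ)) ^ j ≤ (Real.exp (1 / (j : ℝ))) ^ j :=
        pow_le_pow_left₀ (by positivity) h1 j
    _ = Real.exp 1 := by
        rw [← Real.exp_nat_mul]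
        congr 1
        field_simp
    _ ≤ 3 := by
        have := Real.exp_one_lt_d9
        linarith

theorem select {g : ℕ} (P : Finset ℕ) (hP : ∀ p ∈ P, p.Prime) (fam : Fin g → Finset ℤ) (w : ℕ)
    (hfam : ∀ i, ∀ a ∈ fam i, 0 ≤ a ∧ a ≤ 2 ^ w) (c : ℝ) (hc : 0 < c) (j : ℕ) (hj : 1 ≤ j)
    (hcond : c * w * j + j ≤ P.card) :
    ∃ J ⊆ P, J.card = j ∧ ∀ I ⊆ J, ∀ i,
      c ^ I.card * (collOff (fam i) (∏ p ∈ I, p) : ℝ) ≤ 3 * ∑ i, ((fam i).card : ℝ) ^ 2 := by
  classical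
  have hjpos : (0 : ℝ) < j := by exact_mod_cast hj
  set F : Finset ℕ → ℝ := fun I => ∑ i, (collOff (fam i) (∏ p ∈ I, p) : ℝ) with hFdef
  have hF : ∀ I, 0 ≤ F I := fun I => Finset.sum_nonneg (fun i _ => Nat.cast_nonneg _)
  have hstep : ∀ I ⊆ P, ∑ p ∈ P \ I, F (insert p I) ≤ (w : ℝ) * F I := by
    intro I _
    simp only [hFdef]
    rw [Finset.sum_comm, Finset.mul_sum]
    apply Finset.sum_le_sum
    intro i _
    exact_mod_cast collOff_step P hP (fam i) w (hfam i) I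
  have hjP : j ≤ P.card := by
    have h0 : (0 : ℝ) ≤ c * w * j := by positivity
    have : (j : ℝ) ≤ P.card := by linarith
    exact_mod_cast this
  have hcond' : c * w ≤ 1 / (j : ℝ) * ((P.card : ℝ) - j) := by
    rw [one_div, inv_mul_eq_div, le_div_iff₀ hjpos]
    linarith
  obtain ⟨J, hJP, hJc, hJ⟩ := greedy P F hF w c (1 / (j : ℝ)) hc.le (by positivity) hstep j hjP
    hcond' j (le_refl j)
  refine ⟨J, hJP, hJc, ?_⟩
  intro I hI i
  have hF0 : F ∅ ≤ ∑ i, ((fam i).card : ℝ) ^ 2 := by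
    simp only [hFdef]
    apply Finset.sum_le_sum
    intro i _
    have h1 : collOff (fam i) (∏ p ∈ (∅ : Finset ℕ), p) ≤ (fam i).card ^ 2 := by
      unfold collOff
      refine (Finset.card_filter_le _ _).trans ?_
      rw [Finset.offDiag_card, sq]
      exact Nat.sub_le _ _
    exact_mod_cast h1
  have hF0nn : 0 ≤ F ∅ := hF ∅
  calc c ^ I.card * (collOff (fam i) (∏ p ∈ I, p) : ℝ)
      ≤ c ^ I.card * F I := by
        apply mul_le_mul_of_nonneg_left _ (pow_nonneg hc.le _)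
        exact Finset.single_le_sum (f := fun i => (collOff (fam i) (∏ p ∈ I, p) : ℝ))
          (fun i _ => Nat.cast_nonneg _) (Finset.mem_univ i)
    _ ≤ ∑ I ∈ J.powerset, c ^ I.card * F I :=
        Finset.single_le_sum (f := fun I => c ^ I.card * F I)
          (fun I _ => mul_nonneg (pow_nonneg hc.le _) (hF I)) (Finset.mem_powerset.mpr hI)
    _ ≤ (1 + 1 / (j : ℝ)) ^ j * F ∅ := hJ
    _ ≤ 3 * F ∅ := mul_le_mul_of_nonneg_right (one_add_inv_pow_le j hj) hF0nn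
    _ ≤ 3 * ∑ i, ((fam i).card : ℝ) ^ 2 := by linarith

end Vale.Agent.P012
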