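import Vale.Agent.P012.Fourier
import Vale.Agent.P012.Select
import Vale.Agent.P012.RepLemmas
import Vale.Agent.P012.BlockAnalytic

namespace Vale.Agent.P012

open Finset

theorem coll_scaled_bound (F : Finset ℤ) (m : ℕ) (N c : ℝ) (i : ℕ) (hcard : (F.card : ℝ) = N)
    (hcN : c ^ i ≤ N) (hN : 0 ≤ N) (hoff : c ^ i * (collOff F m : ℝ) ≤ 48 * N ^ 2) :
    c ^ i * (coll F m : ℝ) ≤ 49 * N ^ 2 := by
  rw [coll_eq, Nat.cast_add, hcard, mul_add]
  have : c ^ i * N ≤ N * N := mul_le_mul_of_nonneg_right hcN hN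
  nlinarith

theorem block_step (S : Finset ℕ) (hS : ∀ p ∈ S, p.Prime) (u x j w H : ℕ)
    (h1 : 2 * u + 8 ≤ S.card) (h2 : ∏ p ∈ S, p ≤ 2 ^ w) (h3 : 3 * x * j ≤ u)
    (h4 : 2 ^ (3 * x) * w * j + j + S.card ≤ Nat.primeCounting (2 ^ (4 * x)))
    (h5 : 2 * j * 2 ^ 48 ≤ 2 ^ (4 * x)) (h6 : 1 ≤ j)
    (hRep : Rep (∏ p ∈ S, p) H) :
    ∃ J : Finset ℕ, (∀ p ∈ J, p.Prime ∧ p ≤ 2 ^ (4 * x)) ∧ Disjoint J S ∧ J.card = j ∧
      Rep (∏ p ∈ S ∪ J, p) (H + 8) := by
  classical
  obtain ⟨U, hUS, hUc⟩ := Finset.exists_subset_card_eq (s := S) (n := u) (by omega)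
  obtain ⟨V, hVS, hVc⟩ := Finset.exists_subset_card_eq (s := S \ U) (n := u)
    (by rw [Finset.card_sdiff_of_subset hUS]; omega)
  obtain ⟨M, hMS, hMc⟩ := Finset.exists_subset_card_eq (s := (S \ U) \ V) (n := 8)
    (by rw [Finset.card_sdiff_of_subset hVS, Finset.card_sdiff_of_subset hUS]; omega)
  have hVS' : V ⊆ S := hVS.trans Finset.sdiff_subset
  have hMS' : M ⊆ S := hMS.trans (Finset.sdiff_subset.trans Finset.sdiff_subset)
  have hUV : Disjoint U V := by
    rw [Finset.disjoint_left]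
    intro p hpU hpV
    exact (Finset.mem_sdiff.mp (hVS hpV)).2 hpU
  have hMU : ∀ p ∈ M, p ∉ U := fun p hp =>
    (Finset.mem_sdiff.mp (Finset.mem_sdiff.mp (hMS hp)).1).2
  have hMV : ∀ p ∈ M, p ∉ V := fun p hp => (Finset.mem_sdiff.mp (hMS hp)).2
  have hUp : ∀ p ∈ U, p.Prime := fun p hp => hS p (hUS hp)
  have hVp : ∀ p ∈ V, p.Prime := fun p hp => hS p (hVS' hp)
  have hMp : ∀ p ∈ M, p.Prime := fun p hp => hS p (hMS' hp)
  set D := ∏ p ∈ S, p with hD
  set qU := ∏ p ∈ U, p with hqU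
  set qV := ∏ p ∈ V, p with hqV
  set qM := ∏ p ∈ M, p with hqM
  have hDpos : 0 < D := prod_primes_pos S hS
  have hqUpos : 0 < qU := prod_primes_pos U hUp
  have hqVpos : 0 < qV := prod_primes_pos V hVp
  have hMUV : qM * qU * qV ∣ D := by
    have hd1 : Disjoint M U := Finset.disjoint_left.mpr hMU
    have hd2 : Disjoint (M ∪ U) V := by
      rw [Finset.disjoint_union_left]
      exact ⟨Finset.disjoint_left.mpr hMV, hUV⟩
    rw [hqM, hqU, hqV, ← Finset.prod_union hd1, ← Finset.prod_union hd2]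
    apply Finset.prod_dvd_prod_of_subset
    exact Finset.union_subset (Finset.union_subset hMS' hUS) hVS'
  let e : Fin 8 ≃ M := (Finset.equivFinOfCardEq hMc).symm
  let pi : Fin 8 → ℕ := fun l => (e l : ℕ)
  have hpiM : ∀ l, pi l ∈ M := fun l => (e l).2
  have hpip : ∀ l, (pi l).Prime := fun l => hMp _ (hpiM l)
  have hpiinj : Function.Injective pi := fun l l' h => e.injective (Subtype.ext h)
  have hpidvd : ∀ l, pi l * qU * qV ∣ D := by
    intro l
    refine Dvd.dvd.trans ?_ hMUV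
    exact mul_dvd_mul_right (mul_dvd_mul_right (Finset.dvd_prod_of_mem (fun p => p) (hpiM l)) _) _
  let A : Fin 8 → Finset ℤ := fun l => qU.divisors.image (fun d => ((pi l * d : ℕ) : ℤ))
  let B : Fin 8 → Finset ℤ := fun _ => qV.divisors.image (fun d => ((d : ℕ) : ℤ))
  have hAcard : ∀ l, (A l).card = 2 ^ u := by
    intro l
    rw [Finset.card_image_of_injective, card_divisors_prod_primes U hUp, hUc]
    intro d d' hdd
    have hdd' : ((pi l * d : ℕ) : ℤ) = ((pi l * d' : ℕ) : ℤ) := hdd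
    have : pi l * d = pi l * d' := by exact_mod_cast hdd'
    exact Nat.eq_of_mul_eq_mul_left (hpip l).pos this
  have hBcard : ∀ l, (B l).card = 2 ^ u := by
    intro l
    rw [Finset.card_image_of_injective, card_divisors_prod_primes V hVp, hVc]
    exact Nat.cast_injective
  have hAbd : ∀ l, ∀ a ∈ A l, 0 ≤ a ∧ a ≤ 2 ^ w := by
    intro l a ha
    obtain ⟨d, hd, rfl⟩ := Finset.mem_image.mp ha
    refine ⟨by positivity, ?_⟩
    have hdvd : pi l * d ∣ D :=
      ((mul_dvd_mul_left _ (Nat.dvd_of_mem_divisors hd)).trans (Dvd.intro _ rfl)).trans (hpidvd l)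
    have : pi l * d ≤ 2 ^ w := (Nat.le_of_dvd hDpos hdvd).trans h2
    exact_mod_cast this
  have hBbd : ∀ l, ∀ a ∈ B l, 0 ≤ a ∧ a ≤ 2 ^ w := by
    intro l a ha
    obtain ⟨d, hd, rfl⟩ := Finset.mem_image.mp ha
    refine ⟨by positivity, ?_⟩
    have hdvd : d ∣ D :=
      ((Nat.dvd_of_mem_divisors hd).trans (Dvd.intro_left _ rfl)).trans (hpidvd l)
    have : d ≤ 2 ^ w := (Nat.le_of_dvd hDpos hdvd).trans h2
    exact_mod_cast this
  set P := Nat.primesLE (2 ^ (4 * x)) \ S with hP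
  have hPp : ∀ p ∈ P, p.Prime := fun p hp => Nat.prime_of_mem_primesLE (Finset.mem_sdiff.mp hp).1
  have hPcard : Nat.primeCounting (2 ^ (4 * x)) ≤ P.card + S.card := by
    have := Finset.le_card_sdiff S (Nat.primesLE (2 ^ (4 * x)))
    rw [Nat.primesLE_card_eq_primeCounting, ← hP] at this
    omega
  let fam : Fin (8 + 8) → Finset ℤ := Fin.append A B
  have hfam : ∀ i, ∀ a ∈ fam i, 0 ≤ a ∧ a ≤ 2 ^ w := by
    intro i
    refine Fin.addCases (fun l => ?_) (fun l => ?_) i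
    · simp only [fam, Fin.append_left]
      exact hAbd l
    · simp only [fam, Fin.append_right]
      exact hBbd l
  have hcond : ((2 : ℝ) ^ (3 * x)) * w * j + j ≤ P.card := by
    have : 2 ^ (3 * x) * w * j + j ≤ P.card := by omega
    exact_mod_cast this
  obtain ⟨J, hJP, hJc, hJsel⟩ := select P hPp fam w hfam ((2 : ℝ) ^ (3 * x)) (by positivity) j h6 hcond
  have hfamsum : ∑ i, ((fam i).card : ℝ) ^ 2 = 16 * ((2 : ℝ) ^ u) ^ 2 := by
    rw [Fin.sum_univ_add]
    simp only [fam, Fin.append_left, Fin.append_right, hAcard, hBcard]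
    simp
    ring
  have hJp : ∀ p ∈ J, p.Prime := fun p hp => hPp p (hJP hp)
  have hJle : ∀ p ∈ J, p ≤ 2 ^ (4 * x) := fun p hp =>
    Nat.le_of_mem_primesLE (Finset.mem_sdiff.mp (hJP hp)).1
  have hJS : Disjoint J S :=
    Finset.disjoint_left.mpr (fun p hp => (Finset.mem_sdiff.mp (hJP hp)).2)
  set N : ℝ := (2 : ℝ) ^ u with hN
  have hselA : ∀ I ⊆ J, ∀ l,
      ((2 : ℝ) ^ (3 * x)) ^ I.card * (collOff (A l) (∏ p ∈ I, p) : ℝ) ≤ 48 * N ^ 2 := by
    intro I hI l
    have := hJsel I hI (Fin.castAdd 8 l)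
    rw [hfamsum] at this
    simp only [fam, Fin.append_left] at this
    linarith
  have hselB : ∀ I ⊆ J, ∀ l,
      ((2 : ℝ) ^ (3 * x)) ^ I.card * (collOff (B l) (∏ p ∈ I, p) : ℝ) ≤ 48 * N ^ 2 := by
    intro I hI l
    have := hJsel I hI (Fin.natAdd 8 l)
    rw [hfamsum] at this
    simp only [fam, Fin.append_right] at this
    linarith
  have hE : ∀ l, ∀ I ⊆ J, I.Nonempty →
      ((∏ p ∈ I, p : ℕ) : ℝ) * coll (A l) (∏ p ∈ I, p) * coll (B l) (∏ p ∈ I, p)
        ≤ (((64 : ℝ) / 2 ^ x) ^ I.card * (A l).card * (B l).card) ^ 2 := by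
    intro l I hI hne
    have hi1 : 1 ≤ I.card := hne.card_pos
    have hij : I.card ≤ j := hJc ▸ Finset.card_le_card hI
    set t : ℝ := ((2 : ℝ) ^ x) ^ I.card with ht_def
    have ht : 0 < t := by positivity
    have hc : ((2 : ℝ) ^ (3 * x)) ^ I.card = t ^ 3 := by
      rw [ht_def, ← pow_mul, ← pow_mul, ← pow_mul]
      congr 1
      ring
    have hcN : ((2 : ℝ) ^ (3 * x)) ^ I.card ≤ N := by
      rw [← pow_mul]
      apply pow_le_pow_right₀ (by norm_num)
      calc 3 * x * I.card ≤ 3 * x * j := Nat.mul_le_mul_left _ hij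
        _ ≤ u := h3
    have hq : ((∏ p ∈ I, p : ℕ) : ℝ) ≤ t ^ 4 := by
      have h0 := prod_le_pow_card_of_le I (2 ^ (4 * x)) (fun p hp => hJle p (hI hp))
      have h' : ((∏ p ∈ I, p : ℕ) : ℝ) ≤ ((2 : ℝ) ^ (4 * x)) ^ I.card := by exact_mod_cast h0
      refine h'.trans (le_of_eq ?_)
      rw [ht_def, ← pow_mul, ← pow_mul, ← pow_mul]
      congr 1
      ring
    have hA := coll_scaled_bound (A l) (∏ p ∈ I, p) N ((2 : ℝ) ^ (3 * x)) I.card
      (by rw [hAcard l]; push_cast; rfl) hcN (by positivity) (hselA I hI l)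
    have hB := coll_scaled_bound (B l) (∏ p ∈ I, p) N ((2 : ℝ) ^ (3 * x)) I.card
      (by rw [hBcard l]; push_cast; rfl) hcN (by positivity) (hselB I hI l)
    rw [hc] at hA hB
    have h64 : (49 : ℝ) ≤ 64 ^ I.card := by
      calc (49 : ℝ) ≤ 64 ^ 1 := by norm_num
        _ ≤ 64 ^ I.card := pow_le_pow_right₀ (by norm_num) hi1
    have hfin := energy_bound _ _ _ N t (64 ^ I.card) ht (Nat.cast_nonneg _) (Nat.cast_nonneg _)
      hq hA hB h64
    rw [hAcard l, hBcard l, div_pow]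
    simp only [Nat.cast_pow, Nat.cast_ofNat]
    exact hfin
  have hcov := covering J hJp 8 A B ((64 : ℝ) / 2 ^ x) (by positivity)
    (fun l => ⟨Finset.card_pos.mp (by rw [hAcard l]; positivity),
      Finset.card_pos.mp (by rw [hBcard l]; positivity)⟩) hE (hsum_bound J x j hJc hJle h5)
  set qJ := ∏ p ∈ J, p with hqJ
  have hres : ∀ r : ℕ, ∃ T : Finset ℕ, T ⊆ D.divisors ∧ T.card ≤ 8 ∧ ∑ d ∈ T, d ≤ D ∧
      (∑ d ∈ T, d) ≡ r [MOD qJ] := by
    intro r
    obtain ⟨a, b, ha, hb, hdvd⟩ := hcov (r : ℤ)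
    have ha' : ∀ l, ∃ d ∈ qU.divisors, ((pi l * d : ℕ) : ℤ) = a l := fun l => by
      obtain ⟨d, hd, hda⟩ := Finset.mem_image.mp (ha l)
      exact ⟨d, hd, hda⟩
    have hb' : ∀ l, ∃ d ∈ qV.divisors, ((d : ℕ) : ℤ) = b l := fun l => by
      obtain ⟨d, hd, hda⟩ := Finset.mem_image.mp (hb l)
      exact ⟨d, hd, hda⟩
    choose a' ha'1 ha'2 using ha'
    choose b' hb'1 hb'2 using hb'
    let d : Fin 8 → ℕ := fun l => pi l * a' l * b' l
    have hddvd : ∀ l, d l ∣ pi l * qU * qV := fun l =>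
      mul_dvd_mul (mul_dvd_mul_left _ (Nat.dvd_of_mem_divisors (ha'1 l)))
        (Nat.dvd_of_mem_divisors (hb'1 l))
    have hdinj : Function.Injective d := by
      intro l l' hll
      have h1 : pi l ∣ pi l' * a' l' * b' l' := by
        have h0 : pi l ∣ d l := ⟨a' l * b' l, by simp only [d]; ring⟩
        rw [hll] at h0
        exact h0
      rcases (hpip l).dvd_mul.mp h1 with h | h
      · rcases (hpip l).dvd_mul.mp h with h | h
        · exact hpiinj ((Nat.prime_dvd_prime_iff_eq (hpip l) (hpip l')).mp h)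
        · exfalso
          have hco := coprime_prod_of_notMem (hpip l) U hUp (hMU _ (hpiM l))
          have hdv : pi l ∣ qU := h.trans (Nat.dvd_of_mem_divisors (ha'1 l'))
          exact (hpip l).one_lt.ne' (Nat.Coprime.eq_one_of_dvd hco hdv)
      · exfalso
        have hco := coprime_prod_of_notMem (hpip l) V hVp (hMV _ (hpiM l))
        have hdv : pi l ∣ qV := h.trans (Nat.dvd_of_mem_divisors (hb'1 l'))
        exact (hpip l).one_lt.ne' (Nat.Coprime.eq_one_of_dvd hco hdv)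
    have hsumimg : ∑ t ∈ Finset.univ.image d, t = ∑ l, d l :=
      Finset.sum_image (fun l _ l' _ h => hdinj h)
    refine ⟨Finset.univ.image d, ?_, ?_, ?_, ?_⟩
    · intro t ht
      obtain ⟨l, _, rfl⟩ := Finset.mem_image.mp ht
      exact Nat.mem_divisors.mpr ⟨(hddvd l).trans (hpidvd l), hDpos.ne'⟩
    · exact Finset.card_image_le.trans (by simp)
    · rw [hsumimg]
      have hpisum : ∑ l, pi l = ∑ p ∈ M, p := by
        rw [← Finset.sum_coe_sort M (fun p => p)]
        exact Equiv.sum_comp e (fun p : M => (p : ℕ))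
      calc ∑ l, d l ≤ ∑ l, pi l * (qU * qV) := Finset.sum_le_sum (fun l _ => by
              have hpos : 0 < pi l * qU * qV :=
                Nat.mul_pos (Nat.mul_pos (hpip l).pos hqUpos) hqVpos
              have := Nat.le_of_dvd hpos (hddvd l)
              rw [mul_assoc] at this
              exact this)
        _ = (∑ l, pi l) * (qU * qV) := by rw [Finset.sum_mul]
        _ = (∑ p ∈ M, p) * (qU * qV) := by rw [hpisum]
        _ ≤ qM * (qU * qV) :=
            Nat.mul_le_mul_right _ (sum_le_prod_of_two_le M (fun p hp => (hMp p hp).two_le))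
        _ ≤ D := Nat.le_of_dvd hDpos (by rw [← mul_assoc]; exact hMUV)
    · rw [hsumimg, Nat.modEq_iff_dvd]
      have hcast : ((∑ l, d l : ℕ) : ℤ) = ∑ l, a l * b l := by
        rw [Nat.cast_sum]
        apply Finset.sum_congr rfl
        intro l _
        rw [← ha'2 l, ← hb'2 l]
        simp only [d]
        push_cast
        ring
      rw [hcast, ← dvd_neg, neg_sub]
      exact hdvd
  have hqJ1 : 1 < qJ := by
    have hne : J.Nonempty := Finset.card_pos.mp (by omega)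
    obtain ⟨p, hp⟩ := hne
    have h1 : p ∣ qJ := Finset.dvd_prod_of_mem (fun p => p) hp
    have h2 : p ≤ qJ := Nat.le_of_dvd (prod_primes_pos J hJp) h1
    exact lt_of_lt_of_le (hJp p hp).one_lt h2
  have hcop : Nat.Coprime qJ D := coprime_prod_prod J S hJp hS hJS
  have hfinal := rep_step hDpos hqJ1 hcop hRep hres
  refine ⟨J, fun p hp => ⟨hJp p hp, hJle p hp⟩, hJS, hJc, ?_⟩
  rw [Finset.prod_union hJS.symm, mul_comm]
  exact hfinal

end Vale.Agent.P012
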