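import Vale.Agent.P012.RepLemmas

namespace Vale.Agent.P012

open Finset

/-- every `m ≤ Z` is a sum of at most `H` distinct divisors of `D` -/
def RRep (D Z H : ℕ) : Prop :=
  ∀ m ≤ Z, ∃ T : Finset ℕ, T ⊆ D.divisors ∧ T.card ≤ H ∧ ∑ d ∈ T, d = m

theorem rrep_mono {D Z Z' H H' : ℕ} (h : RRep D Z H) (hZ : Z' ≤ Z) (hH : H ≤ H') : RRep D Z' H' := by
  intro m hm
  obtain ⟨S, h1, h2, h3⟩ := h m (hm.trans hZ)
  exact ⟨S, h1, h2.trans hH, h3⟩

theorem rrep_of_rep {D0 D H : ℕ} (h : Rep D0 H) (hd : D0 ∣ D) (hD : D ≠ 0) : RRep D D0 H := by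
  intro m hm
  obtain ⟨S, h1, h2, h3⟩ := h m hm
  refine ⟨S, ?_, h2, h3⟩
  intro d hdS
  have := Nat.mem_divisors.1 (h1 hdS)
  exact Nat.mem_divisors.2 ⟨this.1.trans hd, hD⟩

theorem rrep_step {D Z q H K : ℕ} (hD : 0 < D) (hq : 1 < q) (hcop : Nat.Coprime q D)
    (hRep : RRep D Z H)
    (hres : ∀ r : ℕ, ∃ T : Finset ℕ, T ⊆ D.divisors ∧ T.card ≤ K ∧ ∑ d ∈ T, d ≤ Z ∧
      (∑ d ∈ T, d) ≡ r [MOD q]) :
    RRep (q * D) (q * Z) (H + K) := by
  intro m hm
  have hQN : q * D ≠ 0 := by positivity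
  by_cases hmN : m ≤ Z
  · obtain ⟨S, h1, h2, h3⟩ := hRep m hmN
    refine ⟨S, ?_, by omega, h3⟩
    intro d hd
    have := Nat.mem_divisors.1 (h1 hd)
    exact Nat.mem_divisors.2 ⟨this.1.mul_left q, hQN⟩
  · obtain ⟨T, t1, t2, t3, t4⟩ := hres m
    have hTm : ∑ d ∈ T, d ≤ m := by omega
    have hdvd : q ∣ m - ∑ d ∈ T, d := (Nat.modEq_iff_dvd' hTm).1 t4
    obtain ⟨m', hm'⟩ := hdvd
    have hm'N : m' ≤ Z := by
      by_contra hcon
      have : q * (Z + 1) ≤ q * m' := Nat.mul_le_mul_left q (by omega)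
      rw [Nat.mul_add] at this
      omega
    obtain ⟨S, s1, s2, s3⟩ := hRep m' hm'N
    have hinj : Function.Injective (fun d : ℕ => q * d) := fun a b hab =>
      Nat.eq_of_mul_eq_mul_left (by omega) hab
    have hdisj : Disjoint T (S.image (fun d => q * d)) := by
      rw [Finset.disjoint_left]
      intro d hdT hdS
      obtain ⟨e, _, rfl⟩ := Finset.mem_image.1 hdS
      have h1 : q * e ∣ D := (Nat.mem_divisors.1 (t1 hdT)).1
      have h2 : q ∣ D := (Dvd.intro e rfl).trans h1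
      have h3 : q ∣ Nat.gcd q D := Nat.dvd_gcd dvd_rfl h2
      rw [hcop] at h3
      have := Nat.le_of_dvd one_pos h3
      omega
    refine ⟨T ∪ S.image (fun d => q * d), ?_, ?_, ?_⟩
    · intro d hd
      rcases Finset.mem_union.1 hd with hd | hd
      · have := Nat.mem_divisors.1 (t1 hd)
        exact Nat.mem_divisors.2 ⟨this.1.mul_left q, hQN⟩
      · obtain ⟨e, he, rfl⟩ := Finset.mem_image.1 hd
        have := Nat.mem_divisors.1 (s1 he)
        exact Nat.mem_divisors.2 ⟨Nat.mul_dvd_mul_left q this.1, hQN⟩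
    · rw [Finset.card_union_of_disjoint hdisj, Finset.card_image_of_injective _ hinj]
      omega
    · rw [Finset.sum_union hdisj, Finset.sum_image (fun a _ b _ hab => hinj hab), ← Finset.mul_sum, s3,
        ← hm']
      omega

end Vale.Agent.P012
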