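import Vale.Agent.P012.Block
import Vale.Agent.P012.Ranged

namespace Vale.Agent.P012

open Finset

theorem prod_injOn_powersetCard (U : Finset ℕ) (hU : ∀ p ∈ U, p.Prime) (h : ℕ) :
    Set.InjOn (fun I : Finset ℕ => ∏ p ∈ I, p) (U.powersetCard h : Set (Finset ℕ)) := by
  intro I hI I' hI' hII
  have h1 : ∀ p ∈ I, p.Prime := fun p hp => hU p ((Finset.mem_powersetCard.mp hI).1 hp)
  have h2 : ∀ p ∈ I', p.Prime := fun p hp => hU p ((Finset.mem_powersetCard.mp hI').1 hp)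
  have h3 : (∏ p ∈ I, p).primeFactors = (∏ p ∈ I', p).primeFactors := by
    have : ∏ p ∈ I, p = ∏ p ∈ I', p := hII
    rw [this]
  rwa [Nat.primeFactors_prod h1, Nat.primeFactors_prod h2] at h3

theorem block_step2 (S : Finset ℕ) (hS : ∀ p ∈ S, p.Prime) (e u h x j Z H : ℕ)
    (hpool : Nat.primesLE (2 ^ e) ⊆ S)
    (h1 : 2 * u + 8 ≤ Nat.primeCounting (2 ^ e))
    (h3 : 2 ^ (3 * x * j) ≤ u.choose h)
    (h4 : 2 ^ (3 * x) * (e * (h + 1)) * j + j + S.card ≤ Nat.primeCounting (2 ^ (4 * x)))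
    (h5 : 2 * j * 2 ^ 48 ≤ 2 ^ (4 * x)) (h6 : 1 ≤ j)
    (hZ : 8 * 2 ^ (e * (2 * h + 1)) ≤ Z)
    (hRep : RRep (∏ p ∈ S, p) Z H) :
    ∃ J : Finset ℕ, (∀ p ∈ J, p.Prime ∧ p ≤ 2 ^ (4 * x)) ∧ Disjoint J S ∧ J.card = j ∧
      RRep (∏ p ∈ S ∪ J, p) ((∏ p ∈ J, p) * Z) (H + 8) := by
  classical
  set PL := Nat.primesLE (2 ^ e) with hPL
  have hPLc : PL.card = Nat.primeCounting (2 ^ e) := Nat.primesLE_card_eq_primeCounting _
  obtain ⟨U, hUS, hUc⟩ := Finset.exists_subset_card_eq (s := PL) (n := u) (by omega)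
  obtain ⟨V, hVS, hVc⟩ := Finset.exists_subset_card_eq (s := PL \ U) (n := u)
    (by rw [Finset.card_sdiff_of_subset hUS]; omega)
  obtain ⟨M, hMS, hMc⟩ := Finset.exists_subset_card_eq (s := (PL \ U) \ V) (n := 8)
    (by rw [Finset.card_sdiff_of_subset hVS, Finset.card_sdiff_of_subset hUS]; omega)
  have hVS' : V ⊆ PL := hVS.trans Finset.sdiff_subset
  have hMS' : M ⊆ PL := hMS.trans (Finset.sdiff_subset.trans Finset.sdiff_subset)
  have hUV : Disjoint U V := by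
    rw [Finset.disjoint_left]
    intro p hpU hpV
    exact (Finset.mem_sdiff.mp (hVS hpV)).2 hpU
  have hMU : ∀ p ∈ M, p ∉ U := fun p hp =>
    (Finset.mem_sdiff.mp (Finset.mem_sdiff.mp (hMS hp)).1).2
  have hMV : ∀ p ∈ M, p ∉ V := fun p hp => (Finset.mem_sdiff.mp (hMS hp)).2
  have hUp : ∀ p ∈ U, p.Prime := fun p hp => hS p (hpool (hUS hp))
  have hVp : ∀ p ∈ V, p.Prime := fun p hp => hS p (hpool (hVS' hp))
  have hMp : ∀ p ∈ M, p.Prime := fun p hp => hS p (hpool (hMS' hp))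
  have hUle : ∀ p ∈ U, p ≤ 2 ^ e := fun p hp => Nat.le_of_mem_primesLE (hUS hp)
  have hVle : ∀ p ∈ V, p ≤ 2 ^ e := fun p hp => Nat.le_of_mem_primesLE (hVS' hp)
  have hMle : ∀ p ∈ M, p ≤ 2 ^ e := fun p hp => Nat.le_of_mem_primesLE (hMS' hp)
  set D := ∏ p ∈ S, p with hD
  set qU := ∏ p ∈ U, p with hqU
  set qV := ∏ p ∈ V, p with hqV
  set qM := ∏ p ∈ M, p with hqM
  have hDpos : 0 < D := prod_primes_pos S hS
  have hMUV : qM * qU * qV ∣ D := by
    have hd1 : Disjoint M U := Finset.disjoint_left.mpr hMU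
    have hd2 : Disjoint (M ∪ U) V := by
      rw [Finset.disjoint_union_left]
      exact ⟨Finset.disjoint_left.mpr hMV, hUV⟩
    rw [hqM, hqU, hqV, ← Finset.prod_union hd1, ← Finset.prod_union hd2]
    apply Finset.prod_dvd_prod_of_subset
    exact Finset.union_subset (Finset.union_subset (hMS'.trans hpool) (hUS.trans hpool))
      (hVS'.trans hpool)
  let eqv : Fin 8 ≃ M := (Finset.equivFinOfCardEq hMc).symm
  let pi : Fin 8 → ℕ := fun l => (eqv l : ℕ)
  have hpiM : ∀ l, pi l ∈ M := fun l => (eqv l).2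
  have hpip : ∀ l, (pi l).Prime := fun l => hMp _ (hpiM l)
  have hpiinj : Function.Injective pi := fun l l' h => eqv.injective (Subtype.ext h)
  have hpidvd : ∀ l, pi l * qU * qV ∣ D := by
    intro l
    refine Dvd.dvd.trans ?_ hMUV
    exact mul_dvd_mul_right (mul_dvd_mul_right (Finset.dvd_prod_of_mem (fun p => p) (hpiM l)) _) _
  have hsubU : ∀ I ∈ U.powersetCard h, (∏ p ∈ I, p) ∣ qU ∧ (∏ p ∈ I, p) ≤ 2 ^ (e * h) := by
    intro I hI
    obtain ⟨hIU, hIc⟩ := Finset.mem_powersetCard.mp hI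
    refine ⟨Finset.prod_dvd_prod_of_subset _ _ _ hIU, ?_⟩
    have := prod_le_pow_card_of_le I (2 ^ e) (fun p hp => hUle p (hIU hp))
    rwa [hIc, ← pow_mul] at this
  have hsubV : ∀ I ∈ V.powersetCard h, (∏ p ∈ I, p) ∣ qV ∧ (∏ p ∈ I, p) ≤ 2 ^ (e * h) := by
    intro I hI
    obtain ⟨hIU, hIc⟩ := Finset.mem_powersetCard.mp hI
    refine ⟨Finset.prod_dvd_prod_of_subset _ _ _ hIU, ?_⟩
    have := prod_le_pow_card_of_le I (2 ^ e) (fun p hp => hVle p (hIU hp))
    rwa [hIc, ← pow_mul] at this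
  let A : Fin 8 → Finset ℤ := fun l =>
    (U.powersetCard h).image (fun I => ((pi l * ∏ p ∈ I, p : ℕ) : ℤ))
  let B : Fin 8 → Finset ℤ := fun _ =>
    (V.powersetCard h).image (fun I => ((∏ p ∈ I, p : ℕ) : ℤ))
  have hAcard : ∀ l, (A l).card = u.choose h := by
    intro l
    rw [Finset.card_image_of_injOn, Finset.card_powersetCard, hUc]
    intro I hI I' hI' hdd
    have hdd' : ((pi l * ∏ p ∈ I, p : ℕ) : ℤ) = ((pi l * ∏ p ∈ I', p : ℕ) : ℤ) := hdd
    have h0 : pi l * ∏ p ∈ I, p = pi l * ∏ p ∈ I', p := by exact_mod_cast hdd'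
    exact prod_injOn_powersetCard U hUp h hI hI' (Nat.eq_of_mul_eq_mul_left (hpip l).pos h0)
  have hBcard : ∀ l, (B l).card = u.choose h := by
    intro l
    rw [Finset.card_image_of_injOn, Finset.card_powersetCard, hVc]
    intro I hI I' hI' hdd
    have hdd' : ((∏ p ∈ I, p : ℕ) : ℤ) = ((∏ p ∈ I', p : ℕ) : ℤ) := hdd
    have h0 : ∏ p ∈ I, p = ∏ p ∈ I', p := by exact_mod_cast hdd'
    exact prod_injOn_powersetCard V hVp h hI hI' h0
  set w := e * (h + 1) with hw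
  have hAbd : ∀ l, ∀ a ∈ A l, 0 ≤ a ∧ a ≤ 2 ^ w := by
    intro l a ha
    obtain ⟨I, hI, rfl⟩ := Finset.mem_image.mp ha
    refine ⟨by positivity, ?_⟩
    have h0 : pi l * ∏ p ∈ I, p ≤ 2 ^ e * 2 ^ (e * h) :=
      Nat.mul_le_mul (hMle _ (hpiM l)) (hsubU I hI).2
    have h00 : 2 ^ e * 2 ^ (e * h) = 2 ^ w := by
      rw [hw, ← pow_add]
      congr 1
      ring
    rw [h00] at h0
    exact_mod_cast h0
  have hBbd : ∀ l, ∀ a ∈ B l, 0 ≤ a ∧ a ≤ 2 ^ w := by
    intro l a ha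
    obtain ⟨I, hI, rfl⟩ := Finset.mem_image.mp ha
    refine ⟨by positivity, ?_⟩
    have h0 : ∏ p ∈ I, p ≤ 2 ^ w :=
      (hsubV I hI).2.trans (Nat.pow_le_pow_right (by norm_num) (by rw [hw]; nlinarith))
    exact_mod_cast h0
  set P := Nat.primesLE (2 ^ (4 * x)) \ S with hP
  have hPp : ∀ p ∈ P, p.Prime := fun p hp => Nat.prime_of_mem_primesLE (Finset.mem_sdiff.mp hp).1
  have hPcard : Nat.primeCounting (2 ^ (4 * x)) ≤ P.card + S.card := by
    have := Finset.le_card_sdiff S (Nat.primesLE (2 ^ (4 * x)))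
    rw [Nat.primesLE_card_eq_primeCounting, ← hP] at this
    omega
  let fam : Fin (8 + 8) → Finset ℤ := Fin.append A B
  have hfam : ∀ i, ∀ a ∈ fam i, 0 ≤ a ∧ a ≤ 2 ^ w := by
    intro i
    refine Fin.addCases (fun l => ?_) (fun l => ?_) i
    · simp only [fam, Fin.append_left]
      exact hAbd l
    · simp only [fam, Fin.append_right]
      exact hBbd l
  have hcond : ((2 : ℝ) ^ (3 * x)) * w * j + j ≤ P.card := by
    have : 2 ^ (3 * x) * w * j + j ≤ P.card := by omega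
    exact_mod_cast this
  obtain ⟨J, hJP, hJc, hJsel⟩ := select P hPp fam w hfam ((2 : ℝ) ^ (3 * x)) (by positivity) j h6 hcond
  set N : ℝ := ((u.choose h : ℕ) : ℝ) with hN
  have hNpos : 0 < N := by
    have : 0 < u.choose h := lt_of_lt_of_le (by positivity) h3
    rw [hN]
    exact_mod_cast this
  have hfamsum : ∑ i, ((fam i).card : ℝ) ^ 2 = 16 * N ^ 2 := by
    rw [Fin.sum_univ_add]
    simp only [fam, Fin.append_left, Fin.append_right, hAcard, hBcard]
    simp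
    ring
  have hJp : ∀ p ∈ J, p.Prime := fun p hp => hPp p (hJP hp)
  have hJle : ∀ p ∈ J, p ≤ 2 ^ (4 * x) := fun p hp =>
    Nat.le_of_mem_primesLE (Finset.mem_sdiff.mp (hJP hp)).1
  have hJS : Disjoint J S :=
    Finset.disjoint_left.mpr (fun p hp => (Finset.mem_sdiff.mp (hJP hp)).2)
  have hselA : ∀ I ⊆ J, ∀ l,
      ((2 : ℝ) ^ (3 * x)) ^ I.card * (collOff (A l) (∏ p ∈ I, p) : ℝ) ≤ 48 * N ^ 2 := by
    intro I hI l
    have := hJsel I hI (Fin.castAdd 8 l)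
    rw [hfamsum] at this
    simp only [fam, Fin.append_left] at this
    linarith
  have hselB : ∀ I ⊆ J, ∀ l,
      ((2 : ℝ) ^ (3 * x)) ^ I.card * (collOff (B l) (∏ p ∈ I, p) : ℝ) ≤ 48 * N ^ 2 := by
    intro I hI l
    have := hJsel I hI (Fin.natAdd 8 l)
    rw [hfamsum] at this
    simp only [fam, Fin.append_right] at this
    linarith
  have hE : ∀ l, ∀ I ⊆ J, I.Nonempty →
      ((∏ p ∈ I, p : ℕ) : ℝ) * coll (A l) (∏ p ∈ I, p) * coll (B l) (∏ p ∈ I, p)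
        ≤ (((64 : ℝ) / 2 ^ x) ^ I.card * (A l).card * (B l).card) ^ 2 := by
    intro l I hI hne
    have hi1 : 1 ≤ I.card := hne.card_pos
    have hij : I.card ≤ j := hJc ▸ Finset.card_le_card hI
    set t : ℝ := ((2 : ℝ) ^ x) ^ I.card with ht_def
    have ht : 0 < t := by positivity
    have hc : ((2 : ℝ) ^ (3 * x)) ^ I.card = t ^ 3 := by
      rw [ht_def, ← pow_mul, ← pow_mul, ← pow_mul]
      congr 1
      ring
    have hcN : ((2 : ℝ) ^ (3 * x)) ^ I.card ≤ N := by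
      rw [← pow_mul]
      have h30 : ((2 : ℝ) ^ (3 * x * j)) ≤ N := by
        rw [hN]
        exact_mod_cast h3
      refine le_trans ?_ h30
      apply pow_le_pow_right₀ (by norm_num)
      exact Nat.mul_le_mul_left _ hij
    have hq : ((∏ p ∈ I, p : ℕ) : ℝ) ≤ t ^ 4 := by
      have h0 := prod_le_pow_card_of_le I (2 ^ (4 * x)) (fun p hp => hJle p (hI hp))
      have h' : ((∏ p ∈ I, p : ℕ) : ℝ) ≤ ((2 : ℝ) ^ (4 * x)) ^ I.card := by exact_mod_cast h0
      refine h'.trans (le_of_eq ?_)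
      rw [ht_def, ← pow_mul, ← pow_mul, ← pow_mul]
      congr 1
      ring
    have hA := coll_scaled_bound (A l) (∏ p ∈ I, p) N ((2 : ℝ) ^ (3 * x)) I.card
      (by rw [hAcard l]) hcN hNpos.le (hselA I hI l)
    have hB := coll_scaled_bound (B l) (∏ p ∈ I, p) N ((2 : ℝ) ^ (3 * x)) I.card
      (by rw [hBcard l]) hcN hNpos.le (hselB I hI l)
    rw [hc] at hA hB
    have h64 : (49 : ℝ) ≤ 64 ^ I.card := by
      calc (49 : ℝ) ≤ 64 ^ 1 := by norm_num
        _ ≤ 64 ^ I.card := pow_le_pow_right₀ (by norm_num) hi1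
    have hfin := energy_bound _ _ _ N t (64 ^ I.card) ht (Nat.cast_nonneg _) (Nat.cast_nonneg _)
      hq hA hB h64
    rw [hAcard l, hBcard l, div_pow]
    exact hfin
  have hcardpos : 0 < u.choose h := lt_of_lt_of_le (by positivity) h3
  have hcov := covering J hJp 8 A B ((64 : ℝ) / 2 ^ x) (by positivity)
    (fun l => ⟨Finset.card_pos.mp (by rw [hAcard l]; exact hcardpos),
      Finset.card_pos.mp (by rw [hBcard l]; exact hcardpos)⟩) hE (hsum_bound J x j hJc hJle h5)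
  set qJ := ∏ p ∈ J, p with hqJ
  have hres : ∀ r : ℕ, ∃ T : Finset ℕ, T ⊆ D.divisors ∧ T.card ≤ 8 ∧ ∑ d ∈ T, d ≤ Z ∧
      (∑ d ∈ T, d) ≡ r [MOD qJ] := by
    intro r
    obtain ⟨a, b, ha, hb, hdvd⟩ := hcov (r : ℤ)
    have ha' : ∀ l, ∃ I ∈ U.powersetCard h, ((pi l * ∏ p ∈ I, p : ℕ) : ℤ) = a l := fun l => by
      obtain ⟨d, hd, hda⟩ := Finset.mem_image.mp (ha l)
      exact ⟨d, hd, hda⟩
    have hb' : ∀ l, ∃ I ∈ V.powersetCard h, ((∏ p ∈ I, p : ℕ) : ℤ) = b l := fun l => by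
      obtain ⟨d, hd, hda⟩ := Finset.mem_image.mp (hb l)
      exact ⟨d, hd, hda⟩
    choose a' ha'1 ha'2 using ha'
    choose b' hb'1 hb'2 using hb'
    let d : Fin 8 → ℕ := fun l => pi l * (∏ p ∈ a' l, p) * (∏ p ∈ b' l, p)
    have hddvd : ∀ l, d l ∣ pi l * qU * qV := fun l =>
      mul_dvd_mul (mul_dvd_mul_left _ (hsubU _ (ha'1 l)).1) (hsubV _ (hb'1 l)).1
    have hdle : ∀ l, d l ≤ 2 ^ (e * (2 * h + 1)) := by
      intro l
      have h0 : d l ≤ 2 ^ e * 2 ^ (e * h) * 2 ^ (e * h) :=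
        Nat.mul_le_mul (Nat.mul_le_mul (hMle _ (hpiM l)) (hsubU _ (ha'1 l)).2) (hsubV _ (hb'1 l)).2
      have h00 : 2 ^ e * 2 ^ (e * h) * 2 ^ (e * h) = 2 ^ (e * (2 * h + 1)) := by
        rw [← pow_add, ← pow_add]
        congr 1
        ring
      rwa [h00] at h0
    have hdinj : Function.Injective d := by
      intro l l' hll
      have h1 : pi l ∣ pi l' * (∏ p ∈ a' l', p) * (∏ p ∈ b' l', p) := by
        have h0 : pi l ∣ d l := ⟨(∏ p ∈ a' l, p) * (∏ p ∈ b' l, p), by simp only [d]; ring⟩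
        rw [hll] at h0
        exact h0
      rcases (hpip l).dvd_mul.mp h1 with h | h
      · rcases (hpip l).dvd_mul.mp h with h | h
        · exact hpiinj ((Nat.prime_dvd_prime_iff_eq (hpip l) (hpip l')).mp h)
        · exfalso
          have hco := coprime_prod_of_notMem (hpip l) U hUp (hMU _ (hpiM l))
          have hdv : pi l ∣ qU := h.trans (hsubU _ (ha'1 l')).1
          exact (hpip l).one_lt.ne' (Nat.Coprime.eq_one_of_dvd hco hdv)
      · exfalso
        have hco := coprime_prod_of_notMem (hpip l) V hVp (hMV _ (hpiM l))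
        have hdv : pi l ∣ qV := h.trans (hsubV _ (hb'1 l')).1
        exact (hpip l).one_lt.ne' (Nat.Coprime.eq_one_of_dvd hco hdv)
    have hsumimg : ∑ t ∈ Finset.univ.image d, t = ∑ l, d l :=
      Finset.sum_image (fun l _ l' _ h => hdinj h)
    refine ⟨Finset.univ.image d, ?_, ?_, ?_, ?_⟩
    · intro t ht
      obtain ⟨l, _, rfl⟩ := Finset.mem_image.mp ht
      exact Nat.mem_divisors.mpr ⟨(hddvd l).trans (hpidvd l), hDpos.ne'⟩
    · exact Finset.card_image_le.trans (by simp)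
    · rw [hsumimg]
      calc ∑ l, d l ≤ ∑ _l : Fin 8, 2 ^ (e * (2 * h + 1)) := Finset.sum_le_sum (fun l _ => hdle l)
        _ = 8 * 2 ^ (e * (2 * h + 1)) := by simp
        _ ≤ Z := hZ
    · rw [hsumimg, Nat.modEq_iff_dvd]
      have hcast : ((∑ l, d l : ℕ) : ℤ) = ∑ l, a l * b l := by
        rw [Nat.cast_sum]
        apply Finset.sum_congr rfl
        intro l _
        rw [← ha'2 l, ← hb'2 l]
        simp only [d]
        push_cast
        ring
      rw [hcast, ← dvd_neg, neg_sub]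
      exact hdvd
  have hqJ1 : 1 < qJ := by
    have hne : J.Nonempty := Finset.card_pos.mp (by omega)
    obtain ⟨p, hp⟩ := hne
    have h1 : p ∣ qJ := Finset.dvd_prod_of_mem (fun p => p) hp
    have h2 : p ≤ qJ := Nat.le_of_dvd (prod_primes_pos J hJp) h1
    exact lt_of_lt_of_le (hJp p hp).one_lt h2
  have hcop : Nat.Coprime qJ D := coprime_prod_prod J S hJp hS hJS
  have hfinal := rrep_step hDpos hqJ1 hcop hRep hres
  refine ⟨J, fun p hp => ⟨hJp p hp, hJle p hp⟩, hJS, hJc, ?_⟩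
  rw [Finset.prod_union hJS.symm, mul_comm]
  exact hfinal

end Vale.Agent.P012
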