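import Vale.Agent.P012.Defs

namespace Vale.Agent.P012

open Finset

theorem prod_primes_pos (U : Finset ℕ) (hU : ∀ p ∈ U, p.Prime) : 0 < ∏ p ∈ U, p :=
  Finset.prod_pos fun p hp => (hU p hp).pos

theorem coprime_prod_of_notMem {q : ℕ} (hq : q.Prime) (U : Finset ℕ) (hU : ∀ p ∈ U, p.Prime)
    (hqU : q ∉ U) : Nat.Coprime q (∏ p ∈ U, p) := by
  apply Nat.Coprime.prod_right
  intro p hp
  exact (Nat.coprime_primes hq (hU p hp)).2 (fun h => hqU (h ▸ hp))

theorem coprime_prod_prod (U V : Finset ℕ) (hU : ∀ p ∈ U, p.Prime) (hV : ∀ p ∈ V, p.Prime)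
    (hUV : Disjoint U V) : Nat.Coprime (∏ p ∈ U, p) (∏ p ∈ V, p) := by
  apply Nat.Coprime.prod_left
  intro p hp
  exact coprime_prod_of_notMem (hU p hp) V hV (Finset.disjoint_left.mp hUV hp)

theorem card_divisors_prod_primes (U : Finset ℕ) (hU : ∀ p ∈ U, p.Prime) :
    (∏ p ∈ U, p).divisors.card = 2 ^ U.card := by
  induction U using Finset.induction_on with
  | empty => simp
  | insert a s ha ih =>
    have hs : ∀ p ∈ s, p.Prime := fun p hp => hU p (Finset.mem_insert_of_mem hp)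
    have hap : a.Prime := hU a (Finset.mem_insert_self a s)
    rw [Finset.prod_insert ha, Nat.Coprime.card_divisors_mul (coprime_prod_of_notMem hap s hs ha),
      ih hs, Finset.card_insert_of_notMem ha, hap.divisors, Finset.card_pair hap.one_lt.ne, pow_succ]
    ring

theorem sum_le_prod_of_two_le (M : Finset ℕ) (hM : ∀ p ∈ M, 2 ≤ p) :
    ∑ p ∈ M, p ≤ ∏ p ∈ M, p := by
  have key : ∑ p ∈ M, p ≤ ∏ p ∈ M, p ∧ (M.Nonempty → 2 ≤ ∏ p ∈ M, p) := by
    induction M using Finset.induction_on with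
    | empty => simp
    | insert a s ha ih =>
      have hs : ∀ p ∈ s, 2 ≤ p := fun p hp => hM p (Finset.mem_insert_of_mem hp)
      have ha2 : 2 ≤ a := hM a (Finset.mem_insert_self a s)
      obtain ⟨ih1, ih2⟩ := ih hs
      rw [Finset.sum_insert ha, Finset.prod_insert ha]
      rcases s.eq_empty_or_nonempty with rfl | hne
      · simp [ha2]
      · have h2 := ih2 hne
        constructor
        · nlinarith
        · intro _
          nlinarith
  exact key.1

theorem prod_le_pow_card_of_le (I : Finset ℕ) (b : ℕ) (hI : ∀ p ∈ I, p ≤ b) :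
    ∏ p ∈ I, p ≤ b ^ I.card :=
  Finset.prod_le_pow_card I (fun p => p) b hI

theorem one_add_pow_lt_two (y : ℝ) (j : ℕ) (hy : 0 ≤ y) (hjy : (j : ℝ) * y ≤ 1 / 2) :
    (1 + y) ^ j < 2 := by
  have h1 : (1 + y) ^ j ≤ Real.exp ((j : ℝ) * y) := by
    rw [Real.exp_nat_mul]
    apply pow_le_pow_left₀ (by linarith)
    linarith [Real.add_one_le_exp y]
  have h2 : Real.exp ((j : ℝ) * y) ≤ Real.exp (1 / 2) := Real.exp_le_exp.mpr hjy
  have h3 : Real.exp (1 / 2) < 2 := by
    have h4 : Real.exp (1 / 2) * Real.exp (1 / 2) = Real.exp 1 := by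
      rw [← Real.exp_add]
      norm_num
    have h5 := Real.exp_one_lt_d9
    have h6 := Real.exp_pos (1 / 2)
    nlinarith
  linarith

end Vale.Agent.P012
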