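import Mathlib

namespace Vale.Agent.P012

theorem pow_le_pow_mul_choose : ∀ (h n : ℕ), h ≤ n → n ^ h ≤ h ^ h * n.choose h := by
  intro h
  induction h with
  | zero => intro n _; simp
  | succ h ih =>
    intro n hn
    obtain ⟨m, rfl⟩ : ∃ m, n = m + 1 := ⟨n - 1, by omega⟩
    have hm : h ≤ m := by omega
    have ih' := ih m hm
    have hkey : (m + 1) * m.choose h = (m + 1).choose (h + 1) * (h + 1) :=
      Nat.add_one_mul_choose_eq m h
    have h1 : (m + 1) ^ h ≤ (h + 1) ^ h * m.choose h := by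
      rcases Nat.eq_zero_or_pos h with rfl | hpos
      · simp
      · have h2 : ((m + 1) * h) ^ h ≤ ((h + 1) * m) ^ h := by
          apply Nat.pow_le_pow_left
          nlinarith
        rw [mul_pow, mul_pow] at h2
        have h3 : (m + 1) ^ h * h ^ h ≤ ((h + 1) ^ h * m.choose h) * h ^ h := by
          calc (m + 1) ^ h * h ^ h ≤ (h + 1) ^ h * m ^ h := h2
            _ ≤ (h + 1) ^ h * (h ^ h * m.choose h) := Nat.mul_le_mul_left _ ih'
            _ = ((h + 1) ^ h * m.choose h) * h ^ h := by ring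
        exact Nat.le_of_mul_le_mul_right h3 (by positivity)
    calc (m + 1) ^ (h + 1) = (m + 1) ^ h * (m + 1) := pow_succ _ _
      _ ≤ ((h + 1) ^ h * m.choose h) * (m + 1) := Nat.mul_le_mul_right _ h1
      _ = (h + 1) ^ h * ((m + 1) * m.choose h) := by ring
      _ = (h + 1) ^ h * ((m + 1).choose (h + 1) * (h + 1)) := by rw [hkey]
      _ = (h + 1) ^ (h + 1) * (m + 1).choose (h + 1) := by ring

theorem choose_two_pow_lower (E l : ℕ) (h : l ≤ E) :
    2 ^ ((E - l) * 2 ^ l) ≤ (2 ^ E).choose (2 ^ l) := by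
  have h1 := pow_le_pow_mul_choose (2 ^ l) (2 ^ E) (Nat.pow_le_pow_right (by norm_num) h)
  have h2 : (2 ^ E) ^ (2 ^ l) = (2 ^ l) ^ (2 ^ l) * 2 ^ ((E - l) * 2 ^ l) := by
    rw [← pow_mul, ← pow_mul, ← pow_add]
    congr 1
    have : E = l + (E - l) := by omega
    nth_rewrite 1 [this]
    ring
  rw [h2] at h1
  exact Nat.le_of_mul_le_mul_left h1 (by positivity)

end Vale.Agent.P012
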