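import Vale.Agent.P012.Block2

namespace Vale.Agent.P012

open Finset

/-- The selection + covering part of `block_step2`, for arbitrary `A`, `B` and for all sub-blocks. -/
theorem cover_sub (A B : Finset ℤ) (N w x jt : ℕ) (Sx : Finset ℕ)
    (hA : A.card = N) (hB : B.card = N)
    (hAb : ∀ a ∈ A, 0 ≤ a ∧ a ≤ 2 ^ w) (hBb : ∀ a ∈ B, 0 ≤ a ∧ a ≤ 2 ^ w)
    (h4 : 2 ^ (3 * x) * w * jt + jt + Sx.card ≤ Nat.primeCounting (2 ^ (4 * x))) (h6 : 1 ≤ jt) :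
    ∃ J : Finset ℕ, (∀ p ∈ J, p.Prime ∧ p ≤ 2 ^ (4 * x)) ∧ Disjoint J Sx ∧ J.card = jt ∧
      ∀ I ⊆ J, 2 ^ (3 * x * I.card) ≤ N → 2 * I.card * 2 ^ 48 ≤ 2 ^ (4 * x) → ∀ r : ℤ,
        ∃ a b : Fin 8 → ℤ, (∀ l, a l ∈ A) ∧ (∀ l, b l ∈ B) ∧
          ((∏ p ∈ I, p : ℕ) : ℤ) ∣ ∑ l, a l * b l - r := by
  classical
  set P := Nat.primesLE (2 ^ (4 * x)) \ Sx with hP
  have hPp : ∀ p ∈ P, p.Prime := fun p hp => Nat.prime_of_mem_primesLE (Finset.mem_sdiff.mp hp).1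
  have hPcard : Nat.primeCounting (2 ^ (4 * x)) ≤ P.card + Sx.card := by
    have := Finset.le_card_sdiff Sx (Nat.primesLE (2 ^ (4 * x)))
    rw [Nat.primesLE_card_eq_primeCounting, ← hP] at this
    omega
  let fam : Fin 2 → Finset ℤ := ![A, B]
  have hfam : ∀ i, ∀ a ∈ fam i, 0 ≤ a ∧ a ≤ 2 ^ w := by
    intro i
    fin_cases i
    · exact hAb
    · exact hBb
  have hcond : ((2 : ℝ) ^ (3 * x)) * w * jt + jt ≤ P.card := by
    have : 2 ^ (3 * x) * w * jt + jt ≤ P.card := by omega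
    exact_mod_cast this
  obtain ⟨J, hJP, hJc, hJsel⟩ := select P hPp fam w hfam ((2 : ℝ) ^ (3 * x)) (by positivity) jt h6 hcond
  set NR : ℝ := (N : ℝ) with hNR
  have hfamsum : ∑ i, ((fam i).card : ℝ) ^ 2 = 2 * NR ^ 2 := by
    rw [Fin.sum_univ_two]
    simp only [fam, Matrix.cons_val_zero, Matrix.cons_val_one, hA, hB]
    ring
  have hJp : ∀ p ∈ J, p.Prime := fun p hp => hPp p (hJP hp)
  have hJle : ∀ p ∈ J, p ≤ 2 ^ (4 * x) := fun p hp =>
    Nat.le_of_mem_primesLE (Finset.mem_sdiff.mp (hJP hp)).1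
  have hJS : Disjoint J Sx :=
    Finset.disjoint_left.mpr (fun p hp => (Finset.mem_sdiff.mp (hJP hp)).2)
  have hselA : ∀ I ⊆ J,
      ((2 : ℝ) ^ (3 * x)) ^ I.card * (collOff A (∏ p ∈ I, p) : ℝ) ≤ 48 * NR ^ 2 := by
    intro I hI
    have := hJsel I hI 0
    rw [hfamsum] at this
    have e1 : fam 0 = A := rfl
    rw [e1] at this
    nlinarith [sq_nonneg NR]
  have hselB : ∀ I ⊆ J,
      ((2 : ℝ) ^ (3 * x)) ^ I.card * (collOff B (∏ p ∈ I, p) : ℝ) ≤ 48 * NR ^ 2 := by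
    intro I hI
    have := hJsel I hI 1
    rw [hfamsum] at this
    have e1 : fam 1 = B := rfl
    rw [e1] at this
    nlinarith [sq_nonneg NR]
  refine ⟨J, fun p hp => ⟨hJp p hp, hJle p hp⟩, hJS, hJc, ?_⟩
  intro I0 hI0 h3 h5 r
  have hNpos : 0 < NR := by
    have : 0 < N := lt_of_lt_of_le (by positivity) h3
    rw [hNR]
    exact_mod_cast this
  have hE : ∀ _l : Fin 8, ∀ I ⊆ I0, I.Nonempty →
      ((∏ p ∈ I, p : ℕ) : ℝ) * coll A (∏ p ∈ I, p) * coll B (∏ p ∈ I, p)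
        ≤ (((64 : ℝ) / 2 ^ x) ^ I.card * A.card * B.card) ^ 2 := by
    intro _ I hI hne
    have hIJ : I ⊆ J := hI.trans hI0
    have hi1 : 1 ≤ I.card := hne.card_pos
    have hij : I.card ≤ I0.card := Finset.card_le_card hI
    set t : ℝ := ((2 : ℝ) ^ x) ^ I.card with ht_def
    have ht : 0 < t := by positivity
    have hc : ((2 : ℝ) ^ (3 * x)) ^ I.card = t ^ 3 := by
      rw [ht_def, ← pow_mul, ← pow_mul, ← pow_mul]
      congr 1
      ring
    have hcN : ((2 : ℝ) ^ (3 * x)) ^ I.card ≤ NR := by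
      rw [← pow_mul]
      have h30 : ((2 : ℝ) ^ (3 * x * I0.card)) ≤ NR := by
        rw [hNR]
        exact_mod_cast h3
      refine le_trans ?_ h30
      apply pow_le_pow_right₀ (by norm_num)
      exact Nat.mul_le_mul_left _ hij
    have hq : ((∏ p ∈ I, p : ℕ) : ℝ) ≤ t ^ 4 := by
      have h0 := prod_le_pow_card_of_le I (2 ^ (4 * x)) (fun p hp => hJle p (hIJ hp))
      have h' : ((∏ p ∈ I, p : ℕ) : ℝ) ≤ ((2 : ℝ) ^ (4 * x)) ^ I.card := by exact_mod_cast h0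
      refine h'.trans (le_of_eq ?_)
      rw [ht_def, ← pow_mul, ← pow_mul, ← pow_mul]
      congr 1
      ring
    have hA' := coll_scaled_bound A (∏ p ∈ I, p) NR ((2 : ℝ) ^ (3 * x)) I.card
      (by rw [hA]) hcN hNpos.le (hselA I hIJ)
    have hB' := coll_scaled_bound B (∏ p ∈ I, p) NR ((2 : ℝ) ^ (3 * x)) I.card
      (by rw [hB]) hcN hNpos.le (hselB I hIJ)
    rw [hc] at hA' hB'
    have h64 : (49 : ℝ) ≤ 64 ^ I.card := by
      calc (49 : ℝ) ≤ 64 ^ 1 := by norm_num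
        _ ≤ 64 ^ I.card := pow_le_pow_right₀ (by norm_num) hi1
    have hfin := energy_bound _ _ _ NR t (64 ^ I.card) ht (Nat.cast_nonneg _) (Nat.cast_nonneg _)
      hq hA' hB' h64
    rw [hA, hB, div_pow]
    exact hfin
  have hcardpos : 0 < N := lt_of_lt_of_le (by positivity) h3
  exact covering I0 (fun p hp => hJp p (hI0 hp)) 8 (fun _ => A) (fun _ => B) ((64 : ℝ) / 2 ^ x)
    (by positivity)
    (fun _ => ⟨Finset.card_pos.mp (by rw [hA]; exact hcardpos),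
      Finset.card_pos.mp (by rw [hB]; exact hcardpos)⟩) hE
    (hsum_bound I0 x I0.card rfl (fun p hp => hJle p (hI0 hp)) h5) r

end Vale.Agent.P012
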