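import Mathlib

namespace Vale.Agent.P012

open Finset

/-- every `m ≤ D` is a sum of at most `H` distinct divisors of `D` -/
def Rep (D H : ℕ) : Prop :=
  ∀ m ≤ D, ∃ T : Finset ℕ, T ⊆ D.divisors ∧ T.card ≤ H ∧ ∑ d ∈ T, d = m

/-- number of ordered pairs of `A` congruent mod `m` -/
def coll (A : Finset ℤ) (m : ℕ) : ℕ :=
  ((A ×ˢ A).filter (fun x => (m : ℤ) ∣ x.1 - x.2)).card

/-- number of ordered pairs of distinct elements of `A` congruent mod `m` -/
def collOff (A : Finset ℤ) (m : ℕ) : ℕ :=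
  (A.offDiag.filter (fun x => (m : ℤ) ∣ x.1 - x.2)).card

end Vale.Agent.P012
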