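import Vale.Agent.P012.UF

namespace Vale.Agent.P012

open Finset

/-- `s` represents `x` by at most `k` unit fractions, repetitions allowed -/
def IsRep (x : ℚ) (k : ℕ) (s : Multiset ℕ) : Prop :=
  s.card ≤ k ∧ (∀ n ∈ s, 0 < n) ∧ (s.map (fun n : ℕ => (1 : ℚ) / n)).sum = x

/-- merging a repeated denominator produces a smaller denominator -/
theorem merge_lemma {x : ℚ} {k n : ℕ} {t : Multiset ℕ} (hn : 2 ≤ n)
    (h : IsRep x k (n ::ₘ n ::ₘ t)) : ∃ s' m, IsRep x k s' ∧ m ∈ s' ∧ m < n := by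
  obtain ⟨h1, h2, h3⟩ := h
  simp only [Multiset.card_cons] at h1
  simp only [Multiset.map_cons, Multiset.sum_cons] at h3
  have ht : ∀ a ∈ t, 0 < a := fun a ha => h2 a (by simp [ha])
  rcases Nat.even_or_odd' n with ⟨m, hm | hm⟩
  · refine ⟨m ::ₘ t, m, ⟨?_, ?_, ?_⟩, by simp, by omega⟩
    · simp only [Multiset.card_cons]; omega
    · intro a ha
      rcases Multiset.mem_cons.1 ha with rfl | ha
      · omega
      · exact ht a ha
    · simp only [Multiset.map_cons, Multiset.sum_cons]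
      rw [← h3, hm]
      have hm0 : (m : ℚ) ≠ 0 := by
        have : 0 < m := by omega
        exact_mod_cast this.ne'
      push_cast
      field_simp
      ring
  · refine ⟨(m + 1) ::ₘ (n * (m + 1)) ::ₘ t, m + 1, ⟨?_, ?_, ?_⟩, by simp, by omega⟩
    · simp only [Multiset.card_cons]; omega
    · intro a ha
      rcases Multiset.mem_cons.1 ha with rfl | ha
      · omega
      · rcases Multiset.mem_cons.1 ha with rfl | ha
        · exact Nat.mul_pos (by omega) (by omega)
        · exact ht a ha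
    · simp only [Multiset.map_cons, Multiset.sum_cons]
      rw [← h3, hm]
      have hm0 : ((m : ℚ) + 1) ≠ 0 := by positivity
      have hm1 : (2 * (m : ℚ) + 1) ≠ 0 := by positivity
      push_cast
      field_simp
      ring

theorem distinct_aux (k : ℕ) : ∀ (x : ℚ) (L : ℕ), 1 ≤ L → (∃ s, IsRep x k s) →
    (∀ s, IsRep x k s → ∀ n ∈ s, L < n) →
    ∃ S : Finset ℕ, (∀ n ∈ S, L < n) ∧ ∑ n ∈ S, (1 / (n : ℚ)) = x ∧ S.card ≤ k := by
  induction k with
  | zero =>
    rintro x L hL ⟨s, h1, h2, h3⟩ _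
    have : s = 0 := Multiset.card_eq_zero.1 (Nat.le_zero.1 h1)
    subst this
    exact ⟨∅, by simp, by simpa using h3, by simp⟩
  | succ k ih =>
    rintro x L hL ⟨s, hs⟩ hall
    classical
    by_cases hs0 : s = 0
    · subst hs0
      exact ⟨∅, by simp, by simpa using hs.2.2, by simp⟩
    · obtain ⟨a, ha⟩ := Multiset.exists_mem_of_ne_zero hs0
      have hex : ∃ n, ∃ s, IsRep x (k + 1) s ∧ n ∈ s := ⟨a, s, hs, ha⟩
      obtain ⟨n1, ⟨S0, hS0, hmem⟩, hmin'⟩ :
          ∃ n1, (∃ s, IsRep x (k + 1) s ∧ n1 ∈ s) ∧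
            ∀ n, (∃ s, IsRep x (k + 1) s ∧ n ∈ s) → n1 ≤ n :=
        ⟨Nat.find hex, Nat.find_spec hex, fun n hn => Nat.find_min' hex hn⟩
      have hmin : ∀ s, IsRep x (k + 1) s → ∀ n ∈ s, n1 ≤ n :=
        fun s hs n hn => hmin' n ⟨s, hs, hn⟩
      have hLn : L < n1 := hall S0 hS0 n1 hmem
      obtain ⟨t, rfl⟩ := Multiset.exists_cons_of_mem hmem
      have hrep' : IsRep (x - 1 / (n1 : ℚ)) k t := by
        obtain ⟨h1, h2, h3⟩ := hS0
        simp only [Multiset.card_cons] at h1
        simp only [Multiset.map_cons, Multiset.sum_cons] at h3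
        refine ⟨by omega, fun a ha => h2 a (by simp [ha]), ?_⟩
        rw [← h3]; ring
      have hcons : ∀ s'', IsRep (x - 1 / (n1 : ℚ)) k s'' → IsRep x (k + 1) (n1 ::ₘ s'') := by
        rintro s'' ⟨h1, h2, h3⟩
        refine ⟨by simp only [Multiset.card_cons]; omega, ?_, ?_⟩
        · intro a ha
          rcases Multiset.mem_cons.1 ha with rfl | ha
          · omega
          · exact h2 a ha
        · simp only [Multiset.map_cons, Multiset.sum_cons]
          rw [h3]; ring
      have hall' : ∀ s'', IsRep (x - 1 / (n1 : ℚ)) k s'' → ∀ n ∈ s'', n1 < n := by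
        intro s'' hs'' n hn
        have h1 := hmin _ (hcons s'' hs'') n (by simp [hn])
        rcases Nat.lt_or_ge n1 n with h | h
        · exact h
        · have hnn : n = n1 := le_antisymm h h1
          rw [hnn] at hn
          obtain ⟨t', rfl⟩ := Multiset.exists_cons_of_mem hn
          obtain ⟨s', m, hs', hm, hlt⟩ := merge_lemma (by omega) (hcons _ hs'')
          have := hmin s' hs' m hm
          omega
      obtain ⟨S', hS1, hS2, hS3⟩ := ih _ n1 (by omega) ⟨t, hrep'⟩ hall'
      have hnot : n1 ∉ S' := fun hh => lt_irrefl _ (hS1 n1 hh)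
      refine ⟨insert n1 S', ?_, ?_, ?_⟩
      · intro n hn
        rcases Finset.mem_insert.1 hn with rfl | hn
        · exact hLn
        · exact hLn.trans (hS1 n hn)
      · rw [Finset.sum_insert hnot, hS2]; ring
      · rw [Finset.card_insert_of_notMem hnot]; omega

/-- Takenouchi: repetitions can be removed without increasing the number of terms. -/
theorem uf_distinct {x : ℚ} {H : ℕ} (hx1 : x < 1) (h : UF x H) :
    ∃ S : Finset ℕ, (∀ n ∈ S, 2 ≤ n) ∧ ∑ n ∈ S, (1 / (n : ℚ)) = x ∧ S.card ≤ H := by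
  obtain ⟨s, h1, h2, h3⟩ := h
  have key : ∀ s, IsRep x H s → ∀ n ∈ s, 1 < n := by
    rintro s ⟨k1, k2, k3⟩ n hn
    have hpos := k2 n hn
    by_contra hcon
    have hn1 : n = 1 := by omega
    subst hn1
    obtain ⟨t, rfl⟩ := Multiset.exists_cons_of_mem hn
    simp only [Multiset.map_cons, Multiset.sum_cons] at k3
    have hnonneg : 0 ≤ (t.map (fun n : ℕ => (1 : ℚ) / n)).sum := by
      apply Multiset.sum_nonneg
      intro y hy
      obtain ⟨m, _, rfl⟩ := Multiset.mem_map.1 hy
      positivity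
    have : (1 : ℚ) ≤ x := by
      rw [← k3]
      simp only [Nat.cast_one, div_one]
      linarith
    linarith
  obtain ⟨S, hS1, hS2, hS3⟩ := distinct_aux H x 1 le_rfl ⟨s, h1, h2, h3⟩ key
  exact ⟨S, fun n hn => hS1 n hn, hS2, hS3⟩

end Vale.Agent.P012
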