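import Vale.Agent.P012.Defs

namespace Vale.Agent.P012

open Finset

theorem egyptian_of_rep {D H a b : ℕ} (hD : Rep D H) (ha : 1 ≤ a) (hab : a < b) (hbD : b ≤ D) :
    ∃ S : Finset ℕ, (∀ n ∈ S, 2 ≤ n) ∧ ∑ n ∈ S, (1 / (n : ℚ)) = (a : ℚ) / b ∧ S.card ≤ 2 * H := by
  have hb : 0 < b := by omega
  have hDpos : 0 < D := by omega
  set Q := a * D / b with hQ
  set R := a * D % b with hR
  have hdiv : b * Q + R = a * D := Nat.div_add_mod (a * D) b
  have hRb : R < b := Nat.mod_lt _ hb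
  have hQD : Q < D := by
    rw [hQ, Nat.div_lt_iff_lt_mul hb, mul_comm D b]
    exact Nat.mul_lt_mul_of_pos_right hab hDpos
  obtain ⟨T1, t1, c1, s1⟩ := hD Q hQD.le
  obtain ⟨T2, t2, c2, s2⟩ := hD R (by omega)
  have hle1 : ∀ d ∈ T1, d ≤ Q := fun d hd => by
    rw [← s1]; exact Finset.single_le_sum (f := fun d => d) (fun _ _ => Nat.zero_le _) hd
  have hle2 : ∀ d ∈ T2, d ≤ R := fun d hd => by
    rw [← s2]; exact Finset.single_le_sum (f := fun d => d) (fun _ _ => Nat.zero_le _) hd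
  have hdd : ∀ d ∈ D.divisors, 0 < d ∧ d * (D / d) = D ∧ 0 < D / d := by
    intro d hd
    have h1 := Nat.mem_divisors.1 hd
    have h2 : 0 < d := Nat.pos_of_dvd_of_pos h1.1 hDpos
    exact ⟨h2, Nat.mul_div_cancel' h1.1, Nat.div_pos (Nat.le_of_dvd hDpos h1.1) h2⟩
  have hinj : ∀ d ∈ D.divisors, ∀ d' ∈ D.divisors, D / d = D / d' → d = d' := by
    intro d hd d' hd' h
    obtain ⟨_, e1, p1⟩ := hdd d hd
    obtain ⟨_, e2, _⟩ := hdd d' hd'
    rw [← h] at e2
    exact Nat.eq_of_mul_eq_mul_right p1 (e1.trans e2.symm)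
  have hinj1 : Set.InjOn (fun d => D / d) (T1 : Set ℕ) := fun d hd d' hd' h =>
    hinj d (t1 hd) d' (t1 hd') h
  have hinj2 : Set.InjOn (fun d => b * (D / d)) (T2 : Set ℕ) := fun d hd d' hd' h =>
    hinj d (t2 hd) d' (t2 hd') (Nat.eq_of_mul_eq_mul_left hb h)
  have hsmall : ∀ n ∈ T1.image (fun d => D / d), 2 ≤ n ∧ n ≤ D := by
    intro n hn
    obtain ⟨d, hd, rfl⟩ := Finset.mem_image.1 hn
    obtain ⟨p0, e1, p1⟩ := hdd d (t1 hd)
    refine ⟨?_, Nat.div_le_self _ _⟩
    by_contra hcon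
    have h1 : D / d = 1 := by omega
    rw [h1, mul_one] at e1
    have := hle1 d hd
    omega
  have hbig : ∀ n ∈ T2.image (fun d => b * (D / d)), D < n := by
    intro n hn
    obtain ⟨d, hd, rfl⟩ := Finset.mem_image.1 hn
    obtain ⟨p0, e1, p1⟩ := hdd d (t2 hd)
    have h1 : d < b := lt_of_le_of_lt (hle2 d hd) hRb
    calc D = d * (D / d) := e1.symm
      _ < b * (D / d) := Nat.mul_lt_mul_of_pos_right h1 p1
  have hdisj : Disjoint (T1.image (fun d => D / d)) (T2.image (fun d => b * (D / d))) := by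
    rw [Finset.disjoint_left]
    intro n h1 h2
    have := (hsmall n h1).2
    have := hbig n h2
    omega
  refine ⟨T1.image (fun d => D / d) ∪ T2.image (fun d => b * (D / d)), ?_, ?_, ?_⟩
  · intro n hn
    rcases Finset.mem_union.1 hn with h | h
    · exact (hsmall n h).1
    · have := hbig n h
      omega
  · rw [Finset.sum_union hdisj, Finset.sum_image hinj1, Finset.sum_image hinj2]
    have hDq : (D : ℚ) ≠ 0 := by exact_mod_cast hDpos.ne'
    have hbq : (b : ℚ) ≠ 0 := by exact_mod_cast hb.ne'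
    have e1 : ∑ d ∈ T1, (1 / ((D / d : ℕ) : ℚ)) = (Q : ℚ) / D := by
      rw [← s1, Nat.cast_sum, Finset.sum_div]
      apply Finset.sum_congr rfl
      intro d hd
      obtain ⟨p0, e1, p1⟩ := hdd d (t1 hd)
      have h1 : (d : ℚ) * ((D / d : ℕ) : ℚ) = D := by exact_mod_cast e1
      have h2 : ((D / d : ℕ) : ℚ) ≠ 0 := by exact_mod_cast p1.ne'
      rw [div_eq_div_iff h2 hDq, one_mul, h1]
    have e2 : ∑ d ∈ T2, (1 / ((b * (D / d) : ℕ) : ℚ)) = (R : ℚ) / (b * D) := by
      rw [← s2, Nat.cast_sum, Finset.sum_div]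
      apply Finset.sum_congr rfl
      intro d hd
      obtain ⟨p0, e1, p1⟩ := hdd d (t2 hd)
      have h1 : (d : ℚ) * ((D / d : ℕ) : ℚ) = D := by exact_mod_cast e1
      have h2 : ((D / d : ℕ) : ℚ) ≠ 0 := by exact_mod_cast p1.ne'
      rw [Nat.cast_mul, div_eq_div_iff (mul_ne_zero hbq h2) (mul_ne_zero hbq hDq), one_mul, ← h1]
      ring
    rw [e1, e2]
    have h3 : (b : ℚ) * Q + R = a * D := by exact_mod_cast hdiv
    field_simp
    linarith
  · calc _ ≤ (T1.image (fun d => D / d)).card + (T2.image (fun d => b * (D / d))).card :=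
          Finset.card_union_le _ _
      _ ≤ T1.card + T2.card := Nat.add_le_add Finset.card_image_le Finset.card_image_le
      _ ≤ 2 * H := by omega

end Vale.Agent.P012
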