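import Vale.Agent.P012.Good
import Vale.Agent.P012.Egyptian

namespace Vale.Agent.P012

open Finset

theorem good_mono {lo hi w H lo' hi' w' H' : ℕ} (hG : Good lo hi w H) (h1 : lo' ≤ lo)
    (h2 : hi ≤ hi') (h3 : w ≤ w') (h4 : H ≤ H') : Good lo' hi' w' H' := by
  obtain ⟨S, hS, ha, hb, hc, hd⟩ := hG
  exact ⟨S, hS, h1.trans ha, hb.trans h2,
    hc.trans (Nat.pow_le_pow_right (by norm_num) h3), rep_mono hd h4⟩

theorem epoch_aux1 (k : ℕ) (hk : 7 ≤ k) : 9 * k + 54 ≤ 2 ^ k := by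
  induction k, hk using Nat.le_induction with
  | base => norm_num
  | succ n hn ih => rw [pow_succ]; omega

theorem epoch_aux2 (k : ℕ) : 12 * k + 72 < 2 ^ (k + 9) := by
  induction k with
  | zero => norm_num
  | succ n ih =>
    have : 2 ^ (n + 1 + 9) = 2 * 2 ^ (n + 9) := by ring
    omega

theorem good_epoch {k H : ℕ} (hk : 7 ≤ k)
    (hG : Good (2 * 2 ^ k + 8) (2 ^ (k + 5)) (2 ^ (k + 7) * (3 * k + 18)) H) :
    Good (2 * 2 ^ (k + 1) + 8) (2 ^ (k + 1 + 5)) (2 ^ (k + 1 + 7) * (3 * (k + 1) + 18))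
      (H + 96 * (3 * k + 18)) := by
  set u : ℕ := 2 ^ k with hu
  set x : ℕ := 3 * k + 18 with hx
  set j : ℕ := u / (3 * x) with hj
  set n : ℕ := 12 * x with hn
  have hxpos : 0 < 3 * x := by omega
  have h3 : 3 * x * j ≤ u := Nat.mul_div_le u (3 * x)
  have h3x : 3 * x ≤ u := by
    have := epoch_aux1 k hk
    omega
  have h6 : 1 ≤ j := (Nat.one_le_div_iff hxpos).2 h3x
  have hlt : u < 3 * x * (j + 1) := Nat.lt_mul_div_succ u hxpos
  have hjn : j * n = 4 * (3 * x * j) := by rw [hn]; ring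
  have hjn_lo : 2 * u ≤ j * n := by
    have h7 : 3 * x * (j + 1) ≤ 2 * (3 * x * j) := by
      have : 3 * x * 1 ≤ 3 * x * j := Nat.mul_le_mul_left _ h6
      nlinarith
    omega
  have hjn_hi : j * n ≤ 4 * u := by omega
  have hp5 : 2 ^ (k + 5) = 32 * u := by rw [hu, pow_add]; ring
  have hp6 : 2 ^ (k + 1 + 5) = 64 * u := by rw [hu, pow_add, pow_add]; ring
  have hp1 : 2 ^ (k + 1) = 2 * u := by rw [hu, pow_add]; ring
  have hp7 : 2 ^ (k + 7) = 128 * u := by rw [hu, pow_add]; ring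
  have hp8 : 2 ^ (k + 1 + 7) = 256 * u := by rw [hu, pow_add, pow_add]; ring
  have hw : 4 * x * j * n = 16 * x * (3 * x * j) := by rw [hn]; ring
  have hw_le : 4 * x * j * n ≤ 16 * x * u := by
    rw [hw]; exact Nat.mul_le_mul_left _ h3
  have hW : 2 ^ (k + 7) * x + 4 * x * j * n ≤ 256 * u * x := by
    rw [hp7]
    nlinarith
  have hxj : x * j ≤ u := by nlinarith
  have hju : j ≤ u := by nlinarith
  have hupos : 0 < u := by positivity
  have h4 : 2 ^ (3 * x) * (2 ^ (k + 7) * x + 4 * x * j * n) * j + j + (2 ^ (k + 5) + j * n) ≤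
      Nat.primeCounting (2 ^ (4 * x)) := by
    have hA : 2 ^ (3 * x) * (2 ^ (k + 7) * x + 4 * x * j * n) * j ≤ 2 ^ (3 * x) * (256 * u * u) := by
      rw [mul_assoc]
      apply Nat.mul_le_mul_left
      calc (2 ^ (k + 7) * x + 4 * x * j * n) * j ≤ (256 * u * x) * j := Nat.mul_le_mul_right _ hW
        _ = 256 * u * (x * j) := by ring
        _ ≤ 256 * u * u := Nat.mul_le_mul_left _ hxj
    have hB : j + (2 ^ (k + 5) + j * n) ≤ 2 ^ (3 * x) * (256 * u * u) := by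
      have h1 : 1 ≤ 2 ^ (3 * x) := Nat.one_le_two_pow
      have h2 : j + (2 ^ (k + 5) + j * n) ≤ 37 * u := by omega
      have h3' : 37 * u ≤ 256 * u * u := by nlinarith
      calc j + (2 ^ (k + 5) + j * n) ≤ 1 * (256 * u * u) := by omega
        _ ≤ 2 ^ (3 * x) * (256 * u * u) := Nat.mul_le_mul_right _ h1
    have hC : 2 ^ (3 * x) * (2 ^ (k + 7) * x + 4 * x * j * n) * j + j + (2 ^ (k + 5) + j * n)
        ≤ 2 ^ (3 * x) * (512 * u * u) := by
      have : 2 ^ (3 * x) * (512 * u * u) = 2 ^ (3 * x) * (256 * u * u) + 2 ^ (3 * x) * (256 * u * u) := by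
        ring
      omega
    refine hC.trans ?_
    have hpi := pi_lower_strong (4 * x) (by omega)
    by_contra hcon
    have h8 : Nat.primeCounting (2 ^ (4 * x)) + 1 ≤ 2 ^ (3 * x) * (512 * u * u) :=
      Nat.lt_of_not_le hcon
    have h9 : 2 ^ (4 * x) ≤ 4 * x * (2 ^ (3 * x) * (512 * u * u)) :=
      hpi.trans (Nat.mul_le_mul_left _ h8)
    have h10 : 2 ^ (4 * x) = 2 ^ (3 * x) * (512 * u * u) * 2 ^ (k + 9) := by
      have e1 : (512 : ℕ) = 2 ^ 9 := by norm_num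
      rw [hu, e1, ← pow_add, ← pow_add, ← pow_add, ← pow_add]
      congr 1
      omega
    have h11 : 4 * x < 2 ^ (k + 9) := by
      have := epoch_aux2 k
      omega
    have hpos : 0 < 2 ^ (3 * x) * (512 * u * u) := by positivity
    rw [h10] at h9
    have h12 : 2 ^ (3 * x) * (512 * u * u) * 2 ^ (k + 9) ≤ 2 ^ (3 * x) * (512 * u * u) * (4 * x) := by
      calc _ ≤ 4 * x * (2 ^ (3 * x) * (512 * u * u)) := h9
        _ = _ := by ring
    have h13 := Nat.le_of_mul_le_mul_left h12 hpos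
    omega
  have h5 : 2 * j * 2 ^ 48 ≤ 2 ^ (4 * x) := by
    calc 2 * j * 2 ^ 48 ≤ 2 * u * 2 ^ 48 := by
          apply Nat.mul_le_mul_right
          exact Nat.mul_le_mul_left _ hju
      _ = 2 ^ (k + 49) := by rw [hu]; ring
      _ ≤ 2 ^ (4 * x) := Nat.pow_le_pow_right (by norm_num) (by omega)
  have hres := good_iter (u := u) (x := x) (j := j) n hG le_rfl h3 h4 h5 h6
  refine good_mono hres ?_ ?_ ?_ ?_
  · rw [hp1]; omega
  · rw [hp5, hp6]; omega
  · rw [hp8]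
    refine hW.trans ?_
    apply Nat.mul_le_mul_left
    omega
  · rw [hn]; omega

theorem good_all : ∃ H0, ∀ k, 7 ≤ k →
    Good (2 * 2 ^ k + 8) (2 ^ (k + 5)) (2 ^ (k + 7) * (3 * k + 18)) (H0 + 96 * (k * (3 * k + 18))) := by
  obtain ⟨H0, hH0⟩ := good_base
  refine ⟨H0, fun k hk => ?_⟩
  induction k, hk using Nat.le_induction with
  | base => exact good_mono hH0 le_rfl le_rfl le_rfl (by omega)
  | succ n hn ih =>
    refine good_mono (good_epoch hn ih) le_rfl le_rfl le_rfl ?_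
    nlinarith

theorem two_pow_card_le_prod (S : Finset ℕ) (hS : ∀ p ∈ S, p.Prime) : 2 ^ S.card ≤ ∏ p ∈ S, p := by
  rw [← Finset.prod_const]
  exact Finset.prod_le_prod' fun p hp => (hS p hp).two_le

theorem nat_bound : ∃ H0 : ℕ, ∀ k a b : ℕ, 7 ≤ k → 1 ≤ a → a < b → b ≤ 2 ^ 2 ^ k →
    ∃ S : Finset ℕ, (∀ n ∈ S, 2 ≤ n) ∧ ∑ n ∈ S, (1 / (n : ℚ)) = (a : ℚ) / b ∧
      S.card ≤ 2 * (H0 + 96 * (k * (3 * k + 18))) := by
  obtain ⟨H0, hH0⟩ := good_all
  refine ⟨H0, fun k a b hk ha hab hb => ?_⟩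
  obtain ⟨S, hS, hlo, -, -, hRep⟩ := hH0 k hk
  refine egyptian_of_rep hRep ha hab (hb.trans ?_)
  refine le_trans ?_ (two_pow_card_le_prod S hS)
  exact Nat.pow_le_pow_right (by norm_num) (by omega)

end Vale.Agent.P012
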