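import Vale.Agent.P012.Good2
import Vale.Agent.P012.Choose2

namespace Vale.Agent.P012

open Finset

theorem pool_bound {e l E : ℕ} (he1 : e ≤ 2 ^ l) (hE : E + l + 2 = e) (hE3 : 3 ≤ E) :
    2 * 2 ^ E + 8 ≤ Nat.primeCounting (2 ^ e) := by
  have h1 := pi_lower_strong e (by omega)
  have h2 : 2 ^ e = 2 ^ l * (4 * 2 ^ E) := by
    rw [← hE, pow_add, pow_add]
    ring
  have h3 : e * (Nat.primeCounting (2 ^ e) + 1) ≤ 2 ^ l * (Nat.primeCounting (2 ^ e) + 1) :=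
    Nat.mul_le_mul_right _ he1
  have h4 : 2 ^ l * (4 * 2 ^ E) ≤ 2 ^ l * (Nat.primeCounting (2 ^ e) + 1) := by
    rw [← h2]
    exact h1.trans h3
  have h5 := Nat.le_of_mul_le_mul_left h4 (by positivity)
  have h6 : 2 ^ 3 ≤ 2 ^ E := Nat.pow_le_pow_right (by norm_num) hE3
  omega

theorem aux_lin_pow (e : ℕ) : 16 * e + 80 < 2 ^ (e + 19) := by
  induction e with
  | zero => norm_num
  | succ n ih =>
    have : 2 ^ (n + 1 + 19) = 2 * 2 ^ (n + 19) := by ring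
    omega

theorem h4_bound {e h j c : ℕ} (hj : j ≤ 2 ^ e) (hh : h + 1 ≤ 2 ^ e)
    (hc : c ≤ 2 ^ (e + 1) + 2 ^ e * 2 ^ e) :
    2 ^ (3 * (4 * e + 20)) * (e * (h + 1)) * j + j + c ≤
      Nat.primeCounting (2 ^ (4 * (4 * e + 20))) := by
  set x := 4 * e + 20 with hx
  set A := 2 ^ e with hA
  have hApos : 1 ≤ A := Nat.one_le_two_pow
  have heA : e ≤ A := (Nat.lt_two_pow_self).le
  have h1 : e * (h + 1) * j ≤ A * A * A := Nat.mul_le_mul (Nat.mul_le_mul heA hh) hj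
  have h2 : 2 ^ (3 * x) * (e * (h + 1)) * j ≤ 2 ^ (3 * x) * (A * A * A) := by
    rw [mul_assoc]
    exact Nat.mul_le_mul_left _ h1
  have h3 : 4 ≤ 2 ^ (3 * x) := by
    calc 4 = 2 ^ 2 := by norm_num
      _ ≤ 2 ^ (3 * x) := Nat.pow_le_pow_right (by norm_num) (by omega)
  have hc' : c ≤ 2 * A + A * A := by
    have : 2 ^ (e + 1) = 2 * A := by rw [hA, pow_succ]; ring
    omega
  have hAA : A ≤ A * A := Nat.le_mul_of_pos_left A hApos
  have hAAA : A * A ≤ A * A * A := Nat.le_mul_of_pos_right (A * A) hApos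
  have h4 : j + c ≤ 2 ^ (3 * x) * (A * A * A) := by
    calc j + c ≤ 4 * (A * A * A) := by omega
      _ ≤ 2 ^ (3 * x) * (A * A * A) := Nat.mul_le_mul_right _ h3
  have hC : 2 ^ (3 * x) * (e * (h + 1)) * j + j + c ≤ 2 ^ (3 * x) * (2 * (A * A * A)) := by
    have : 2 ^ (3 * x) * (2 * (A * A * A)) =
        2 ^ (3 * x) * (A * A * A) + 2 ^ (3 * x) * (A * A * A) := by ring
    omega
  refine hC.trans ?_
  have hpi := pi_lower_strong (4 * x) (by omega)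
  by_contra hcon
  have h8 : Nat.primeCounting (2 ^ (4 * x)) + 1 ≤ 2 ^ (3 * x) * (2 * (A * A * A)) :=
    Nat.lt_of_not_le hcon
  have h9 : 2 ^ (4 * x) ≤ 4 * x * (2 ^ (3 * x) * (2 * (A * A * A))) :=
    hpi.trans (Nat.mul_le_mul_left _ h8)
  have h10 : 2 ^ (4 * x) = 2 ^ (3 * x) * (2 * (A * A * A)) * 2 ^ (e + 19) := by
    have e1 : 2 * (A * A * A) = 2 ^ (1 + (e + e + e)) := by
      rw [hA, pow_add, pow_add, pow_add]
      ring
    rw [e1, ← pow_add, ← pow_add]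
    congr 1
    omega
  have h11 : 4 * x < 2 ^ (e + 19) := by
    have := aux_lin_pow e
    omega
  have hpos : 0 < 2 ^ (3 * x) * (2 * (A * A * A)) := by positivity
  rw [h10] at h9
  have h12 : 2 ^ (3 * x) * (2 * (A * A * A)) * 2 ^ (e + 19) ≤
      2 ^ (3 * x) * (2 * (A * A * A)) * (4 * x) := by
    calc _ ≤ 4 * x * (2 ^ (3 * x) * (2 * (A * A * A))) := h9
      _ = _ := by ring
  have h13 := Nat.le_of_mul_le_mul_left h12 hpos
  omega

theorem h5_bound {e j : ℕ} (hj : j ≤ 2 ^ e) : 2 * j * 2 ^ 48 ≤ 2 ^ (4 * (4 * e + 20)) := by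
  calc 2 * j * 2 ^ 48 ≤ 2 * 2 ^ e * 2 ^ 48 := by
        apply Nat.mul_le_mul_right
        exact Nat.mul_le_mul_left _ hj
    _ = 2 ^ (e + 49) := by ring
    _ ≤ 2 ^ (4 * (4 * e + 20)) := Nat.pow_le_pow_right (by norm_num) (by omega)

theorem run2 {e l E mu lam s r z H0 : ℕ} (he1 : e ≤ 2 ^ l) (hE : E + l + 2 = e)
    (hml : mu + lam = E) (hmu : 1 ≤ mu) (hlam : l + 7 ≤ lam)
    (hs : s + r ≤ 2 ^ e) (hz : e * (2 * 2 ^ lam + 1) + 3 ≤ z)
    (hG : Good2 e (2 ^ (e + 1) + 2 ^ e * s) z (H0 + 8 * s)) :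
    Good2 e (2 ^ (e + 1) + 2 ^ e * (s + r))
      (z + e * (mu * 2 ^ lam / (3 * (4 * e + 20))) * r) (H0 + 8 * (s + r)) := by
  set x := 4 * e + 20 with hx
  set j := mu * 2 ^ lam / (3 * x) with hj
  have hxpos : 0 < 3 * x := by omega
  have hlam128 : 128 * e ≤ 2 ^ lam := by
    calc 128 * e ≤ 128 * 2 ^ l := Nat.mul_le_mul_left _ he1
      _ = 2 ^ (l + 7) := by rw [pow_add]; ring
      _ ≤ 2 ^ lam := Nat.pow_le_pow_right (by norm_num) hlam
  have hmul : 2 ^ lam ≤ mu * 2 ^ lam := Nat.le_mul_of_pos_left _ hmu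
  have hj1 : 1 ≤ j := (Nat.one_le_div_iff hxpos).2 (by omega)
  have hj2 : j ≤ 2 ^ e := by
    calc j ≤ mu * 2 ^ lam := Nat.div_le_self _ _
      _ ≤ 2 ^ mu * 2 ^ lam := Nat.mul_le_mul_right _ (Nat.lt_two_pow_self).le
      _ = 2 ^ E := by rw [← pow_add, hml]
      _ ≤ 2 ^ e := Nat.pow_le_pow_right (by norm_num) (by omega)
  have hh : 2 ^ lam + 1 ≤ 2 ^ e := by
    have h1 : 1 ≤ 2 ^ lam := Nat.one_le_two_pow
    calc 2 ^ lam + 1 ≤ 2 ^ (lam + 1) := by rw [pow_succ]; omega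
      _ ≤ 2 ^ e := Nat.pow_le_pow_right (by norm_num) (by omega)
  have h3 : 2 ^ (3 * x * j) ≤ (2 ^ E).choose (2 ^ lam) := by
    have h1 := choose_two_pow_lower E lam (by omega)
    have h2 : E - lam = mu := by omega
    rw [h2] at h1
    refine le_trans ?_ h1
    exact Nat.pow_le_pow_right (by norm_num) (Nat.mul_div_le _ _)
  have hjr : j * r ≤ 2 ^ e * r := Nat.mul_le_mul_right _ hj2
  have hsr : 2 ^ e * (s + r) ≤ 2 ^ e * 2 ^ e := Nat.mul_le_mul_left _ hs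
  have hadd : 2 ^ e * (s + r) = 2 ^ e * s + 2 ^ e * r := by ring
  have h4 := h4_bound (e := e) (h := 2 ^ lam) (j := j) (c := 2 ^ (e + 1) + 2 ^ e * s + j * r) hj2 hh
    (by omega)
  have hres := good2_iter (u := 2 ^ E) (h := 2 ^ lam) (x := x) (j := j) r hG
    (pool_bound he1 hE (by omega)) h3 h4 (h5_bound hj2) hj1 hz
  exact good2_mono hres (by omega) le_rfl (by omega)

theorem floor_prod_bound {y a b : ℕ} (ha : 0 < a) (hb : 0 < b) (hy : a ≤ b * y) :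
    2 * y ≤ (b * y / a) * (4 * a / b + 1) := by
  set j := b * y / a with hj
  set r := 4 * a / b + 1 with hr
  have hj1 : 1 ≤ j := (Nat.one_le_div_iff ha).2 hy
  have h1 : b * y < a * (j + 1) := Nat.lt_mul_div_succ _ ha
  have h2 : 4 * a < b * r := Nat.lt_mul_div_succ _ hb
  have h3 : a * (j + 1) ≤ 2 * a * j := by nlinarith
  have h4 : b * y < 2 * a * j := lt_of_lt_of_le h1 h3
  have h5 : (b * y) * (4 * a) < (2 * a * j) * (b * r) := Nat.mul_lt_mul'' h4 h2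
  have h6 : (2 * a * b) * (2 * y) < (2 * a * b) * (j * r) := by
    calc (2 * a * b) * (2 * y) = (b * y) * (4 * a) := by ring
      _ < (2 * a * j) * (b * r) := h5
      _ = (2 * a * b) * (j * r) := by ring
  exact (Nat.lt_of_mul_lt_mul_left h6).le

theorem epoch2 {e l E mu lam s H0 : ℕ} (he1 : e ≤ 2 ^ l) (hE : E + l + 2 = e)
    (hml : mu + lam = E) (hmu : 1 ≤ mu) (hlam : l + 7 ≤ lam)
    (hs : s + (12 * (4 * e + 20) / mu + 1) ≤ 2 ^ e)
    (hG : Good2 e (2 ^ (e + 1) + 2 ^ e * s) (e * (2 * 2 ^ lam + 1) + 3) (H0 + 8 * s)) :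
    Good2 e (2 ^ (e + 1) + 2 ^ e * (s + (12 * (4 * e + 20) / mu + 1)))
      (e * (2 * 2 ^ (lam + 1) + 1) + 3) (H0 + 8 * (s + (12 * (4 * e + 20) / mu + 1))) := by
  have hres := run2 he1 hE hml hmu hlam hs le_rfl hG
  refine good2_mono hres le_rfl ?_ le_rfl
  have hlam128 : 128 * e ≤ 2 ^ lam := by
    calc 128 * e ≤ 128 * 2 ^ l := Nat.mul_le_mul_left _ he1
      _ = 2 ^ (l + 7) := by rw [pow_add]; ring
      _ ≤ 2 ^ lam := Nat.pow_le_pow_right (by norm_num) hlam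
  have hmul : 2 ^ lam ≤ mu * 2 ^ lam := Nat.le_mul_of_pos_left _ hmu
  have hkey := floor_prod_bound (y := 2 ^ lam) (a := 3 * (4 * e + 20)) (b := mu) (by omega) hmu
    (by omega)
  have h12 : 4 * (3 * (4 * e + 20)) = 12 * (4 * e + 20) := by ring
  rw [h12] at hkey
  have h1 : e * (2 * 2 ^ lam) ≤
      e * (mu * 2 ^ lam / (3 * (4 * e + 20))) * (12 * (4 * e + 20) / mu + 1) := by
    rw [mul_assoc]
    exact Nat.mul_le_mul_left _ hkey
  have h2 : e * (2 * 2 ^ (lam + 1) + 1) + 3 = e * (2 * 2 ^ lam + 1) + 3 + e * (2 * 2 ^ lam) := by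
    rw [pow_succ]
    ring
  omega

theorem chain2 {e l E m H0 : ℕ} (he1 : e ≤ 2 ^ l) (hE : E + l + 2 = e) (hm : m + (l + 7) = E)
    (hsig : ∑ t ∈ range m, (12 * (4 * e + 20) / (m - t) + 1) ≤ 2 ^ e)
    (hG : Good2 e (2 ^ (e + 1)) (e * (2 * 2 ^ (l + 7) + 1) + 3) H0) :
    ∀ i ≤ m, Good2 e (2 ^ (e + 1) + 2 ^ e * ∑ t ∈ range i, (12 * (4 * e + 20) / (m - t) + 1))
      (e * (2 * 2 ^ (l + 7 + i) + 1) + 3)
      (H0 + 8 * ∑ t ∈ range i, (12 * (4 * e + 20) / (m - t) + 1)) := by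
  intro i
  induction i with
  | zero => intro _; simpa using hG
  | succ i ih =>
    intro hi
    have hG' := ih (by omega)
    have hle : ∑ t ∈ range (i + 1), (12 * (4 * e + 20) / (m - t) + 1) ≤ 2 ^ e := by
      refine le_trans ?_ hsig
      apply Finset.sum_le_sum_of_subset
      exact Finset.range_subset_range.2 hi
    rw [Finset.sum_range_succ] at hle ⊢
    exact epoch2 (mu := m - i) (lam := l + 7 + i) he1 hE (by omega) (by omega) (by omega) hle hG'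

theorem late2 {e l E s z H0 : ℕ} (he1 : e ≤ 2 ^ l) (he2 : 2 ^ l ≤ 2 * e) (hE : E + l + 2 = e)
    (hEl : l + 8 ≤ E) (hs : s + 480 * (4 * e + 20) ≤ 2 ^ e) (hz : e * (2 * 2 ^ E + 1) + 3 ≤ z)
    (hG : Good2 e (2 ^ (e + 1) + 2 ^ e * s) z (H0 + 8 * s)) :
    Good2 e (2 ^ (e + 1) + 2 ^ e * (s + 480 * (4 * e + 20))) (5 * 2 ^ e)
      (H0 + 8 * (s + 480 * (4 * e + 20))) := by
  obtain ⟨lam, hlam⟩ : ∃ lam, lam + 1 = E := ⟨E - 1, by omega⟩
  have hpow : 2 ^ E = 2 * 2 ^ lam := by rw [← hlam, pow_succ]; ring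
  have hz' : e * (2 * 2 ^ lam + 1) + 3 ≤ z := by
    have : e * (2 * 2 ^ lam + 1) ≤ e * (2 * 2 ^ E + 1) := by
      apply Nat.mul_le_mul_left
      omega
    omega
  have hres := run2 (mu := 1) (lam := lam) he1 hE (by omega) le_rfl (by omega) hs hz' hG
  refine good2_mono hres le_rfl ?_ le_rfl
  set x := 4 * e + 20 with hx
  rw [one_mul]
  set j := 2 ^ lam / (3 * x) with hj
  have hxpos : 0 < 3 * x := by omega
  have hlam128 : 128 * e ≤ 2 ^ lam := by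
    calc 128 * e ≤ 128 * 2 ^ l := Nat.mul_le_mul_left _ he1
      _ = 2 ^ (l + 7) := by rw [pow_add]; ring
      _ ≤ 2 ^ lam := Nat.pow_le_pow_right (by norm_num) (by omega)
  have hj1 : 1 ≤ j := (Nat.one_le_div_iff hxpos).2 (by omega)
  have h1 : 2 ^ lam < 3 * x * (j + 1) := Nat.lt_mul_div_succ _ hxpos
  have h3 : 3 * x * (j + 1) ≤ 6 * x * j := by nlinarith
  have h4 : 2 ^ lam ≤ 6 * x * j := by omega
  have h5 : 2 ^ e = 2 ^ l * (8 * 2 ^ lam) := by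
    rw [← hE, ← hlam, pow_add, pow_add, pow_add]
    ring
  have h6 : 5 * 2 ^ e ≤ 80 * e * 2 ^ lam := by
    rw [h5]
    calc 5 * (2 ^ l * (8 * 2 ^ lam)) = 2 ^ l * (40 * 2 ^ lam) := by ring
      _ ≤ (2 * e) * (40 * 2 ^ lam) := Nat.mul_le_mul_right _ he2
      _ = 80 * e * 2 ^ lam := by ring
  have h7 : 80 * e * 2 ^ lam ≤ e * j * (480 * x) := by
    calc 80 * e * 2 ^ lam ≤ 80 * e * (6 * x * j) := Nat.mul_le_mul_left _ h4
      _ = e * j * (480 * x) := by ring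
  omega

end Vale.Agent.P012
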