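import Vale.Agent.P012.Good3

namespace Vale.Agent.P012

open Finset

theorem pi_le_succ (n : ℕ) : Nat.primeCounting n ≤ n + 1 := by
  unfold Nat.primeCounting Nat.primeCounting'
  exact Nat.count_le _

theorem aux_lin_pow3 (e : ℕ) (he : 8 ≤ e) : 16 * e + 80 ≤ 2 ^ e := by
  induction e, he using Nat.le_induction with
  | base => norm_num
  | succ n hn ih => rw [pow_succ]; omega

/-- basic facts on `j = e * 2 ^ lam / (3 * (4 * e + 20))` -/
theorem j3_facts {e lam : ℕ} (he : 33 ≤ e) (hl4 : 4 ≤ lam) :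
    1 ≤ e * 2 ^ lam / (3 * (4 * e + 20)) ∧
    e * 2 ^ lam / (3 * (4 * e + 20)) ≤ 2 ^ lam ∧
    e * 2 ^ lam ≤ 6 * (4 * e + 20) * (e * 2 ^ lam / (3 * (4 * e + 20))) := by
  set x := 4 * e + 20 with hx
  set A := 2 ^ lam with hA
  set j := e * A / (3 * x) with hj
  have hxpos : 0 < 3 * x := by omega
  have hA16 : 16 ≤ A := by
    calc 16 = 2 ^ 4 := by norm_num
      _ ≤ 2 ^ lam := Nat.pow_le_pow_right (by norm_num) hl4
  have h16 : e * 16 ≤ e * A := Nat.mul_le_mul_left _ hA16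
  have hj1 : 1 ≤ j := (Nat.one_le_div_iff hxpos).2 (by omega)
  have hj2 : j ≤ A := by
    apply Nat.div_le_of_le_mul
    exact Nat.mul_le_mul_right _ (by omega)
  have hlt : e * A < 3 * x * (j + 1) := Nat.lt_mul_div_succ (e * A) hxpos
  refine ⟨hj1, hj2, ?_⟩
  have h2 : 3 * x * (j + 1) ≤ 3 * x * (2 * j) := Nat.mul_le_mul_left _ (by omega)
  have h3 : 3 * x * (2 * j) = 6 * x * j := by ring
  omega

theorem run3 {P g e lam lamx z H : ℕ} (n : ℕ) (he : 33 ≤ e)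
    (hS : VSys P (4 * e + 20) (2 ^ (2 * e - 1)) (2 ^ lamx)) (hl4 : 4 ≤ lam) (hlx : lam ≤ lamx)
    (hxe : lamx + 7 ≤ e) (hz : 8 * (4 * e + 20) * 2 ^ lam + 3 ≤ z) (hG : Good3 P g z H) :
    Good3 P g (z + e * (e * 2 ^ lam / (3 * (4 * e + 20))) * n) (H + 64 * n) := by
  obtain ⟨hj1, hj2, _⟩ := j3_facts (e := e) (lam := lam) he hl4
  set x := 4 * e + 20 with hx
  set j := e * 2 ^ lam / (3 * x) with hj
  have hAe : 2 ^ lam ≤ 2 ^ e := Nat.pow_le_pow_right (by norm_num) (by omega)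
  have hje : j ≤ 2 ^ e := hj2.trans hAe
  have h3 : 2 ^ (3 * x * j) ≤ (2 ^ (2 * e - 1)).choose (2 ^ lam) := by
    have h1 := choose_two_pow_lower (2 * e - 1) lam (by omega)
    refine le_trans ?_ h1
    apply Nat.pow_le_pow_right (by norm_num)
    calc 3 * x * j ≤ e * 2 ^ lam := Nat.mul_div_le _ _
      _ ≤ (2 * e - 1 - lam) * 2 ^ lam := Nat.mul_le_mul_right _ (by omega)
  have hwj : 4 * x * 2 ^ lam * j ≤ 2 ^ (3 * e) := by
    have h1 : 4 * x ≤ 2 ^ e := by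
      have := aux_lin_pow3 e (by omega)
      omega
    have h2 : 2 ^ lam * 2 ^ lam ≤ 2 ^ (2 * e) := by
      rw [← pow_add]
      exact Nat.pow_le_pow_right (by norm_num) (by omega)
    calc 4 * x * 2 ^ lam * j ≤ 4 * x * 2 ^ lam * 2 ^ lam := Nat.mul_le_mul_left _ hj2
      _ = 4 * x * (2 ^ lam * 2 ^ lam) := by ring
      _ ≤ 2 ^ e * 2 ^ (2 * e) := Nat.mul_le_mul h1 h2
      _ = 2 ^ (3 * e) := by rw [← pow_add]; congr 1; omega
  have hc : j + Nat.primeCounting (2 ^ e) ≤ 2 ^ (3 * e) := by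
    have h1 := pi_le_succ (2 ^ e)
    have h2 : 1 ≤ 2 ^ e := Nat.one_le_two_pow
    have h3 : 2 ^ (e + 2) ≤ 2 ^ (3 * e) := Nat.pow_le_pow_right (by norm_num) (by omega)
    have h4 : 2 ^ (e + 2) = 4 * 2 ^ e := by rw [pow_add]; ring
    omega
  have h4 := h4_gen (e := e) (w := 4 * x * 2 ^ lam) (j := j) (c := Nat.primeCounting (2 ^ e)) hwj hc
  exact good3_iter (e := e) (h := 2 ^ lam) (x := x) (j := j) n hS
    (Nat.pow_le_pow_right (by norm_num) hlx) h3 h4 (h5_bound hje) hj1 hz hG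

theorem epoch3 {P g e lam lamx H : ℕ} (he : 33 ≤ e)
    (hS : VSys P (4 * e + 20) (2 ^ (2 * e - 1)) (2 ^ lamx)) (hl4 : 4 ≤ lam) (hlx : lam ≤ lamx)
    (hxe : lamx + 7 ≤ e) (hG : Good3 P g (8 * (4 * e + 20) * 2 ^ lam + 3) H) :
    Good3 P g (8 * (4 * e + 20) * 2 ^ (lam + 1) + 3) (H + 64 * 1200) := by
  have hrun := run3 1200 he hS hl4 hlx hxe le_rfl hG
  obtain ⟨_, _, hj3⟩ := j3_facts (e := e) (lam := lam) he hl4
  refine good3_mono hrun ?_ le_rfl
  set x := 4 * e + 20 with hx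
  set A := 2 ^ lam with hA
  set j := e * A / (3 * x) with hj
  have hx5 : x ≤ 5 * e := by omega
  have h1 : 8 * x * A ≤ 8 * (5 * e) * A :=
    Nat.mul_le_mul_right _ (Nat.mul_le_mul_left _ hx5)
  have h2 : 8 * (5 * e) * A = 40 * (e * A) := by ring
  have h3 : 40 * (e * A) ≤ 40 * (6 * x * j) := Nat.mul_le_mul_left _ hj3
  have h4 : 40 * (6 * x * j) = 240 * j * x := by ring
  have h5 : 240 * j * x ≤ 240 * j * (5 * e) := Nat.mul_le_mul_left _ hx5
  have h6 : 240 * j * (5 * e) = e * j * 1200 := by ring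
  have h7 : 8 * x * 2 ^ (lam + 1) = 8 * x * A + 8 * x * A := by rw [pow_succ]; ring
  omega

theorem chain3 {P g e lamx H : ℕ} (he : 33 ≤ e)
    (hS : VSys P (4 * e + 20) (2 ^ (2 * e - 1)) (2 ^ lamx)) (hxe : lamx + 7 ≤ e)
    (hG : Good3 P g (8 * (4 * e + 20) * 2 ^ 4 + 3) H) :
    ∀ i, 4 + i ≤ lamx → Good3 P g (8 * (4 * e + 20) * 2 ^ (4 + i) + 3) (H + 64 * 1200 * i) := by
  intro i
  induction i with
  | zero => intro _; simpa using hG
  | succ i ih =>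
    intro hi
    have h1 := ih (by omega)
    have h2 := epoch3 he hS (lam := 4 + i) (by omega) (by omega) hxe h1
    have e1 : 4 + i + 1 = 4 + (i + 1) := by omega
    have e2 : H + 64 * 1200 * i + 64 * 1200 = H + 64 * 1200 * (i + 1) := by ring
    rw [e1, e2] at h2
    exact h2

theorem late3 {P g e l lamx z H : ℕ} (he : 33 ≤ e) (_he1 : e ≤ 2 ^ l) (he2 : 2 ^ l ≤ 2 * e)
    (hS : VSys P (4 * e + 20) (2 ^ (2 * e - 1)) (2 ^ lamx)) (hl4 : 4 ≤ lamx)
    (hxe : lamx + 2 * l + 7 = e) (hz : 8 * (4 * e + 20) * 2 ^ lamx + 3 ≤ z)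
    (hG : Good3 P g z H) : Good3 P g (2 ^ (e + 1)) (H + 64 * (30720 * e)) := by
  have hrun := run3 (30720 * e) he hS hl4 le_rfl (by omega) hz hG
  obtain ⟨_, _, hj3⟩ := j3_facts (e := e) (lam := lamx) he hl4
  refine good3_mono hrun ?_ le_rfl
  set x := 4 * e + 20 with hx
  set A := 2 ^ lamx with hA
  set j := e * A / (3 * x) with hj
  have hx5 : x ≤ 5 * e := by omega
  -- A ≤ 30 j
  have h1 : e * A ≤ e * (30 * j) := by
    calc e * A ≤ 6 * x * j := hj3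
      _ ≤ 6 * (5 * e) * j := Nat.mul_le_mul_right _ (Nat.mul_le_mul_left _ hx5)
      _ = e * (30 * j) := by ring
  have hA30 : A ≤ 30 * j := Nat.le_of_mul_le_mul_left h1 (by omega)
  have hpow : 2 ^ (e + 1) = 256 * (2 ^ l * 2 ^ l) * A := by
    rw [← hxe, hA]
    have : lamx + 2 * l + 7 + 1 = 8 + (l + l) + lamx := by omega
    rw [this, pow_add, pow_add, pow_add]
    norm_num
  have hll : 2 ^ l * 2 ^ l ≤ (2 * e) * (2 * e) := Nat.mul_le_mul he2 he2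
  calc 2 ^ (e + 1) = 256 * (2 ^ l * 2 ^ l) * A := hpow
    _ ≤ 256 * ((2 * e) * (2 * e)) * (30 * j) :=
        Nat.mul_le_mul (Nat.mul_le_mul_left _ hll) hA30
    _ = e * j * (30720 * e) := by ring
    _ ≤ z + e * j * (30720 * e) := Nat.le_add_left _ _

theorem aux_base_pow (l : ℕ) : (l + 9) * (3 * (l + 9) + 18) ≤ 405 * 2 ^ l := by
  induction l with
  | zero => norm_num
  | succ n ih =>
    rw [pow_succ]
    nlinarith

theorem good3_final : ∃ C e0 : ℕ, ∀ e, e0 ≤ e → ∃ P H : ℕ,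
    Good3 P (2 ^ (e - 1)) (2 ^ (e + 1)) H ∧ H ≤ C * e := by
  obtain ⟨H0, hbase⟩ := good3_base
  refine ⟨H0 + 2120640, 33, ?_⟩
  intro e he
  obtain ⟨l, he1, he2⟩ := exists_l e (by omega)
  have hl := l_bound he he1 he2
  obtain ⟨lamx, hlamx⟩ : ∃ lamx, lamx + 2 * l + 7 = e := ⟨e - 2 * l - 7, by omega⟩
  obtain ⟨P, hP0, hP1, hS⟩ := vsys_exists (e := e) (l := l) (E := lamx + l + 5) (lamx := lamx) he he1
    (by omega) rfl
  have hb := hbase P (2 ^ (e - 1)) (l + 9) (by omega) hP0 hP1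
  have hz0 : 8 * (4 * e + 20) * 2 ^ 4 + 3 ≤ 2 * 2 ^ (l + 9) := by
    have : 2 * 2 ^ (l + 9) = 1024 * 2 ^ l := by rw [pow_add]; ring
    rw [this]
    omega
  have hb' := good3_mono hb hz0 le_rfl
  have hc := chain3 he hS (by omega) hb' (lamx - 4) (by omega)
  have e1 : 4 + (lamx - 4) = lamx := by omega
  rw [e1] at hc
  have hfin := late3 he he1 he2 hS (by omega) hlamx le_rfl hc
  refine ⟨P, _, hfin, ?_⟩
  have h1 := aux_base_pow l
  have h2 : 64 * 1200 * (lamx - 4) ≤ 64 * 1200 * e := Nat.mul_le_mul_left _ (by omega)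
  have h3 : H0 ≤ H0 * e := Nat.le_mul_of_pos_right _ (by omega)
  have h4 : (H0 + 2120640) * e = H0 * e + 2120640 * e := by ring
  omega

end Vale.Agent.P012
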