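import Vale.Agent.P012.Epoch2

namespace Vale.Agent.P012

open Finset

theorem exists_l (e : ℕ) (he : 1 ≤ e) : ∃ l, e ≤ 2 ^ l ∧ 2 ^ l ≤ 2 * e := by
  classical
  have hex : ∃ l, e ≤ 2 ^ l := ⟨e, (Nat.lt_two_pow_self).le⟩
  refine ⟨Nat.find hex, Nat.find_spec hex, ?_⟩
  rcases Nat.eq_zero_or_pos (Nat.find hex) with h0 | hpos
  · rw [h0]
    simp
    omega
  · obtain ⟨l', hl'⟩ : ∃ l', Nat.find hex = l' + 1 := ⟨Nat.find hex - 1, by omega⟩
    have hmin : ¬ e ≤ 2 ^ l' := Nat.find_min hex (by omega)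
    rw [hl', pow_succ]
    omega

theorem aux_l_small (l : ℕ) (hl : 6 ≤ l) : 4 * l + 40 ≤ 2 ^ l := by
  induction l, hl using Nat.le_induction with
  | base => norm_num
  | succ n hn ih => rw [pow_succ]; omega

theorem l_bound {e l : ℕ} (he : 33 ≤ e) (he1 : e ≤ 2 ^ l) (he2 : 2 ^ l ≤ 2 * e) : 2 * l + 20 ≤ e := by
  by_contra hcon
  have hl : 6 ≤ l := by
    by_contra hl
    have : 2 ^ l ≤ 2 ^ 5 := Nat.pow_le_pow_right (by norm_num) (by omega)
    omega
  have := aux_l_small l hl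
  omega

theorem aux_sq_pow (l : ℕ) : l * l ≤ 2 * 2 ^ l := by
  induction l with
  | zero => norm_num
  | succ n ih =>
    have h1 : n < 2 ^ n := Nat.lt_two_pow_self
    rw [pow_succ]
    nlinarith

theorem aux_quad_pow (e : ℕ) (he : 16 ≤ e) : 48 * e * e + 2161 * e + 9600 ≤ 2 ^ e := by
  induction e, he using Nat.le_induction with
  | base => norm_num
  | succ n hn ih =>
    rw [pow_succ]
    nlinarith

theorem sigma_nat_bound (X m : ℕ) : ∑ t ∈ range m, (X / (m - t) + 1) ≤ m * (X + 1) := by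
  calc ∑ t ∈ range m, (X / (m - t) + 1) ≤ ∑ _t ∈ range m, (X + 1) :=
        Finset.sum_le_sum (fun t _ => Nat.add_le_add_right (Nat.div_le_self _ _) 1)
    _ = m * (X + 1) := by simp

theorem sigma_real_bound (X m : ℕ) :
    ((∑ t ∈ range m, (X / (m - t) + 1) : ℕ) : ℝ) ≤ X * (1 + Real.log m) + m := by
  have h1 : ∑ t ∈ range m, (X / (m - t) + 1) = ∑ t ∈ range m, (X / (t + 1) + 1) := by
    rw [← Finset.sum_range_reflect (fun t => X / (t + 1) + 1) m]
    apply Finset.sum_congr rfl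
    intro t ht
    have : t < m := Finset.mem_range.1 ht
    have h2 : m - 1 - t + 1 = m - t := by omega
    rw [h2]
  rw [h1]
  push_cast
  rw [Finset.sum_add_distrib]
  have h3 : ∑ t ∈ range m, (((X / (t + 1) : ℕ)) : ℝ) ≤ X * (harmonic m : ℝ) := by
    unfold harmonic
    push_cast
    rw [Finset.mul_sum]
    apply Finset.sum_le_sum
    intro t _
    have := @Nat.cast_div_le ℝ _ _ _ X (t + 1)
    push_cast at this
    rw [← div_eq_mul_inv]
    exact this
  have h4 := harmonic_le_one_add_log m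
  have h5 : (X : ℝ) * (harmonic m : ℝ) ≤ X * (1 + Real.log m) :=
    mul_le_mul_of_nonneg_left h4 (Nat.cast_nonneg _)
  simp only [Finset.sum_const, Finset.card_range, nsmul_eq_mul, mul_one]
  linarith

theorem good2_nat : ∃ H0 : ℕ, ∀ e l m : ℕ, 33 ≤ e → e ≤ 2 ^ l → 2 ^ l ≤ 2 * e → m + 2 * l + 9 = e →
    ∃ c : ℕ, Good2 e c (5 * 2 ^ e)
      (H0 + 96 * ((2 * l + 8) * (3 * (2 * l + 8) + 18)) +
        8 * (∑ t ∈ range m, (12 * (4 * e + 20) / (m - t) + 1) + 480 * (4 * e + 20))) := by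
  obtain ⟨H0, hH0⟩ := good2_base
  refine ⟨H0, fun e l m he he1 he2 hm => ?_⟩
  have hl := l_bound he he1 he2
  have hbase := hH0 e (2 * l + 8) (by omega) (by omega)
  set HB := H0 + 96 * ((2 * l + 8) * (3 * (2 * l + 8) + 18)) with hHB
  have hzb : e * (2 * 2 ^ (l + 7) + 1) + 3 ≤ 2 * 2 ^ (2 * l + 8) := by
    set A := 2 ^ l with hA
    have hA1 : 1 ≤ A := Nat.one_le_two_pow
    have e1 : 2 ^ (l + 7) = 128 * A := by rw [hA, pow_add]; ring
    have e2 : 2 ^ (2 * l + 8) = 256 * (A * A) := by rw [hA, pow_add, two_mul, pow_add]; ring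
    rw [e1, e2]
    have h1 : e * (2 * (128 * A) + 1) ≤ A * (2 * (128 * A) + 1) := Nat.mul_le_mul_right _ he1
    nlinarith
  have hG0 : Good2 e (2 ^ (e + 1)) (e * (2 * 2 ^ (l + 7) + 1) + 3) HB :=
    good2_mono hbase le_rfl hzb le_rfl
  set sg := ∑ t ∈ range m, (12 * (4 * e + 20) / (m - t) + 1) with hsg
  have hsgb : sg + 480 * (4 * e + 20) ≤ 2 ^ e := by
    have h1 := sigma_nat_bound (12 * (4 * e + 20)) m
    rw [← hsg] at h1
    have h2 : m * (12 * (4 * e + 20) + 1) ≤ e * (12 * (4 * e + 20) + 1) :=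
      Nat.mul_le_mul_right _ (by omega)
    have h3 := aux_quad_pow e (by omega)
    nlinarith
  have hE : (m + (l + 7)) + l + 2 = e := by omega
  have hch := chain2 (E := m + (l + 7)) (m := m) he1 hE rfl (by omega) hG0 m le_rfl
  rw [← hsg] at hch
  have hexp : l + 7 + m = m + (l + 7) := by ring
  rw [hexp] at hch
  exact ⟨_, late2 he1 he2 hE (by omega) hsgb le_rfl hch⟩

theorem good2_final : ∃ C e0 : ℕ, ∀ e, e0 ≤ e → ∃ c H : ℕ, Good2 e c (5 * 2 ^ e) H ∧
    (H : ℝ) ≤ C * (e * (1 + Real.log e)) := by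
  obtain ⟨H0, hH0⟩ := good2_nat
  refine ⟨H0 + 200000, 33, fun e he => ?_⟩
  obtain ⟨l, he1, he2⟩ := exists_l e (by omega)
  have hl := l_bound he he1 he2
  obtain ⟨m, hm⟩ : ∃ m, m + 2 * l + 9 = e := ⟨e - 2 * l - 9, by omega⟩
  obtain ⟨c, hc⟩ := hH0 e l m he he1 he2 hm
  refine ⟨c, _, hc, ?_⟩
  have hsig := sigma_real_bound (12 * (4 * e + 20)) m
  have heR : (33 : ℝ) ≤ e := by exact_mod_cast he
  have hme : (m : ℝ) ≤ e := by
    have : m ≤ e := by omega
    exact_mod_cast this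
  have hm1 : 1 ≤ m := by omega
  have hlogm : Real.log m ≤ Real.log e :=
    Real.log_le_log (by exact_mod_cast hm1) hme
  have hloge : 0 ≤ Real.log e := Real.log_nonneg (by linarith)
  have hlogm0 : 0 ≤ Real.log m := Real.log_nonneg (by exact_mod_cast hm1)
  have hll : l * l ≤ 4 * e := by
    have := aux_sq_pow l
    omega
  have hle : l ≤ 2 * e := by
    have : l < 2 ^ l := Nat.lt_two_pow_self
    omega
  have hk : (2 * l + 8) * (3 * (2 * l + 8) + 18) ≤ 648 * e := by nlinarith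
  have hkR : (((2 * l + 8) * (3 * (2 * l + 8) + 18) : ℕ) : ℝ) ≤ 648 * e := by exact_mod_cast hk
  push_cast at hsig hkR ⊢
  set L := Real.log e with hL
  set Lm := Real.log m with hLm
  have hx : (12 : ℝ) * (4 * e + 20) * (1 + Lm) ≤ 12 * (5 * e) * (1 + L) := by
    apply mul_le_mul _ (by linarith) (by linarith) (by positivity)
    nlinarith
  have hH00 : (0 : ℝ) ≤ H0 := Nat.cast_nonneg _
  have hbig : (e : ℝ) ≤ e * (1 + L) := by nlinarith
  have hH0e : (H0 : ℝ) ≤ H0 * (e * (1 + L)) := by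
    have : (1 : ℝ) ≤ e * (1 + L) := by linarith
    nlinarith
  nlinarith

end Vale.Agent.P012
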