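import Vale.Agent.P012.Epoch

namespace Vale.Agent.P012

open Finset

theorem loglog_three_pos : 0 < Real.log (Real.log 3) := by
  apply Real.log_pos
  rw [Real.lt_log_iff_exp_lt (by norm_num)]
  have := Real.exp_one_lt_d9
  linarith

theorem loglog_mono {b : ℕ} (hb : 3 ≤ b) :
    Real.log (Real.log 3) ≤ Real.log (Real.log b) := by
  have h3 : (3 : ℝ) ≤ b := by exact_mod_cast hb
  have h1 : Real.log 3 ≤ Real.log b := Real.log_le_log (by norm_num) h3
  have h0 : 0 < Real.log 3 := Real.log_pos (by norm_num)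
  exact Real.log_le_log h0 h1

theorem loglog_lower {b m : ℕ} (hb : 2 ^ 2 ^ (m + 1) < b) :
    (m : ℝ) / 2 < Real.log (Real.log b) := by
  have hl2 : (1 : ℝ) / 2 < Real.log 2 := by
    have := Real.log_two_gt_d9
    linarith
  have hbR : ((2 : ℝ) ^ 2 ^ (m + 1)) < b := by exact_mod_cast hb
  have h1 : Real.log ((2 : ℝ) ^ 2 ^ (m + 1)) < Real.log b :=
    Real.log_lt_log (by positivity) hbR
  rw [Real.log_pow] at h1
  have h2 : ((2 : ℝ) ^ m) < Real.log b := by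
    have h3 : ((2 ^ (m + 1) : ℕ) : ℝ) = 2 * 2 ^ m := by
      push_cast
      ring
    rw [h3] at h1
    have h4 : (0 : ℝ) < 2 ^ m := by positivity
    nlinarith
  have h5 : Real.log ((2 : ℝ) ^ m) < Real.log (Real.log b) :=
    Real.log_lt_log (by positivity) h2
  rw [Real.log_pow] at h5
  have hm : (0 : ℝ) ≤ m := Nat.cast_nonneg m
  nlinarith

theorem main : ∃ C : ℝ, ∀ a b : ℕ, 1 ≤ a → a < b → 3 ≤ b →
    ∃ S : Finset ℕ, (∀ n ∈ S, 2 ≤ n) ∧ ∑ n ∈ S, (1 / (n : ℚ)) = (a : ℚ) / b ∧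
      (S.card : ℝ) ≤ C * (Real.log (Real.log b)) ^ 2 := by
  obtain ⟨H0, hH0⟩ := nat_bound
  set L0 : ℝ := Real.log (Real.log 3) with hL0
  have hL0pos : 0 < L0 := loglog_three_pos
  set c1 : ℝ := 2 * ((H0 : ℝ) + 96 * (7 * (3 * 7 + 18))) with hc1
  have hc1pos : 0 ≤ c1 := by positivity
  set C2 : ℝ := 2 * (H0 : ℝ) + 15552 with hC2
  have hC2pos : 0 ≤ C2 := by positivity
  refine ⟨c1 / L0 ^ 2 + C2, ?_⟩
  intro a b ha hab hb
  set L : ℝ := Real.log (Real.log b) with hL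
  have hLL0 : L0 ≤ L := loglog_mono hb
  by_cases hsmall : b ≤ 2 ^ 2 ^ 7
  · obtain ⟨S, hS1, hS2, hS3⟩ := hH0 7 a b le_rfl ha hab hsmall
    refine ⟨S, hS1, hS2, ?_⟩
    have hS3' : (S.card : ℝ) ≤ c1 := by
      rw [hc1]
      exact_mod_cast hS3
    have hsq : L0 ^ 2 ≤ L ^ 2 := pow_le_pow_left₀ hL0pos.le hLL0 2
    have h1 : c1 ≤ c1 / L0 ^ 2 * L ^ 2 := by
      rw [div_mul_eq_mul_div, le_div_iff₀ (by positivity)]
      exact mul_le_mul_of_nonneg_left hsq hc1pos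
    have h2 : 0 ≤ C2 * L ^ 2 := by positivity
    calc (S.card : ℝ) ≤ c1 := hS3'
      _ ≤ c1 / L0 ^ 2 * L ^ 2 + C2 * L ^ 2 := by linarith
      _ = (c1 / L0 ^ 2 + C2) * L ^ 2 := by ring
  · have hex : ∃ k, b ≤ 2 ^ 2 ^ k :=
      ⟨b, (Nat.lt_two_pow_self).le.trans
        (Nat.pow_le_pow_right (by norm_num) (Nat.lt_two_pow_self).le)⟩
    classical
    set k := Nat.find hex with hk
    have hkspec : b ≤ 2 ^ 2 ^ k := Nat.find_spec hex
    have hk8 : 8 ≤ k := by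
      by_contra hlt
      apply hsmall
      have hk7 : k ≤ 7 := by omega
      exact hkspec.trans
        (Nat.pow_le_pow_right (by norm_num) (Nat.pow_le_pow_right (by norm_num) hk7))
    obtain ⟨m, hm⟩ : ∃ m, k = m + 2 := ⟨k - 2, by omega⟩
    have hmin : ¬ b ≤ 2 ^ 2 ^ (m + 1) := Nat.find_min hex (by omega)
    have hlow := loglog_lower (not_le.mp hmin)
    rw [← hL] at hlow
    have hm6 : (6 : ℝ) ≤ m := by
      have : 6 ≤ m := by omega
      exact_mod_cast this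
    have hL3 : 3 < L := by linarith
    have hkR : (k : ℝ) = m + 2 := by
      rw [hm]
      push_cast
      ring
    have hkL : (k : ℝ) ≤ 3 * L := by
      rw [hkR]
      linarith
    obtain ⟨S, hS1, hS2, hS3⟩ := hH0 k a b (by omega) ha hab hkspec
    refine ⟨S, hS1, hS2, ?_⟩
    have hS3' : (S.card : ℝ) ≤ 2 * ((H0 : ℝ) + 96 * ((k : ℝ) * (3 * k + 18))) := by
      exact_mod_cast hS3
    have hk0 : (0 : ℝ) ≤ k := Nat.cast_nonneg k
    have hH00 : (0 : ℝ) ≤ H0 := Nat.cast_nonneg H0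
    have hLsq : 1 ≤ L ^ 2 := by nlinarith
    have hkk : (k : ℝ) * (3 * k + 18) ≤ 81 * L ^ 2 := by
      have h1 : (k : ℝ) * (3 * k + 18) ≤ (3 * L) * (3 * (3 * L) + 18) := by
        apply mul_le_mul hkL (by linarith) (by positivity) (by positivity)
      nlinarith
    have hHL : (H0 : ℝ) ≤ H0 * L ^ 2 := by nlinarith
    have h0 : 0 ≤ c1 / L0 ^ 2 * L ^ 2 := by positivity
    calc (S.card : ℝ) ≤ 2 * ((H0 : ℝ) + 96 * ((k : ℝ) * (3 * k + 18))) := hS3'
      _ ≤ C2 * L ^ 2 := by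
          rw [hC2]
          nlinarith
      _ ≤ c1 / L0 ^ 2 * L ^ 2 + C2 * L ^ 2 := by linarith
      _ = (c1 / L0 ^ 2 + C2) * L ^ 2 := by ring

end Vale.Agent.P012
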