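import Vale.Agent.P012.Epoch3
import Vale.Agent.P012.Distinct
import Vale.Agent.P012.Greedy
import Vale.Agent.P012.Main

namespace Vale.Agent.P012

open Finset

theorem uf_of_good3 {P e H a b : ℕ} (he : 1 ≤ e) (hG : Good3 P (2 ^ (e - 1)) (2 ^ (e + 1)) H)
    (hab : a < b) (hb : b ≤ 2 ^ 2 ^ e) : UF ((a : ℚ) / b) (e + 2 * H) := by
  obtain ⟨W, Z, hW, _, hZ, hWZ, hV⟩ := hG
  set G : ℕ := 2 ^ (2 ^ (e - 1)) with hGdef
  have hG2 : 2 ≤ G := by
    calc 2 = 2 ^ 1 := by norm_num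
      _ ≤ 2 ^ (2 ^ (e - 1)) := Nat.pow_le_pow_right (by norm_num) Nat.one_le_two_pow
  obtain ⟨S, a', P', c1, c2, c3, c4, c5, c6⟩ := greedy_pre (e - 1) a b G hab hG2 le_rfl
  have hb0 : 0 < b := by omega
  set b' : ℕ := b * P' with hb'
  have hb'pos : 0 < b' := Nat.mul_pos hb0 c3
  have hGsq : G ^ 2 = 2 ^ 2 ^ e := by
    rw [hGdef, ← pow_mul, ← pow_succ]
    congr 2
    omega
  have hb'Z : b' ≤ Z := by
    calc b' ≤ 2 ^ 2 ^ e * G ^ 2 := Nat.mul_le_mul hb c4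
      _ = 2 ^ 2 ^ (e + 1) := by
        rw [hGsq, ← pow_add, pow_succ 2 e]
        congr 1
        omega
      _ ≤ Z := hZ
  set Q : ℕ := a' * W / b' with hQ
  set R : ℕ := a' * W % b' with hR
  have hdm : b' * Q + R = a' * W := Nat.div_add_mod (a' * W) b'
  have hRlt : R < b' := Nat.mod_lt _ hb'pos
  have hQZ : Q ≤ Z := by
    have h1 : b' * Q ≤ b' * Z := by
      calc b' * Q ≤ a' * W := by omega
        _ ≤ a' * (G * Z) := Nat.mul_le_mul_left _ hWZ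
        _ = a' * G * Z := by ring
        _ ≤ b' * Z := Nat.mul_le_mul_right _ c5
    exact Nat.le_of_mul_le_mul_left h1 hb'pos
  have hWq : (W : ℚ) ≠ 0 := by exact_mod_cast hW.ne'
  have hb'q : (b' : ℚ) ≠ 0 := by exact_mod_cast hb'pos.ne'
  have hsplit : (a' : ℚ) / (b' : ℚ) = (Q : ℚ) / W + ((R : ℚ) / W) / (b' : ℚ) := by
    have e1 : (b' : ℚ) * Q + R = a' * W := by exact_mod_cast hdm
    field_simp
    linarith
  have u1 : UF ((Q : ℚ) / W) H := hV Q hQZ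
  have u2 : UF (((R : ℚ) / W) / (b' : ℚ)) H := uf_div (hV R (by omega)) hb'pos
  have u3 : UF (∑ n ∈ S, 1 / (n : ℚ)) (S.card * 1) :=
    uf_sum S (fun n => 1 / (n : ℚ)) 1 (fun n hn => uf_unit (by have := (c2 n hn).1; omega))
  rw [c6, hsplit]
  exact uf_mono (uf_add u3 (uf_add u1 u2)) (by omega)

theorem nat_bound3 : ∃ C e0 : ℕ, ∀ e a b : ℕ, e0 ≤ e → a < b → b ≤ 2 ^ 2 ^ e →
    ∃ S : Finset ℕ, (∀ n ∈ S, 2 ≤ n) ∧ ∑ n ∈ S, (1 / (n : ℚ)) = (a : ℚ) / b ∧ S.card ≤ C * e := by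
  obtain ⟨C, e0, hC⟩ := good3_final
  refine ⟨1 + 2 * C, max e0 1, fun e a b he hab hb => ?_⟩
  have he0 : e0 ≤ e := le_trans (le_max_left _ _) he
  have he1 : 1 ≤ e := le_trans (le_max_right _ _) he
  obtain ⟨P, H, hG, hH⟩ := hC e he0
  have hu := uf_of_good3 he1 hG hab hb
  have hlt : (a : ℚ) / b < 1 := by
    have hb0 : (0 : ℚ) < b := by
      have : 0 < b := by omega
      exact_mod_cast this
    rw [div_lt_one hb0]
    exact_mod_cast hab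
  obtain ⟨S, s1, s2, s3⟩ := uf_distinct hlt hu
  refine ⟨S, s1, s2, s3.trans ?_⟩
  calc e + 2 * H ≤ e + 2 * (C * e) := by omega
    _ = (1 + 2 * C) * e := by ring

theorem main3_of_nat_bound3
    (hnb : ∃ C e0 : ℕ, ∀ e a b : ℕ, e0 ≤ e → a < b → b ≤ 2 ^ 2 ^ e →
      ∃ S : Finset ℕ, (∀ n ∈ S, 2 ≤ n) ∧ ∑ n ∈ S, (1 / (n : ℚ)) = (a : ℚ) / b ∧ S.card ≤ C * e) :
    ∃ C : ℝ, ∀ a b : ℕ, 1 ≤ a → a < b → 3 ≤ b →
      ∃ S : Finset ℕ, (∀ n ∈ S, 2 ≤ n) ∧ ∑ n ∈ S, (1 / (n : ℚ)) = (a : ℚ) / b ∧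
        (S.card : ℝ) ≤ C * Real.log (Real.log b) := by
  obtain ⟨C0, e0, hC0⟩ := hnb
  set L0 : ℝ := Real.log (Real.log 3) with hL0
  have hL0pos : 0 < L0 := loglog_three_pos
  set e1 : ℕ := max e0 6 with he1
  set c1 : ℝ := C0 * e1 with hc1
  have hc1pos : 0 ≤ c1 := by positivity
  have hC0pos : (0 : ℝ) ≤ C0 := Nat.cast_nonneg C0
  refine ⟨c1 / L0 + 3 * C0, ?_⟩
  intro a b _ hab hb
  set L : ℝ := Real.log (Real.log b) with hL
  have hLL0 : L0 ≤ L := loglog_mono hb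
  have hLpos : 0 < L := by linarith
  by_cases hsmall : b ≤ 2 ^ 2 ^ e1
  · obtain ⟨S, hS1, hS2, hS3⟩ := hC0 e1 a b (le_max_left _ _) hab hsmall
    refine ⟨S, hS1, hS2, ?_⟩
    have hS3' : (S.card : ℝ) ≤ c1 := by
      rw [hc1]
      exact_mod_cast hS3
    have h1 : c1 ≤ c1 / L0 * L := by
      rw [div_mul_eq_mul_div, le_div_iff₀ hL0pos]
      exact mul_le_mul_of_nonneg_left hLL0 hc1pos
    have h2 : 0 ≤ 3 * C0 * L := by positivity
    calc (S.card : ℝ) ≤ c1 := hS3'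
      _ ≤ c1 / L0 * L + 3 * C0 * L := by linarith
      _ = (c1 / L0 + 3 * C0) * L := by ring
  · have hex : ∃ k, b ≤ 2 ^ 2 ^ k :=
      ⟨b, (Nat.lt_two_pow_self).le.trans
        (Nat.pow_le_pow_right (by norm_num) (Nat.lt_two_pow_self).le)⟩
    classical
    set k := Nat.find hex with hk
    have hkspec : b ≤ 2 ^ 2 ^ k := Nat.find_spec hex
    have hke1 : e1 < k := by
      by_contra hlt
      apply hsmall
      have hk7 : k ≤ e1 := by omega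
      exact hkspec.trans
        (Nat.pow_le_pow_right (by norm_num) (Nat.pow_le_pow_right (by norm_num) hk7))
    have h6 : 6 ≤ e1 := le_max_right _ _
    have he0 : e0 ≤ e1 := le_max_left _ _
    obtain ⟨m, hm⟩ : ∃ m, k = m + 2 := ⟨k - 2, by omega⟩
    have hmin : ¬ b ≤ 2 ^ 2 ^ (m + 1) := Nat.find_min hex (by omega)
    have hlow := loglog_lower (not_le.mp hmin)
    rw [← hL] at hlow
    have hm5 : (5 : ℝ) ≤ m := by
      have : 5 ≤ m := by omega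
      exact_mod_cast this
    have hkR : (k : ℝ) = m + 2 := by
      rw [hm]
      push_cast
      ring
    have hkL : (k : ℝ) ≤ 3 * L := by
      rw [hkR]
      linarith
    obtain ⟨S, hS1, hS2, hS3⟩ := hC0 k a b (by omega) hab hkspec
    refine ⟨S, hS1, hS2, ?_⟩
    have hS3' : (S.card : ℝ) ≤ C0 * k := by exact_mod_cast hS3
    have h0 : 0 ≤ c1 / L0 * L := by positivity
    calc (S.card : ℝ) ≤ C0 * k := hS3'
      _ ≤ C0 * (3 * L) := mul_le_mul_of_nonneg_left hkL hC0pos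
      _ ≤ c1 / L0 * L + 3 * C0 * L := by linarith
      _ = (c1 / L0 + 3 * C0) * L := by ring

theorem main3 : ∃ C : ℝ, ∀ a b : ℕ, 1 ≤ a → a < b → 3 ≤ b →
    ∃ S : Finset ℕ, (∀ n ∈ S, 2 ≤ n) ∧ ∑ n ∈ S, (1 / (n : ℚ)) = (a : ℚ) / b ∧
      (S.card : ℝ) ≤ C * Real.log (Real.log b) :=
  main3_of_nat_bound3 nat_bound3

end Vale.Agent.P012
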