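import Vale.Agent.P012.Defs

namespace Vale.Agent.P012

open Finset
theorem addChar_sum {G R κ : Type*} [AddCommMonoid G] [CommMonoid R] (ψ : AddChar G R)
    (s : Finset κ) (g : κ → G) : ψ (∑ l ∈ s, g l) = ∏ l ∈ s, ψ (g l) := by
  classical
  induction s using Finset.induction_on with
  | empty => simp
  | insert a s ha ih => rw [Finset.sum_insert ha, Finset.prod_insert ha, AddChar.map_add_eq_mul, ih]

theorem exists_sum_eq {q : ℕ} [NeZero q] {K : ℕ} {ι : Type*} [DecidableEq ι]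
    (P : Fin K → Finset ι) (v : Fin K → ι → ZMod q) (r : ZMod q)
    (h : ∑ t ∈ (univ : Finset (ZMod q)).erase 0,
        ∏ l, ‖∑ i ∈ P l, (ZMod.stdAddChar (N := q)) (t * v l i)‖ < ∏ l, ((P l).card : ℝ)) :
    ∃ f : Fin K → ι, (∀ l, f l ∈ P l) ∧ ∑ l, v l (f l) = r := by
  classical
  by_contra hcon
  push Not at hcon
  set ψ := (ZMod.stdAddChar (N := q)) with hψ
  have hprim : ψ.IsPrimitive := ZMod.isPrimitive_stdAddChar q
  -- double sum is zero
  have h0 : ∑ f ∈ Fintype.piFinset P, ∑ t : ZMod q, ψ (t * (∑ l, v l (f l) - r)) = 0 := by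
    apply Finset.sum_eq_zero
    intro f hf
    rw [AddChar.sum_mulShift _ hprim]
    have : ∑ l, v l (f l) - r ≠ 0 := by
      intro h'
      exact hcon f (fun l => (Fintype.mem_piFinset.mp hf) l) (sub_eq_zero.mp h')
    simp [this]
  rw [Finset.sum_comm] at h0
  have h1 : ∀ t : ZMod q, ∑ f ∈ Fintype.piFinset P, ψ (t * (∑ l, v l (f l) - r))
      = ψ (-(t * r)) * ∏ l, ∑ i ∈ P l, ψ (t * v l i) := by
    intro t
    rw [Finset.prod_univ_sum, Finset.mul_sum]
    apply Finset.sum_congr rfl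
    intro f _
    rw [mul_sub, sub_eq_add_neg, AddChar.map_add_eq_mul, Finset.mul_sum, addChar_sum,
      mul_comm]
  simp_rw [h1] at h0
  rw [← Finset.add_sum_erase _ _ (Finset.mem_univ (0 : ZMod q))] at h0
  have h2 : ψ (-(0 * r)) * ∏ l, ∑ i ∈ P l, ψ (0 * v l i) = ((∏ l, ((P l).card : ℝ) : ℝ) : ℂ) := by
    simp
  rw [h2] at h0
  have h3 : ‖((∏ l, ((P l).card : ℝ) : ℝ) : ℂ)‖ ≤ ∑ t ∈ (univ : Finset (ZMod q)).erase 0,
        ∏ l, ‖∑ i ∈ P l, ψ (t * v l i)‖ := by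
    rw [eq_neg_of_add_eq_zero_left h0, norm_neg]
    refine (norm_sum_le _ _).trans ?_
    apply Finset.sum_le_sum
    intro t _
    rw [norm_mul, AddChar.norm_apply, one_mul, norm_prod]
  rw [Complex.norm_real, Real.norm_of_nonneg (Finset.prod_nonneg (fun _ _ => Nat.cast_nonneg _))] at h3
  exact absurd h (not_lt.mpr h3)

theorem card_shift {q : ℕ} [NeZero q] (t a : ZMod q) :
    (univ.filter (fun x : ZMod q => t * a = t * x)).card
      = (univ.filter (fun y : ZMod q => t * y = 0)).card := by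
  apply Finset.card_bij (fun x _ => x - a)
  · intro x hx
    simp only [mem_filter, mem_univ, true_and] at hx ⊢
    rw [mul_sub, ← hx, sub_self]
  · intro x _ y _ h
    exact sub_left_injective h
  · intro y hy
    simp only [mem_filter, mem_univ, true_and] at hy
    refine ⟨y + a, ?_, by ring⟩
    simp only [mem_filter, mem_univ, true_and]
    rw [mul_add, hy, zero_add]

theorem sum_normSq_F {q : ℕ} [NeZero q] (B : Finset ℤ) (t : ZMod q) :
    ∑ x : ZMod q, ‖∑ b ∈ B, (ZMod.stdAddChar (N := q)) (t * x * (b : ZMod q))‖ ^ 2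
      = q * (((B ×ˢ B).filter (fun x => t * ((x.1 - x.2 : ℤ) : ZMod q) = 0)).card : ℝ) := by
  classical
  set ψ := (ZMod.stdAddChar (N := q)) with hψ
  have hprim : ψ.IsPrimitive := ZMod.isPrimitive_stdAddChar q
  have key : ((∑ x : ZMod q, ‖∑ b ∈ B, ψ (t * x * (b : ZMod q))‖ ^ 2 : ℝ) : ℂ)
      = ((q * (((B ×ˢ B).filter (fun x => t * ((x.1 - x.2 : ℤ) : ZMod q) = 0)).card : ℝ) : ℝ) : ℂ) := by
    push_cast
    have h1 : ∀ x : ZMod q, ((‖∑ b ∈ B, ψ (t * x * (b : ZMod q))‖ : ℂ)) ^ 2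
        = ∑ p ∈ B ×ˢ B, ψ (x * (t * ((p.1 - p.2 : ℤ) : ZMod q))) := by
      intro x
      rw [← Complex.mul_conj', map_sum, Finset.sum_mul_sum, Finset.sum_product]
      apply Finset.sum_congr rfl
      intro b _
      apply Finset.sum_congr rfl
      intro b' _
      rw [← AddChar.map_neg_eq_conj, ← AddChar.map_add_eq_mul]
      congr 1
      push_cast
      ring
    simp_rw [h1]
    rw [Finset.sum_comm]
    simp_rw [AddChar.sum_mulShift _ hprim]
    rw [Finset.card_filter]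
    push_cast
    rw [Finset.mul_sum]
    apply Finset.sum_congr rfl
    intro p _
    split_ifs <;> simp [ZMod.card]
  exact_mod_cast key

theorem bilinear_bound {q : ℕ} [NeZero q] (A B : Finset ℤ) (t : ZMod q) :
    ((univ.filter (fun y : ZMod q => t * y = 0)).card : ℝ) *
      ‖∑ a ∈ A, ∑ b ∈ B, (ZMod.stdAddChar (N := q)) (t * ((a : ZMod q) * (b : ZMod q)))‖ ^ 2
    ≤ q * (((A ×ˢ A).filter (fun x => t * ((x.1 - x.2 : ℤ) : ZMod q) = 0)).card : ℝ)
        * (((B ×ˢ B).filter (fun x => t * ((x.1 - x.2 : ℤ) : ZMod q) = 0)).card : ℝ) := by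
  classical
  set ψ := (ZMod.stdAddChar (N := q)) with hψ
  set ν : ℕ := (univ.filter (fun y : ZMod q => t * y = 0)).card with hν
  set EA : ℕ := ((A ×ˢ A).filter (fun x => t * ((x.1 - x.2 : ℤ) : ZMod q) = 0)).card with hEA
  set EB : ℕ := ((B ×ˢ B).filter (fun x => t * ((x.1 - x.2 : ℤ) : ZMod q) = 0)).card with hEB
  set F : ZMod q → ℂ := fun h => ∑ b ∈ B, ψ (h * (b : ZMod q)) with hF
  set S : ℂ := ∑ a ∈ A, ∑ b ∈ B, ψ (t * ((a : ZMod q) * (b : ZMod q))) with hS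
  set μ : ZMod q → ℝ := fun x => ∑ a ∈ A, (if t * (a : ZMod q) = t * x then (1 : ℝ) else 0) with hμ
  have hνpos : 0 < ν := by
    rw [hν, Finset.card_pos]
    exact ⟨0, by simp⟩
  have hcount : ∀ a : ZMod q, ∑ x : ZMod q, (if t * a = t * x then (1 : ℝ) else 0) = ν := by
    intro a
    rw [hν, ← card_shift t a, Finset.card_filter]
    push_cast
    rfl
  have hSF : S = ∑ a ∈ A, F (t * (a : ZMod q)) := by
    apply Finset.sum_congr rfl
    intro a _
    apply Finset.sum_congr rfl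
    intro b _
    rw [mul_assoc]
  -- (i)
  have h_i : (ν : ℂ) * S = ∑ x : ZMod q, (μ x : ℂ) * F (t * x) := by
    have : ∀ x : ZMod q, (μ x : ℂ) * F (t * x)
        = ∑ a ∈ A, ((if t * (a : ZMod q) = t * x then (1 : ℝ) else 0 : ℝ) : ℂ) * F (t * (a : ZMod q)) := by
      intro x
      simp only [hμ]
      push_cast
      rw [Finset.sum_mul]
      apply Finset.sum_congr rfl
      intro a _
      split_ifs with h
      · rw [h]
      · simp
    simp_rw [this]
    rw [Finset.sum_comm, hSF, Finset.mul_sum]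
    apply Finset.sum_congr rfl
    intro a _
    rw [← Finset.sum_mul, ← Complex.ofReal_sum, hcount]
    simp
  -- (iii)
  have h_iii : ∑ x : ZMod q, μ x ^ 2 = ν * EA := by
    have : ∀ x : ZMod q, μ x ^ 2 = ∑ p ∈ A ×ˢ A,
        (if t * ((p.1 - p.2 : ℤ) : ZMod q) = 0 then
          (if t * (p.1 : ZMod q) = t * x then (1 : ℝ) else 0) else 0) := by
      intro x
      simp only [hμ]
      rw [sq, Finset.sum_mul_sum, Finset.sum_product]
      apply Finset.sum_congr rfl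
      intro a _
      apply Finset.sum_congr rfl
      intro a' _
      have hiff : t * ((a - a' : ℤ) : ZMod q) = 0 ↔ t * (a : ZMod q) = t * (a' : ZMod q) := by
        push_cast
        rw [mul_sub, sub_eq_zero]
      by_cases h1 : t * (a : ZMod q) = t * x
      · by_cases h2 : t * (a' : ZMod q) = t * x
        · have : t * ((a - a' : ℤ) : ZMod q) = 0 := hiff.mpr (h1.trans h2.symm)
          rw [if_pos h1, if_pos h2, if_pos this, mul_one]
        · have : ¬ t * ((a - a' : ℤ) : ZMod q) = 0 := fun h => h2 ((hiff.mp h).symm.trans h1)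
          rw [if_pos h1, if_neg h2, if_neg this, mul_zero]
      · rw [if_neg h1, zero_mul]
        split_ifs <;> rfl
    simp_rw [this]
    rw [Finset.sum_comm, hEA, Finset.card_filter]
    push_cast
    rw [Finset.mul_sum]
    apply Finset.sum_congr rfl
    intro p _
    split_ifs with h
    · rw [hcount]; simp
    · simp
  -- (iv)
  have h_iv : ∑ x : ZMod q, ‖F (t * x)‖ ^ 2 = q * EB := sum_normSq_F B t
  -- Cauchy-Schwarz
  have hμnn : ∀ x, 0 ≤ μ x := by
    intro x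
    apply Finset.sum_nonneg
    intro a _
    split_ifs <;> norm_num
  have hCS : ((ν : ℝ) * ‖S‖) ^ 2 ≤ ((ν : ℝ) * EA) * (q * EB) := by
    have h1 : (ν : ℝ) * ‖S‖ = ‖(ν : ℂ) * S‖ := by
      rw [norm_mul]; simp
    have h2 : ‖(ν : ℂ) * S‖ ≤ ∑ x : ZMod q, μ x * ‖F (t * x)‖ := by
      rw [h_i]
      refine (norm_sum_le _ _).trans (le_of_eq ?_)
      apply Finset.sum_congr rfl
      intro x _
      rw [norm_mul, Complex.norm_real, Real.norm_of_nonneg (hμnn x)]
    rw [h1, ← h_iii, ← h_iv]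
    calc ‖(ν : ℂ) * S‖ ^ 2 ≤ (∑ x : ZMod q, μ x * ‖F (t * x)‖) ^ 2 := by
          apply pow_le_pow_left₀ (norm_nonneg _) h2
      _ ≤ _ := Finset.sum_mul_sq_le_sq_mul_sq _ _ _
  have hν' : (0 : ℝ) < ν := by exact_mod_cast hνpos
  have : (ν : ℝ) * ((ν : ℝ) * ‖S‖ ^ 2) ≤ (ν : ℝ) * (q * EA * EB) := by
    calc (ν : ℝ) * ((ν : ℝ) * ‖S‖ ^ 2) = ((ν : ℝ) * ‖S‖) ^ 2 := by ring
      _ ≤ ((ν : ℝ) * EA) * (q * EB) := hCS
      _ = (ν : ℝ) * (q * EA * EB) := by ring
  exact le_of_mul_le_mul_left this hν'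

theorem dvd_mul_iff_supp (J : Finset ℕ) (hJ : ∀ p ∈ J, p.Prime) (τ n : ℕ) :
    (∏ p ∈ J, p) ∣ τ * n ↔ (∏ p ∈ J.filter (fun p => ¬ p ∣ τ), p) ∣ n := by
  constructor
  · intro h
    apply Finset.prod_primes_dvd
    · intro p hp
      exact (hJ p (Finset.mem_filter.mp hp).1).prime
    · intro p hp
      obtain ⟨hpJ, hpτ⟩ := Finset.mem_filter.mp hp
      have : p ∣ τ * n := (Finset.dvd_prod_of_mem (fun p => p) hpJ).trans h
      exact ((hJ p hpJ).dvd_mul.mp this).resolve_left hpτ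
  · intro h
    rw [← Finset.prod_filter_mul_prod_filter_not J (fun p => ¬ p ∣ τ), mul_comm τ n]
    apply mul_dvd_mul h
    apply Finset.prod_primes_dvd
    · intro p hp
      exact (hJ p (Finset.mem_filter.mp hp).1).prime
    · intro p hp
      exact not_not.mp (Finset.mem_filter.mp hp).2

theorem mul_eq_zero_iff_supp (J : Finset ℕ) (hJ : ∀ p ∈ J, p.Prime) [NeZero (∏ p ∈ J, p)]
    (t : ZMod (∏ p ∈ J, p)) (z : ℤ) :
    t * (z : ZMod (∏ p ∈ J, p)) = 0 ↔
      ((∏ p ∈ J.filter (fun p => ¬ p ∣ t.val), p : ℕ) : ℤ) ∣ z := by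
  have h1 : t * (z : ZMod (∏ p ∈ J, p)) = (((t.val : ℤ) * z : ℤ) : ZMod (∏ p ∈ J, p)) := by
    push_cast
    rw [ZMod.natCast_zmod_val]
  rw [h1, ZMod.intCast_zmod_eq_zero_iff_dvd, Int.natCast_dvd, Int.natCast_dvd, Int.natAbs_mul,
    Int.natAbs_natCast]
  exact dvd_mul_iff_supp J hJ _ _

theorem card_ker_ge (J : Finset ℕ) (hJ : ∀ p ∈ J, p.Prime) [NeZero (∏ p ∈ J, p)]
    (t : ZMod (∏ p ∈ J, p)) :
    (∏ p ∈ J, p) ≤ (∏ p ∈ J.filter (fun p => ¬ p ∣ t.val), p) *
      (univ.filter (fun y : ZMod (∏ p ∈ J, p) => t * y = 0)).card := by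
  set qI := ∏ p ∈ J.filter (fun p => ¬ p ∣ t.val), p with hqI
  set g := ∏ p ∈ J.filter (fun p => ¬ ¬ p ∣ t.val), p with hg
  have hq : qI * g = ∏ p ∈ J, p := Finset.prod_filter_mul_prod_filter_not J (fun p => ¬ p ∣ t.val) _
  have hqIpos : 0 < qI := Finset.prod_pos (fun p hp => (hJ p (Finset.mem_filter.mp hp).1).pos)
  refine hq.symm.le.trans ?_
  apply Nat.mul_le_mul_left
  rw [← Finset.card_range g]
  apply Finset.card_le_card_of_injOn (fun k => ((qI * k : ℕ) : ZMod (∏ p ∈ J, p)))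
  · intro k _
    simp only [Finset.coe_filter, Finset.mem_univ, true_and, Set.mem_ofPred_eq]
    have := (mul_eq_zero_iff_supp J hJ t ((qI * k : ℕ) : ℤ)).mpr (by
      rw [← hqI]; push_cast; exact dvd_mul_right _ _)
    rwa [Int.cast_natCast] at this
  · intro k hk k' hk' h
    simp only [Finset.coe_range, Set.mem_Iio] at hk hk'
    simp only at h
    rw [ZMod.natCast_eq_natCast_iff'] at h
    have h1 : qI * k < ∏ p ∈ J, p := by rw [← hq]; exact Nat.mul_lt_mul_of_pos_left hk hqIpos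
    have h2 : qI * k' < ∏ p ∈ J, p := by rw [← hq]; exact Nat.mul_lt_mul_of_pos_left hk' hqIpos
    rw [Nat.mod_eq_of_lt h1, Nat.mod_eq_of_lt h2] at h
    exact Nat.eq_of_mul_eq_mul_left hqIpos h

theorem card_supp_eq_le (J : Finset ℕ) (hJ : ∀ p ∈ J, p.Prime) [NeZero (∏ p ∈ J, p)]
    (s : Finset (ZMod (∏ p ∈ J, p))) (I : Finset ℕ) :
    (s.filter (fun t : ZMod (∏ p ∈ J, p) => J.filter (fun p => ¬ p ∣ t.val) = I)).card
      ≤ ∏ p ∈ I, p := by
  set g := ∏ p ∈ J \ I, p with hg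
  have hgpos : 0 < g := Finset.prod_pos (fun p hp => (hJ p (Finset.mem_sdiff.mp hp).1).pos)
  rw [← Finset.card_range (∏ p ∈ I, p)]
  have hdvd : ∀ t : ZMod (∏ p ∈ J, p), J.filter (fun p => ¬ p ∣ t.val) = I → g ∣ t.val := by
    intro t ht
    apply Finset.prod_primes_dvd
    · intro p hp
      exact (hJ p (Finset.mem_sdiff.mp hp).1).prime
    · intro p hp
      obtain ⟨hpJ, hpI⟩ := Finset.mem_sdiff.mp hp
      by_contra hnd
      exact hpI (ht ▸ Finset.mem_filter.mpr ⟨hpJ, hnd⟩)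
  apply Finset.card_le_card_of_injOn (fun t => t.val / g)
  · intro t ht
    simp only [Finset.coe_filter, Set.mem_ofPred_eq] at ht
    simp only [Finset.coe_range, Set.mem_Iio]
    have hIJ : I ⊆ J := ht.2 ▸ Finset.filter_subset _ _
    have hq : (∏ p ∈ J \ I, p) * ∏ p ∈ I, p = ∏ p ∈ J, p := Finset.prod_sdiff hIJ
    apply Nat.div_lt_of_lt_mul
    rw [hg, hq]
    exact ZMod.val_lt t
  · intro t ht t' ht' h
    simp only [Finset.coe_filter, Set.mem_ofPred_eq] at ht ht'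
    simp only at h
    apply ZMod.val_injective
    obtain ⟨c, hc⟩ := hdvd t ht.2
    obtain ⟨c', hc'⟩ := hdvd t' ht'.2
    rw [hc, hc', Nat.mul_div_cancel_left _ hgpos, Nat.mul_div_cancel_left _ hgpos] at h
    rw [hc, hc', h]

theorem supp_nonempty (J : Finset ℕ) (hJ : ∀ p ∈ J, p.Prime) [NeZero (∏ p ∈ J, p)]
    (t : ZMod (∏ p ∈ J, p)) (ht : t ≠ 0) : (J.filter (fun p => ¬ p ∣ t.val)).Nonempty := by
  rw [Finset.nonempty_iff_ne_empty]
  intro h
  apply ht
  have := (mul_eq_zero_iff_supp J hJ t 1).mpr (by rw [h]; simp)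
  simpa using this

theorem coll_eq (A : Finset ℤ) (m : ℕ) : coll A m = A.card + collOff A m := by
  classical
  unfold coll collOff
  rw [← Finset.diag_union_offDiag, Finset.filter_union,
    Finset.card_union_of_disjoint (Finset.disjoint_filter_filter (Finset.disjoint_diag_offDiag A))]
  congr 1
  rw [Finset.filter_true_of_mem, Finset.diag_card]
  intro x hx
  rw [(Finset.mem_diag.mp hx).2]
  simp

theorem norm_S_le (J : Finset ℕ) (hJ : ∀ p ∈ J, p.Prime) [NeZero (∏ p ∈ J, p)]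
    (A B : Finset ℤ) (t : ZMod (∏ p ∈ J, p)) :
    ‖∑ a ∈ A, ∑ b ∈ B, (ZMod.stdAddChar (N := ∏ p ∈ J, p))
        (t * ((a : ZMod (∏ p ∈ J, p)) * (b : ZMod (∏ p ∈ J, p))))‖ ^ 2
    ≤ ((∏ p ∈ J.filter (fun p => ¬ p ∣ t.val), p : ℕ) : ℝ)
        * coll A (∏ p ∈ J.filter (fun p => ¬ p ∣ t.val), p)
        * coll B (∏ p ∈ J.filter (fun p => ¬ p ∣ t.val), p) := by
  classical
  have hb := bilinear_bound A B t
  have hk := card_ker_ge J hJ t
  have hA : ((A ×ˢ A).filter (fun x => t * ((x.1 - x.2 : ℤ) : ZMod (∏ p ∈ J, p)) = 0)).card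
      = coll A (∏ p ∈ J.filter (fun p => ¬ p ∣ t.val), p) := by
    unfold coll
    congr 1
    apply Finset.filter_congr
    intro x _
    exact mul_eq_zero_iff_supp J hJ t _
  have hB : ((B ×ˢ B).filter (fun x => t * ((x.1 - x.2 : ℤ) : ZMod (∏ p ∈ J, p)) = 0)).card
      = coll B (∏ p ∈ J.filter (fun p => ¬ p ∣ t.val), p) := by
    unfold coll
    congr 1
    apply Finset.filter_congr
    intro x _
    exact mul_eq_zero_iff_supp J hJ t _
  rw [hA, hB] at hb
  set ν := (univ.filter (fun y : ZMod (∏ p ∈ J, p) => t * y = 0)).card with hν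
  set qI := ∏ p ∈ J.filter (fun p => ¬ p ∣ t.val), p with hqI
  have hνpos : (0 : ℝ) < ν := by
    have : 0 < ν := by
      rw [hν, Finset.card_pos]
      exact ⟨0, by simp⟩
    exact_mod_cast this
  have hk' : ((∏ p ∈ J, p : ℕ) : ℝ) ≤ (qI : ℝ) * ν := by exact_mod_cast hk
  have h2 : (ν : ℝ) * ‖∑ a ∈ A, ∑ b ∈ B, (ZMod.stdAddChar (N := ∏ p ∈ J, p))
        (t * ((a : ZMod (∏ p ∈ J, p)) * (b : ZMod (∏ p ∈ J, p))))‖ ^ 2
      ≤ (ν : ℝ) * ((qI : ℝ) * coll A qI * coll B qI) := by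
    refine hb.trans ?_
    calc ((∏ p ∈ J, p : ℕ) : ℝ) * (coll A qI : ℝ) * (coll B qI : ℝ)
        ≤ ((qI : ℝ) * ν) * (coll A qI : ℝ) * (coll B qI : ℝ) := by gcongr
      _ = (ν : ℝ) * ((qI : ℝ) * coll A qI * coll B qI) := by ring
  exact le_of_mul_le_mul_left h2 hνpos

theorem covering (J : Finset ℕ) (hJ : ∀ p ∈ J, p.Prime) (K : ℕ) (A B : Fin K → Finset ℤ)
    (ρ : ℝ) (hρ : 0 ≤ ρ)
    (hne : ∀ l, (A l).Nonempty ∧ (B l).Nonempty)
    (hE : ∀ l, ∀ I ⊆ J, I.Nonempty →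
       ((∏ p ∈ I, p : ℕ) : ℝ) * coll (A l) (∏ p ∈ I, p) * coll (B l) (∏ p ∈ I, p)
         ≤ (ρ ^ I.card * (A l).card * (B l).card) ^ 2)
    (hsum : ∑ I ∈ J.powerset.erase ∅, ((∏ p ∈ I, p : ℕ) : ℝ) * (ρ ^ I.card) ^ K < 1)
    (r : ℤ) :
    ∃ a b : Fin K → ℤ, (∀ l, a l ∈ A l) ∧ (∀ l, b l ∈ B l) ∧
      ((∏ p ∈ J, p : ℕ) : ℤ) ∣ ∑ l, a l * b l - r := by
  classical
  have : NeZero (∏ p ∈ J, p) := ⟨(Finset.prod_pos (fun p hp => (hJ p hp).pos)).ne'⟩
  set q := ∏ p ∈ J, p with hq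
  set M : ℝ := ∏ l, (((A l ×ˢ B l).card : ℕ) : ℝ) with hM
  have hMpos : 0 < M := by
    apply Finset.prod_pos
    intro l _
    have : 0 < (A l ×ˢ B l).card := by
      rw [Finset.card_pos]
      exact (hne l).1.product (hne l).2
    exact_mod_cast this
  have hbound : ∀ t : ZMod q, t ≠ 0 → ∀ l,
      ‖∑ i ∈ A l ×ˢ B l, (ZMod.stdAddChar (N := q)) (t * ((i.1 : ZMod q) * (i.2 : ZMod q)))‖
        ≤ ρ ^ (J.filter (fun p => ¬ p ∣ t.val)).card * (((A l ×ˢ B l).card : ℕ) : ℝ) := by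
    intro t ht l
    rw [Finset.sum_product, Finset.card_product]
    have h1 := norm_S_le J hJ (A l) (B l) t
    have h2 := hE l _ (Finset.filter_subset (fun p => ¬ p ∣ t.val) J) (supp_nonempty J hJ t ht)
    have h3 := h1.trans h2
    have h4 : 0 ≤ ρ ^ (J.filter (fun p => ¬ p ∣ t.val)).card * ((A l).card : ℝ) * ((B l).card : ℝ) := by
      positivity
    have h5 := (pow_le_pow_iff_left₀ (norm_nonneg _) h4 (two_ne_zero)).mp h3
    refine h5.trans (le_of_eq ?_)
    push_cast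
    ring
  have hmain : ∑ t ∈ (univ : Finset (ZMod q)).erase 0,
        ∏ l, ‖∑ i ∈ A l ×ˢ B l, (ZMod.stdAddChar (N := q))
          (t * ((fun (_ : Fin K) (i : ℤ × ℤ) => ((i.1 : ZMod q) * (i.2 : ZMod q))) l i))‖
      < ∏ l, (((A l ×ˢ B l).card : ℕ) : ℝ) := by
    have step1 : ∑ t ∈ (univ : Finset (ZMod q)).erase 0,
        ∏ l, ‖∑ i ∈ A l ×ˢ B l, (ZMod.stdAddChar (N := q))
          (t * ((i.1 : ZMod q) * (i.2 : ZMod q)))‖
        ≤ ∑ t ∈ (univ : Finset (ZMod q)).erase 0,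
          (ρ ^ (J.filter (fun p => ¬ p ∣ t.val)).card) ^ K * M := by
      apply Finset.sum_le_sum
      intro t ht
      have ht0 : t ≠ 0 := (Finset.mem_erase.mp ht).1
      calc ∏ l, ‖∑ i ∈ A l ×ˢ B l, (ZMod.stdAddChar (N := q))
            (t * ((i.1 : ZMod q) * (i.2 : ZMod q)))‖
          ≤ ∏ l : Fin K, (ρ ^ (J.filter (fun p => ¬ p ∣ t.val)).card
              * (((A l ×ˢ B l).card : ℕ) : ℝ)) := by
            apply Finset.prod_le_prod
            · intro l _; exact norm_nonneg _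
            · intro l _; exact hbound t ht0 l
        _ = (ρ ^ (J.filter (fun p => ¬ p ∣ t.val)).card) ^ K * M := by
            rw [Finset.prod_mul_distrib, Finset.prod_const, Finset.card_univ, Fintype.card_fin]
    have step2 : ∑ t ∈ (univ : Finset (ZMod q)).erase 0,
          (ρ ^ (J.filter (fun p => ¬ p ∣ t.val)).card) ^ K
        ≤ ∑ I ∈ J.powerset.erase ∅, ((∏ p ∈ I, p : ℕ) : ℝ) * (ρ ^ I.card) ^ K := by
      rw [← Finset.sum_fiberwise_of_maps_to (s := (univ : Finset (ZMod q)).erase 0)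
        (t := J.powerset.erase ∅) (g := fun t : ZMod q => J.filter (fun p => ¬ p ∣ t.val))]
      · apply Finset.sum_le_sum
        intro I _
        have : ∑ t ∈ ((univ : Finset (ZMod q)).erase 0).filter
            (fun t : ZMod q => J.filter (fun p => ¬ p ∣ t.val) = I),
            (ρ ^ (J.filter (fun p => ¬ p ∣ t.val)).card) ^ K
            = ((((univ : Finset (ZMod q)).erase 0).filter
            (fun t : ZMod q => J.filter (fun p => ¬ p ∣ t.val) = I)).card : ℝ) * (ρ ^ I.card) ^ K := by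
          rw [← nsmul_eq_mul, ← Finset.sum_const]
          apply Finset.sum_congr rfl
          intro t ht
          rw [(Finset.mem_filter.mp ht).2]
        rw [this]
        apply mul_le_mul_of_nonneg_right _ (by positivity)
        exact_mod_cast card_supp_eq_le J hJ _ I
      · intro t ht
        rw [Finset.mem_erase, Finset.mem_powerset]
        exact ⟨(supp_nonempty J hJ t (Finset.mem_erase.mp ht).1).ne_empty, Finset.filter_subset _ _⟩
    calc _ ≤ ∑ t ∈ (univ : Finset (ZMod q)).erase 0,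
          (ρ ^ (J.filter (fun p => ¬ p ∣ t.val)).card) ^ K * M := step1
      _ = (∑ t ∈ (univ : Finset (ZMod q)).erase 0,
          (ρ ^ (J.filter (fun p => ¬ p ∣ t.val)).card) ^ K) * M := by rw [Finset.sum_mul]
      _ ≤ (∑ I ∈ J.powerset.erase ∅, ((∏ p ∈ I, p : ℕ) : ℝ) * (ρ ^ I.card) ^ K) * M := by
          apply mul_le_mul_of_nonneg_right step2 hMpos.le
      _ < 1 * M := by apply mul_lt_mul_of_pos_right hsum hMpos
      _ = M := one_mul M
  obtain ⟨f, hf, hfr⟩ := exists_sum_eq (fun l => A l ×ˢ B l)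
    (fun (_ : Fin K) (i : ℤ × ℤ) => ((i.1 : ZMod q) * (i.2 : ZMod q))) (r : ZMod q) hmain
  refine ⟨fun l => (f l).1, fun l => (f l).2, fun l => (Finset.mem_product.mp (hf l)).1,
    fun l => (Finset.mem_product.mp (hf l)).2, ?_⟩
  rw [← ZMod.intCast_zmod_eq_zero_iff_dvd]
  push_cast
  rw [hfr, sub_self]

end Vale.Agent.P012
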