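import Vale.Agent.P012.Defs

namespace Vale.Agent.P012

open Finset

theorem centralBinom_le_pow_primeCounting (n : ℕ) (hn : 0 < n) :
    n.centralBinom ≤ (2 * n) ^ Nat.primeCounting (2 * n) := by
  rw [← Nat.prod_pow_factorization_centralBinom n, ← Nat.primesLE_card_eq_primeCounting,
    Nat.primesLE_eq_filter_range, ← Finset.prod_const]
  rw [Finset.prod_filter]
  apply Finset.prod_le_prod'
  intro p _
  split_ifs with hp
  · rw [Nat.centralBinom_eq_two_mul_choose]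
    exact Nat.pow_factorization_choose_le (by omega)
  · rw [Nat.factorization_eq_zero_of_not_prime _ hp, pow_zero]

theorem pi_lower_strong (e : ℕ) (he : 1 ≤ e) : 2 ^ e ≤ e * (Nat.primeCounting (2 ^ e) + 1) := by
  obtain ⟨d, rfl⟩ : ∃ d, e = d + 1 := ⟨e - 1, by omega⟩
  have hpos : 0 < 2 ^ d := by positivity
  have h1 := Nat.four_pow_le_two_mul_self_mul_centralBinom (2 ^ d) hpos
  have h2 := centralBinom_le_pow_primeCounting (2 ^ d) hpos
  have h3 : 2 * 2 ^ d = 2 ^ (d + 1) := by ring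
  rw [h3] at h1 h2
  have h4 : (4 : ℕ) ^ 2 ^ d = 2 ^ 2 ^ (d + 1) := by
    rw [show (4 : ℕ) = 2 ^ 2 by norm_num, ← pow_mul, ← h3]
  have h5 : 2 ^ 2 ^ (d + 1) ≤ 2 ^ ((d + 1) * (Nat.primeCounting (2 ^ (d + 1)) + 1)) := by
    calc 2 ^ 2 ^ (d + 1) = 4 ^ 2 ^ d := h4.symm
      _ ≤ 2 ^ (d + 1) * (2 ^ d).centralBinom := h1
      _ ≤ 2 ^ (d + 1) * (2 ^ (d + 1)) ^ Nat.primeCounting (2 ^ (d + 1)) :=
          Nat.mul_le_mul_left _ h2
      _ = 2 ^ ((d + 1) * (Nat.primeCounting (2 ^ (d + 1)) + 1)) := by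
          rw [← pow_mul, ← pow_add]
          congr 1
          ring
  exact (Nat.pow_le_pow_iff_right (by norm_num)).mp h5

theorem pi_lower (e : ℕ) (he : 1 ≤ e) : 2 ^ e ≤ e * (Nat.primeCounting (2 ^ e) + 1) + 1 :=
  (pi_lower_strong e he).trans (Nat.le_succ _)

end Vale.Agent.P012
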