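import Vale.Agent.P012.Block
import Vale.Agent.P012.PiLower

namespace Vale.Agent.P012

open Finset

def Good (lo hi w H : ℕ) : Prop :=
  ∃ S : Finset ℕ, (∀ p ∈ S, p.Prime) ∧ lo ≤ S.card ∧ S.card ≤ hi ∧ ∏ p ∈ S, p ≤ 2 ^ w ∧
    Rep (∏ p ∈ S, p) H

theorem good_step {lo hi w H u x j : ℕ} (hG : Good lo hi w H)
    (h1 : 2 * u + 8 ≤ lo) (h3 : 3 * x * j ≤ u)
    (h4 : 2 ^ (3 * x) * w * j + j + hi ≤ Nat.primeCounting (2 ^ (4 * x)))
    (h5 : 2 * j * 2 ^ 48 ≤ 2 ^ (4 * x)) (h6 : 1 ≤ j) :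
    Good (lo + j) (hi + j) (w + 4 * x * j) (H + 8) := by
  obtain ⟨S, hS, hlo, hhi, hw, hRep⟩ := hG
  obtain ⟨J, hJ, hdisj, hcard, hRep'⟩ :=
    block_step S hS u x j w H (h1.trans hlo) hw h3 (by omega) h5 h6 hRep
  have hc : (S ∪ J).card = S.card + j := by
    rw [Finset.card_union_of_disjoint hdisj.symm, hcard]
  refine ⟨S ∪ J, ?_, by omega, by omega, ?_, hRep'⟩
  · intro p hp
    rcases Finset.mem_union.1 hp with hp | hp
    · exact hS p hp
    · exact (hJ p hp).1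
  · rw [Finset.prod_union hdisj.symm, pow_add]
    apply Nat.mul_le_mul hw
    calc ∏ p ∈ J, p ≤ ∏ _p ∈ J, 2 ^ (4 * x) := Finset.prod_le_prod' fun p hp => (hJ p hp).2
      _ = 2 ^ (4 * x * j) := by rw [Finset.prod_const, hcard, ← pow_mul]

theorem good_iter {lo hi w H u x j : ℕ} (n : ℕ) (hG : Good lo hi w H)
    (h1 : 2 * u + 8 ≤ lo) (h3 : 3 * x * j ≤ u)
    (h4 : 2 ^ (3 * x) * (w + 4 * x * j * n) * j + j + (hi + j * n) ≤
      Nat.primeCounting (2 ^ (4 * x)))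
    (h5 : 2 * j * 2 ^ 48 ≤ 2 ^ (4 * x)) (h6 : 1 ≤ j) :
    Good (lo + j * n) (hi + j * n) (w + 4 * x * j * n) (H + 8 * n) := by
  induction n with
  | zero => simpa using hG
  | succ n ih =>
    have hmono : 2 ^ (3 * x) * (w + 4 * x * j * n) * j + j + (hi + j * n) ≤
        2 ^ (3 * x) * (w + 4 * x * j * (n + 1)) * j + j + (hi + j * (n + 1)) := by
      have e1 : w + 4 * x * j * n ≤ w + 4 * x * j * (n + 1) :=
        Nat.add_le_add_left (Nat.mul_le_mul_left _ (Nat.le_succ n)) w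
      have e2 : j * n ≤ j * (n + 1) := Nat.mul_le_mul_left _ (Nat.le_succ n)
      have e3 : 2 ^ (3 * x) * (w + 4 * x * j * n) * j ≤
          2 ^ (3 * x) * (w + 4 * x * j * (n + 1)) * j :=
        Nat.mul_le_mul_right _ (Nat.mul_le_mul_left _ e1)
      omega
    have hG' := ih (hmono.trans h4)
    have hs := good_step (u := u) (x := x) (j := j) hG' (by omega) h3 (hmono.trans h4) h5 h6
    have a1 : lo + j * n + j = lo + j * (n + 1) := by ring
    have a2 : hi + j * n + j = hi + j * (n + 1) := by ring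
    have a3 : w + 4 * x * j * n + 4 * x * j = w + 4 * x * j * (n + 1) := by ring
    have a4 : H + 8 * n + 8 = H + 8 * (n + 1) := by ring
    rw [a1, a2, a3, a4] at hs
    exact hs

theorem good_base : ∃ H0, Good (2 * 2 ^ 7 + 8) (2 ^ (7 + 5)) (2 ^ (7 + 7) * (3 * 7 + 18)) H0 := by
  obtain ⟨H0, hH0⟩ := rep_primorial 4096
  refine ⟨H0, Nat.primesLE 4096, fun p hp => (Nat.mem_primesLE.1 hp).2, ?_, ?_, ?_, hH0⟩
  · rw [Nat.primesLE_card_eq_primeCounting]
    have := pi_lower_strong 12 (by norm_num)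
    norm_num at this ⊢
    omega
  · have hsub : Nat.primesLE 4096 ⊆ Finset.Icc 1 4096 := by
      intro p hp
      have := Nat.mem_primesLE.1 hp
      exact Finset.mem_Icc.2 ⟨this.2.one_le, this.1⟩
    have := Finset.card_le_card hsub
    simpa using this
  · have h1 : ∏ p ∈ Nat.primesLE 4096, p = primorial 4096 := rfl
    rw [h1]
    calc primorial 4096 ≤ 4 ^ 4096 := primorial_le_four_pow 4096
      _ = 2 ^ (2 * 4096) := by rw [show (4 : ℕ) = 2 ^ 2 by norm_num, ← pow_mul]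
      _ ≤ 2 ^ (2 ^ (7 + 7) * (3 * 7 + 18)) := Nat.pow_le_pow_right (by norm_num) (by norm_num)

end Vale.Agent.P012
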