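import Vale.Agent.P012.Block2
import Vale.Agent.P012.Epoch

namespace Vale.Agent.P012

open Finset

def Good2 (e c z H : ℕ) : Prop :=
  ∃ (S : Finset ℕ) (Z : ℕ), (∀ p ∈ S, p.Prime) ∧ Nat.primesLE (2 ^ e) ⊆ S ∧ S.card ≤ c ∧
    2 ^ z ≤ Z ∧ ∏ p ∈ S, p ≤ 4 ^ (2 ^ e) * Z ∧ RRep (∏ p ∈ S, p) Z H

theorem good2_mono {e c z H c' z' H' : ℕ} (hG : Good2 e c z H) (h1 : c ≤ c') (h2 : z' ≤ z)
    (h3 : H ≤ H') : Good2 e c' z' H' := by
  obtain ⟨S, Z, hS, hp, hc, hz, hD, hR⟩ := hG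
  exact ⟨S, Z, hS, hp, hc.trans h1, (Nat.pow_le_pow_right (by norm_num) h2).trans hz, hD,
    rrep_mono hR le_rfl h3⟩

theorem good2_step {e c z H u h x j : ℕ} (hG : Good2 e c z H)
    (h1 : 2 * u + 8 ≤ Nat.primeCounting (2 ^ e))
    (h3 : 2 ^ (3 * x * j) ≤ u.choose h)
    (h4 : 2 ^ (3 * x) * (e * (h + 1)) * j + j + c ≤ Nat.primeCounting (2 ^ (4 * x)))
    (h5 : 2 * j * 2 ^ 48 ≤ 2 ^ (4 * x)) (h6 : 1 ≤ j)
    (hz : e * (2 * h + 1) + 3 ≤ z) :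
    Good2 e (c + j) (z + e * j) (H + 8) := by
  obtain ⟨S, Z, hS, hp, hc, hzZ, hD, hR⟩ := hG
  have hZ : 8 * 2 ^ (e * (2 * h + 1)) ≤ Z := by
    calc 8 * 2 ^ (e * (2 * h + 1)) = 2 ^ (e * (2 * h + 1) + 3) := by rw [pow_add]; ring
      _ ≤ 2 ^ z := Nat.pow_le_pow_right (by norm_num) hz
      _ ≤ Z := hzZ
  obtain ⟨J, hJ, hdisj, hcard, hRep'⟩ :=
    block_step2 S hS e u h x j Z H hp h1 h3 (by omega) h5 h6 hZ hR
  have hcc : (S ∪ J).card = S.card + j := by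
    rw [Finset.card_union_of_disjoint hdisj.symm, hcard]
  have hJbig : 2 ^ (e * j) ≤ ∏ p ∈ J, p := by
    rw [pow_mul, ← hcard, ← Finset.prod_const]
    apply Finset.prod_le_prod'
    intro p hpJ
    by_contra hcon
    have hmem : p ∈ Nat.primesLE (2 ^ e) := Nat.mem_primesLE.2 ⟨by omega, (hJ p hpJ).1⟩
    exact (Finset.disjoint_left.mp hdisj hpJ) (hp hmem)
  refine ⟨S ∪ J, (∏ p ∈ J, p) * Z, ?_, hp.trans Finset.subset_union_left, by omega, ?_, ?_, hRep'⟩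
  · intro p hpp
    rcases Finset.mem_union.1 hpp with hpp | hpp
    · exact hS p hpp
    · exact (hJ p hpp).1
  · rw [pow_add, mul_comm]
    exact Nat.mul_le_mul hJbig hzZ
  · rw [Finset.prod_union hdisj.symm]
    calc (∏ p ∈ S, p) * ∏ p ∈ J, p ≤ (4 ^ (2 ^ e) * Z) * ∏ p ∈ J, p := Nat.mul_le_mul_right _ hD
      _ = 4 ^ (2 ^ e) * ((∏ p ∈ J, p) * Z) := by ring

theorem good2_iter {e c z H u h x j : ℕ} (n : ℕ) (hG : Good2 e c z H)
    (h1 : 2 * u + 8 ≤ Nat.primeCounting (2 ^ e))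
    (h3 : 2 ^ (3 * x * j) ≤ u.choose h)
    (h4 : 2 ^ (3 * x) * (e * (h + 1)) * j + j + (c + j * n) ≤ Nat.primeCounting (2 ^ (4 * x)))
    (h5 : 2 * j * 2 ^ 48 ≤ 2 ^ (4 * x)) (h6 : 1 ≤ j)
    (hz : e * (2 * h + 1) + 3 ≤ z) :
    Good2 e (c + j * n) (z + e * j * n) (H + 8 * n) := by
  induction n with
  | zero => simpa using hG
  | succ n ih =>
    have e2 : j * n ≤ j * (n + 1) := Nat.mul_le_mul_left _ (Nat.le_succ n)
    have hG' := ih (by omega)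
    have hs := good2_step (u := u) (h := h) (x := x) (j := j) hG' h1 h3 (by omega) h5 h6 (by omega)
    have a1 : c + j * n + j = c + j * (n + 1) := by ring
    have a3 : z + e * j * n + e * j = z + e * j * (n + 1) := by ring
    have a4 : H + 8 * n + 8 = H + 8 * (n + 1) := by ring
    rw [a1, a3, a4] at hs
    exact hs

theorem good2_base : ∃ H0, ∀ e k, 7 ≤ k → k + 5 ≤ e →
    Good2 e (2 ^ (e + 1)) (2 * 2 ^ k) (H0 + 96 * (k * (3 * k + 18))) := by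
  classical
  obtain ⟨H0, hH0⟩ := good_all
  refine ⟨H0, fun e k hk hke => ?_⟩
  obtain ⟨S0, hS0, hlo, hhi, -, hRep⟩ := hH0 k hk
  set PL := Nat.primesLE (2 ^ e) with hPL
  have hPLp : ∀ p ∈ PL, p.Prime := fun p hp => (Nat.mem_primesLE.1 hp).2
  have hSp : ∀ p ∈ S0 ∪ PL, p.Prime := by
    intro p hp
    rcases Finset.mem_union.1 hp with hp | hp
    · exact hS0 p hp
    · exact hPLp p hp
  have hsplit : ∏ p ∈ S0 ∪ PL, p = (∏ p ∈ S0, p) * ∏ p ∈ PL \ S0, p := by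
    rw [← Finset.union_sdiff_self_eq_union, Finset.prod_union Finset.disjoint_sdiff]
  have hpos : 0 < ∏ p ∈ S0 ∪ PL, p := prod_primes_pos _ hSp
  refine ⟨S0 ∪ PL, ∏ p ∈ S0, p, hSp, Finset.subset_union_right, ?_, ?_, ?_, ?_⟩
  · have hsub : PL ⊆ Finset.Icc 1 (2 ^ e) := by
      intro p hp
      have := Nat.mem_primesLE.1 hp
      exact Finset.mem_Icc.2 ⟨this.2.one_le, this.1⟩
    have h1 := Finset.card_le_card hsub
    rw [Nat.card_Icc] at h1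
    have h2 : 2 ^ (k + 5) ≤ 2 ^ e := Nat.pow_le_pow_right (by norm_num) hke
    have h3 := Finset.card_union_le S0 PL
    rw [pow_succ]
    omega
  · refine le_trans ?_ (two_pow_card_le_prod S0 hS0)
    exact Nat.pow_le_pow_right (by norm_num) (by omega)
  · rw [hsplit, mul_comm]
    apply Nat.mul_le_mul_right
    have h1 : ∏ p ∈ PL \ S0, p ≤ ∏ p ∈ PL, p :=
      Nat.le_of_dvd (prod_primes_pos _ hPLp)
        (Finset.prod_dvd_prod_of_subset _ _ _ Finset.sdiff_subset)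
    have h2 : ∏ p ∈ PL, p = primorial (2 ^ e) := rfl
    rw [h2] at h1
    exact h1.trans (primorial_le_four_pow _)
  · exact rrep_of_rep hRep (by rw [hsplit]; exact Dvd.intro _ rfl) hpos.ne'

end Vale.Agent.P012
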