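import Vale.Agent.P012.Virtual
import Vale.Agent.P012.Final2

namespace Vale.Agent.P012

open Finset

def Good3 (P g z H : ℕ) : Prop :=
  ∃ W Z : ℕ, 0 < W ∧ P ∣ W ∧ 2 ^ z ≤ Z ∧ W ≤ 2 ^ g * Z ∧ VRep W Z H

def VSys (P x uv hmax : ℕ) : Prop :=
  ∃ V1 V2 : Finset ℕ, (∀ p ∈ V1, p.Prime ∧ p ≤ 2 ^ (4 * x)) ∧
    (∀ p ∈ V2, p.Prime ∧ p ≤ 2 ^ (4 * x)) ∧ Disjoint V1 V2 ∧ V1.card = uv ∧ V2.card = uv ∧
    ∀ I ⊆ V1 ∪ V2, I.card ≤ 2 * hmax → GoodNum P (∏ p ∈ I, p)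

theorem good3_mono {P g z H z' H' : ℕ} (hG : Good3 P g z H) (h2 : z' ≤ z) (h3 : H ≤ H') :
    Good3 P g z' H' := by
  obtain ⟨W, Z, hW, hP, hz, hWZ, hV⟩ := hG
  exact ⟨W, Z, hW, hP, (Nat.pow_le_pow_right (by norm_num) h2).trans hz, hWZ,
    fun m hm => uf_mono (hV m hm) h3⟩

theorem good3_step {P g z H e h x uv hmax j : ℕ} (hS : VSys P x uv hmax) (hh : h ≤ hmax)
    (h3 : 2 ^ (3 * x * j) ≤ uv.choose h)
    (h4 : 2 ^ (3 * x) * (4 * x * h) * j + j + Nat.primeCounting (2 ^ e) ≤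
      Nat.primeCounting (2 ^ (4 * x)))
    (h5 : 2 * j * 2 ^ 48 ≤ 2 ^ (4 * x)) (h6 : 1 ≤ j) (hz : 8 * x * h + 3 ≤ z)
    (hG : Good3 P g z H) : Good3 P g (z + e * j) (H + 64) := by
  obtain ⟨V1, V2, hV1, hV2, hdisj, hc1, hc2, hgood⟩ := hS
  obtain ⟨W, Z, hW, hP, hzZ, hWZ, hV⟩ := hG
  have hZ : 8 * 2 ^ (8 * x * h) ≤ Z := by
    calc 8 * 2 ^ (8 * x * h) = 2 ^ (8 * x * h + 3) := by rw [pow_add]; ring
      _ ≤ 2 ^ z := Nat.pow_le_pow_right (by norm_num) hz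
      _ ≤ Z := hzZ
  obtain ⟨q, hq, hV'⟩ := virtual_stage P V1 V2 e h x uv j hV1 hV2 hdisj hc1 hc2
    (fun I hI hc => hgood I hI (by omega)) h3 h4 h5 h6 hW hP hZ hV
  have hqpos : 0 < q := lt_of_lt_of_le (by positivity) hq
  refine ⟨q * W, q * Z, Nat.mul_pos hqpos hW, Dvd.dvd.mul_left hP q, ?_, ?_, hV'⟩
  · rw [pow_add, mul_comm]
    exact Nat.mul_le_mul hq hzZ
  · calc q * W ≤ q * (2 ^ g * Z) := Nat.mul_le_mul_left _ hWZ
      _ = 2 ^ g * (q * Z) := by ring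

theorem good3_iter {P g z H e h x uv hmax j : ℕ} (n : ℕ) (hS : VSys P x uv hmax) (hh : h ≤ hmax)
    (h3 : 2 ^ (3 * x * j) ≤ uv.choose h)
    (h4 : 2 ^ (3 * x) * (4 * x * h) * j + j + Nat.primeCounting (2 ^ e) ≤
      Nat.primeCounting (2 ^ (4 * x)))
    (h5 : 2 * j * 2 ^ 48 ≤ 2 ^ (4 * x)) (h6 : 1 ≤ j) (hz : 8 * x * h + 3 ≤ z)
    (hG : Good3 P g z H) : Good3 P g (z + e * j * n) (H + 64 * n) := by
  induction n with
  | zero => simpa using hG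
  | succ n ih =>
    have hs := good3_step (e := e) hS hh h3 h4 h5 h6 (z := z + e * j * n) (by omega) ih
    have a3 : z + e * j * n + e * j = z + e * j * (n + 1) := by ring
    have a4 : H + 64 * n + 64 = H + 64 * (n + 1) := by ring
    rw [a3, a4] at hs
    exact hs

theorem good3_base : ∃ H0, ∀ P g k, 7 ≤ k → 0 < P → P ≤ 2 ^ g →
    Good3 P g (2 * 2 ^ k) (H0 + 96 * (k * (3 * k + 18))) := by
  obtain ⟨H0, hH0⟩ := good_all
  refine ⟨H0, fun P g k hk hP hPg => ?_⟩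
  obtain ⟨S0, hS0, hlo, -, -, hRep⟩ := hH0 k hk
  have hpos : 0 < ∏ p ∈ S0, p := prod_primes_pos _ hS0
  refine ⟨(∏ p ∈ S0, p) * P, ∏ p ∈ S0, p, Nat.mul_pos hpos hP, Dvd.intro_left _ rfl, ?_, ?_, ?_⟩
  · refine le_trans ?_ (two_pow_card_le_prod S0 hS0)
    exact Nat.pow_le_pow_right (by norm_num) (by omega)
  · rw [mul_comm]
    exact Nat.mul_le_mul_right _ hPg
  · exact vrep_mul (vrep_of_rrep hpos (rrep_of_rep hRep dvd_rfl hpos.ne')) hP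

/-- general form of `h4_bound` -/
theorem h4_gen {e w j c : ℕ} (hwj : w * j ≤ 2 ^ (3 * e)) (hc : j + c ≤ 2 ^ (3 * e)) :
    2 ^ (3 * (4 * e + 20)) * w * j + j + c ≤ Nat.primeCounting (2 ^ (4 * (4 * e + 20))) := by
  set x := 4 * e + 20 with hx
  set B := 2 ^ (3 * e) with hB
  have hBpos : 1 ≤ B := Nat.one_le_two_pow
  have h2 : 2 ^ (3 * x) * w * j ≤ 2 ^ (3 * x) * B := by
    rw [mul_assoc]
    exact Nat.mul_le_mul_left _ hwj
  have h3 : 1 ≤ 2 ^ (3 * x) := Nat.one_le_two_pow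
  have h4 : j + c ≤ 2 ^ (3 * x) * B := by
    calc j + c ≤ 1 * B := by omega
      _ ≤ 2 ^ (3 * x) * B := Nat.mul_le_mul_right _ h3
  have hC : 2 ^ (3 * x) * w * j + j + c ≤ 2 ^ (3 * x) * (2 * B) := by
    have : 2 ^ (3 * x) * (2 * B) = 2 ^ (3 * x) * B + 2 ^ (3 * x) * B := by ring
    omega
  refine hC.trans ?_
  have hpi := pi_lower_strong (4 * x) (by omega)
  by_contra hcon
  have h8 : Nat.primeCounting (2 ^ (4 * x)) + 1 ≤ 2 ^ (3 * x) * (2 * B) :=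
    Nat.lt_of_not_le hcon
  have h9 : 2 ^ (4 * x) ≤ 4 * x * (2 ^ (3 * x) * (2 * B)) :=
    hpi.trans (Nat.mul_le_mul_left _ h8)
  have h10 : 2 ^ (4 * x) = 2 ^ (3 * x) * (2 * B) * 2 ^ (e + 19) := by
    have e1 : 2 * B = 2 ^ (1 + 3 * e) := by
      rw [hB, pow_add]
      ring
    rw [e1, ← pow_add, ← pow_add]
    congr 1
    omega
  have h11 : 4 * x < 2 ^ (e + 19) := by
    have := aux_lin_pow e
    omega
  have hpos : 0 < 2 ^ (3 * x) * (2 * B) := by positivity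
  rw [h10] at h9
  have h12 : 2 ^ (3 * x) * (2 * B) * 2 ^ (e + 19) ≤ 2 ^ (3 * x) * (2 * B) * (4 * x) := by
    calc _ ≤ 4 * x * (2 ^ (3 * x) * (2 * B)) := h9
      _ = _ := by ring
  have h13 := Nat.le_of_mul_le_mul_left h12 hpos
  omega

theorem vsys_exists {e l E lamx : ℕ} (he : 33 ≤ e) (he1 : e ≤ 2 ^ l) (hE : E + l + 2 = e)
    (hx : lamx + l + 5 = E) :
    ∃ P, 0 < P ∧ P ≤ 2 ^ (2 ^ (e - 1)) ∧ VSys P (4 * e + 20) (2 ^ (2 * e - 1)) (2 ^ lamx) := by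
  classical
  have hpool := pool_bound he1 hE (by omega)
  -- the real primes
  have hcardPL : (Nat.primesLE (2 ^ e)).card = Nat.primeCounting (2 ^ e) :=
    Nat.primesLE_card_eq_primeCounting _
  obtain ⟨U, hUsub, hUc⟩ := Finset.exists_subset_card_eq
    (s := Nat.primesLE (2 ^ e)) (n := 2 ^ E) (by omega)
  have hUp : ∀ p ∈ U, p.Prime := fun p hp => (Nat.mem_primesLE.1 (hUsub hp)).2
  have hUle : ∀ p ∈ U, p ≤ 2 ^ e := fun p hp => (Nat.mem_primesLE.1 (hUsub hp)).1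
  have hel : e * 2 ^ E ≤ 2 ^ (e - 2) := by
    calc e * 2 ^ E ≤ 2 ^ l * 2 ^ E := Nat.mul_le_mul_right _ he1
      _ = 2 ^ (e - 2) := by rw [← pow_add]; congr 1; omega
  have h4 : 2 ^ (3 * (4 * e + 20)) * (e * 2 ^ E) * 2 ^ (2 * e) + 2 ^ (2 * e) ≤
      Nat.primeCounting (2 ^ (4 * (4 * e + 20))) := by
    have := h4_gen (e := e) (w := e * 2 ^ E) (j := 2 ^ (2 * e)) (c := 0) ?_ ?_
    · simpa using this
    · calc e * 2 ^ E * 2 ^ (2 * e) ≤ 2 ^ (e - 2) * 2 ^ (2 * e) := Nat.mul_le_mul_right _ hel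
        _ = 2 ^ (e - 2 + 2 * e) := by rw [← pow_add]
        _ ≤ 2 ^ (3 * e) := Nat.pow_le_pow_right (by norm_num) (by omega)
    · simpa using Nat.pow_le_pow_right (n := 2) (by norm_num) (show 2 * e ≤ 3 * e by omega)
  obtain ⟨VV, hVV, hVVc, hgood⟩ := virtual_primes U U hUp hUp e (2 ^ E) (4 * e + 20) (2 ^ (2 * e))
    hUc hUc hUle hUle h4 Nat.one_le_two_pow
  have hhalf : 2 ^ (2 * e) = 2 ^ (2 * e - 1) + 2 ^ (2 * e - 1) := by
    have : 2 * e = (2 * e - 1) + 1 := by omega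
    conv_lhs => rw [this, pow_succ]
    ring
  obtain ⟨V1, hV1sub, hV1c⟩ := Finset.exists_subset_card_eq
    (s := VV) (n := 2 ^ (2 * e - 1)) (by omega)
  have hqU : ∏ p ∈ U, p ≤ 2 ^ (e * 2 ^ E) := by
    rw [pow_mul, ← hUc, ← Finset.prod_const]
    exact Finset.prod_le_prod' hUle
  refine ⟨(∏ p ∈ U, p) * ∏ p ∈ U, p, Nat.mul_pos (prod_primes_pos _ hUp) (prod_primes_pos _ hUp),
    ?_, V1, VV \ V1, fun p hp => hVV p (hV1sub hp),
    fun p hp => hVV p (Finset.sdiff_subset hp), Finset.disjoint_sdiff, hV1c, ?_, ?_⟩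
  · calc (∏ p ∈ U, p) * ∏ p ∈ U, p ≤ 2 ^ (e * 2 ^ E) * 2 ^ (e * 2 ^ E) := Nat.mul_le_mul hqU hqU
      _ = 2 ^ (e * 2 ^ E + e * 2 ^ E) := by rw [← pow_add]
      _ ≤ 2 ^ (2 ^ (e - 1)) := by
        apply Nat.pow_le_pow_right (by norm_num)
        have : 2 ^ (e - 1) = 2 ^ (e - 2) + 2 ^ (e - 2) := by
          have : e - 1 = (e - 2) + 1 := by omega
          rw [this, pow_succ]
          ring
        omega
  · rw [Finset.card_sdiff_of_subset hV1sub]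
    omega
  · intro I hI hIc
    rw [Finset.union_sdiff_of_subset hV1sub] at hI
    have hEl : 2 ^ E = 2 ^ lamx * (32 * 2 ^ l) := by
      rw [← hx, pow_add, pow_add]
      ring
    apply hgood I hI
    · rw [hEl]
      calc 3 * (4 * e + 20) * I.card ≤ 3 * (4 * e + 20) * (2 * 2 ^ lamx) :=
            Nat.mul_le_mul_left _ hIc
        _ = 2 ^ lamx * (24 * e + 120) := by ring
        _ ≤ 2 ^ lamx * (32 * 2 ^ l) := Nat.mul_le_mul_left _ (by omega)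
    · apply h5_bound
      calc I.card ≤ 2 * 2 ^ lamx := hIc
        _ = 2 ^ (lamx + 1) := by ring
        _ ≤ 2 ^ e := Nat.pow_le_pow_right (by norm_num) (by omega)

end Vale.Agent.P012
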