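import Vale.Agent.P012.UF

namespace Vale.Agent.P012

open Finset

/-- If a multiset of `m` unit fractions has a sum `x > 0` with `x * D` an integer, every denominator is at most
`(m * D) ^ 2 ^ (m - 1)`.  (Least element `y`: `x ≤ m / y`, `x ≥ 1 / D`, so `y ≤ m * D`; remove it, `D' = D * y ≤ m * D ^ 2`.) -/
theorem denom_bound : ∀ (m D : ℕ) (T : Multiset ℕ), 1 ≤ D → T.card = m → (∀ n ∈ T, 0 < n) →
    (∃ N : ℕ, (T.map (fun n : ℕ => (1 : ℚ) / n)).sum * D = N) →
    ∀ n ∈ T, n ≤ (m * D) ^ 2 ^ (m - 1) := by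
  intro m
  induction m with
  | zero =>
    intro D T _ hc _ _ n hn
    rw [Multiset.card_eq_zero.1 hc] at hn
    simp at hn
  | succ m ih =>
    intro D T hD hc hpos hN n hn
    obtain ⟨N, hN⟩ := hN
    -- least element
    have hne : T.toFinset.Nonempty := ⟨n, Multiset.mem_toFinset.2 hn⟩
    obtain ⟨y, hy, hmin⟩ := Finset.exists_min_image T.toFinset (fun a => a) hne
    have hyT : y ∈ T := Multiset.mem_toFinset.1 hy
    have hmin' : ∀ a ∈ T, y ≤ a := fun a ha => hmin a (Multiset.mem_toFinset.2 ha)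
    have hypos : 0 < y := hpos y hyT
    have hyq : (0 : ℚ) < y := by exact_mod_cast hypos
    have hDq : (0 : ℚ) < D := by exact_mod_cast hD
    have hc' : (T.erase y).card = m := by
      rw [Multiset.card_erase_of_mem hyT, hc]; rfl
    have hpos' : ∀ a ∈ T.erase y, 0 < a := fun a ha => hpos a (Multiset.mem_of_mem_erase ha)
    have hsum : (T.map (fun n : ℕ => (1 : ℚ) / n)).sum
        = 1 / (y : ℚ) + ((T.erase y).map (fun n : ℕ => (1 : ℚ) / n)).sum := by
      conv_lhs => rw [← Multiset.cons_erase hyT]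
      rw [Multiset.map_cons, Multiset.sum_cons]
    set x' := ((T.erase y).map (fun n : ℕ => (1 : ℚ) / n)).sum with hx'
    have hx'0 : 0 ≤ x' := by
      apply Multiset.sum_nonneg
      intro a ha
      obtain ⟨k, _, rfl⟩ := Multiset.mem_map.1 ha
      positivity
    have hub : (T.map (fun n : ℕ => (1 : ℚ) / n)).sum ≤ ((m + 1 : ℕ) : ℚ) * (1 / (y : ℚ)) := by
      have := Multiset.sum_le_card_nsmul (T.map (fun n : ℕ => (1 : ℚ) / n)) (1 / (y : ℚ)) (by
        intro a ha
        obtain ⟨k, hk, rfl⟩ := Multiset.mem_map.1 ha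
        have h1 : (y : ℚ) ≤ k := by exact_mod_cast hmin' k hk
        exact one_div_le_one_div_of_le hyq h1)
      rw [Multiset.card_map, hc, nsmul_eq_mul] at this
      exact this
    -- `N ≥ 1`
    have hNpos : 0 < N := by
      have : (0 : ℚ) < N := by
        rw [← hN, hsum]
        have : (0 : ℚ) < 1 / (y : ℚ) := by positivity
        positivity
      exact_mod_cast this
    -- `N * y ≤ (m + 1) * D`
    have hNy : N * y ≤ (m + 1) * D := by
      have h1 : (N : ℚ) ≤ ((m + 1 : ℕ) : ℚ) * (1 / (y : ℚ)) * D := by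
        rw [← hN]
        exact mul_le_mul_of_nonneg_right hub hDq.le
      have h2 : (N : ℚ) * y ≤ ((m + 1 : ℕ) : ℚ) * D := by
        calc (N : ℚ) * y ≤ ((m + 1 : ℕ) : ℚ) * (1 / (y : ℚ)) * D * y :=
              mul_le_mul_of_nonneg_right h1 hyq.le
          _ = ((m + 1 : ℕ) : ℚ) * D := by field_simp
      exact_mod_cast h2
    have hyle : y ≤ (m + 1) * D := le_trans (Nat.le_mul_of_pos_left y hNpos) hNy
    have hbase : 1 ≤ (m + 1) * D := Nat.mul_pos (Nat.succ_pos m) hD
    have hexp : 2 ^ (m + 1 - 1) = 2 ^ m := by simp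
    rw [hexp]
    -- the remaining sum
    have hx'eq : x' * ((D * y : ℕ) : ℚ) = (N : ℚ) * y - D := by
      have : x' = (T.map (fun n : ℕ => (1 : ℚ) / n)).sum - 1 / (y : ℚ) := by rw [hsum]; ring
      rw [this]
      push_cast
      have h3 : (T.map (fun n : ℕ => (1 : ℚ) / n)).sum * D = N := hN
      calc ((T.map (fun n : ℕ => (1 : ℚ) / n)).sum - 1 / (y : ℚ)) * ((D : ℚ) * y)
          = ((T.map (fun n : ℕ => (1 : ℚ) / n)).sum * D) * y - D * (1 / (y : ℚ) * y) := by ring
        _ = (N : ℚ) * y - D := by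
            rw [h3, one_div, inv_mul_cancel₀ hyq.ne', mul_one]
    have hDle : D ≤ N * y := by
      have : (0 : ℚ) ≤ (N : ℚ) * y - D := by
        rw [← hx'eq]; positivity
      have h4 : (D : ℚ) ≤ (N : ℚ) * y := by linarith
      exact_mod_cast h4
    have hN' : ∃ N' : ℕ, ((T.erase y).map (fun n : ℕ => (1 : ℚ) / n)).sum * ((D * y : ℕ) : ℚ)
        = N' := by
      refine ⟨N * y - D, ?_⟩
      rw [← hx', hx'eq, Nat.cast_sub hDle]
      push_cast
      ring
    have hih := ih (D * y) (T.erase y) (Nat.mul_pos hD hypos) hc' hpos' hN'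
    by_cases hny : n = y
    · rw [hny]
      calc y ≤ (m + 1) * D := hyle
        _ = ((m + 1) * D) ^ 1 := (pow_one _).symm
        _ ≤ ((m + 1) * D) ^ 2 ^ m := Nat.pow_le_pow_right hbase Nat.one_le_two_pow
    · have hnT' : n ∈ T.erase y := (Multiset.mem_erase_of_ne hny).2 hn
      have h5 := hih n hnT'
      have hm : 1 ≤ m := by
        rcases Nat.eq_zero_or_pos m with h0 | h0
        · rw [h0] at hc'
          rw [Multiset.card_eq_zero.1 hc'] at hnT'
          simp at hnT'
        · exact h0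
      have h6 : m * (D * y) ≤ ((m + 1) * D) ^ 2 := by
        calc m * (D * y) ≤ (m + 1) * (D * ((m + 1) * D)) :=
              Nat.mul_le_mul (Nat.le_succ m) (Nat.mul_le_mul_left _ hyle)
          _ = ((m + 1) * D) ^ 2 := by ring
      calc n ≤ (m * (D * y)) ^ 2 ^ (m - 1) := h5
        _ ≤ (((m + 1) * D) ^ 2) ^ 2 ^ (m - 1) := Nat.pow_le_pow_left h6 _
        _ = ((m + 1) * D) ^ 2 ^ m := by
            rw [← pow_mul, ← pow_succ']
            congr 2
            omega

/-- Erdos' lower bound: an expansion of `(b - 1) / b` with `k` terms forces `b ≤ (k + 1) ^ 2 ^ k`. -/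
theorem lower_nat {b : ℕ} (hb : 2 ≤ b) (S : Finset ℕ) (hS : ∀ n ∈ S, 2 ≤ n)
    (hsum : ∑ n ∈ S, (1 / (n : ℚ)) = ((b - 1 : ℕ) : ℚ) / b) : b ≤ (S.card + 1) ^ 2 ^ S.card := by
  have hbq : (b : ℚ) ≠ 0 := by
    have : 0 < b := by omega
    exact_mod_cast this.ne'
  have h := denom_bound (S.card + 1) 1 (b ::ₘ S.val) le_rfl (by simp) (by
    intro n hn
    rcases Multiset.mem_cons.1 hn with h | h
    · omega
    · have := hS n h
      omega) ⟨1, by
      rw [Multiset.map_cons, Multiset.sum_cons]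
      have : (S.val.map (fun n : ℕ => (1 : ℚ) / n)).sum = ∑ n ∈ S, (1 / (n : ℚ)) := rfl
      rw [this, hsum, Nat.cast_sub (by omega)]
      push_cast
      field_simp
      ring⟩ b (Multiset.mem_cons_self b _)
  simpa using h

theorem lower_real {b : ℕ} (hb : 3 ≤ b) (S : Finset ℕ) (hS : ∀ n ∈ S, 2 ≤ n)
    (hsum : ∑ n ∈ S, (1 / (n : ℚ)) = ((b - 1 : ℕ) : ℚ) / b) :
    Real.log (Real.log b) ≤ Real.log 4 * S.card := by
  have h := lower_nat (by omega) S hS hsum
  set k := S.card with hk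
  have hbR : (1 : ℝ) < b := by
    have : 1 < b := by omega
    exact_mod_cast this
  have hlogb : 0 < Real.log b := Real.log_pos hbR
  have h1 : (b : ℝ) ≤ ((k : ℝ) + 1) ^ 2 ^ k := by exact_mod_cast h
  have h2 : Real.log b ≤ (2 : ℝ) ^ k * Real.log ((k : ℝ) + 1) := by
    have := Real.log_le_log (by linarith) h1
    rw [Real.log_pow] at this
    push_cast at this
    exact this
  have h3 : Real.log ((k : ℝ) + 1) ≤ k := by
    have := Real.log_le_sub_one_of_pos (show (0 : ℝ) < (k : ℝ) + 1 by positivity)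
    linarith
  have h4 : (k : ℝ) ≤ (2 : ℝ) ^ k := by
    have : k ≤ 2 ^ k := (Nat.lt_two_pow_self).le
    exact_mod_cast this
  have h5 : Real.log b ≤ (4 : ℝ) ^ k := by
    calc Real.log b ≤ (2 : ℝ) ^ k * Real.log ((k : ℝ) + 1) := h2
      _ ≤ (2 : ℝ) ^ k * (2 : ℝ) ^ k := by
          apply mul_le_mul_of_nonneg_left (h3.trans h4) (by positivity)
      _ = (4 : ℝ) ^ k := by rw [← mul_pow]; norm_num
  calc Real.log (Real.log b) ≤ Real.log ((4 : ℝ) ^ k) := Real.log_le_log hlogb h5
    _ = Real.log 4 * k := by rw [Real.log_pow]; ring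

end Vale.Agent.P012
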