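import Vale.Agent.P012.Ranged

namespace Vale.Agent.P012

open Finset

/-- `x` is a sum of at most `H` unit fractions, repetitions allowed -/
def UF (x : ℚ) (H : ℕ) : Prop :=
  ∃ s : Multiset ℕ, s.card ≤ H ∧ (∀ n ∈ s, 0 < n) ∧ (s.map (fun n : ℕ => (1 : ℚ) / n)).sum = x

theorem uf_zero (H : ℕ) : UF 0 H := ⟨0, by simp, by simp, by simp⟩

theorem uf_mono {x : ℚ} {H H' : ℕ} (h : UF x H) (hH : H ≤ H') : UF x H' := by
  obtain ⟨s, h1, h2, h3⟩ := h
  exact ⟨s, h1.trans hH, h2, h3⟩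

theorem uf_add {x y : ℚ} {H K : ℕ} (hx : UF x H) (hy : UF y K) : UF (x + y) (H + K) := by
  obtain ⟨s, h1, h2, h3⟩ := hx
  obtain ⟨t, k1, k2, k3⟩ := hy
  refine ⟨s + t, ?_, ?_, ?_⟩
  · rw [Multiset.card_add]; omega
  · intro n hn
    rcases Multiset.mem_add.1 hn with h | h
    · exact h2 n h
    · exact k2 n h
  · rw [Multiset.map_add, Multiset.sum_add, h3, k3]

theorem uf_div {x : ℚ} {H : ℕ} (hx : UF x H) {q : ℕ} (hq : 0 < q) : UF (x / q) H := by
  obtain ⟨s, h1, h2, h3⟩ := hx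
  refine ⟨s.map (fun n => q * n), ?_, ?_, ?_⟩
  · rw [Multiset.card_map]; exact h1
  · intro n hn
    obtain ⟨m, hm, rfl⟩ := Multiset.mem_map.1 hn
    exact Nat.mul_pos hq (h2 m hm)
  · rw [Multiset.map_map, ← h3, div_eq_mul_inv, ← Multiset.sum_map_mul_right]
    congr 1
    apply Multiset.map_congr rfl
    intro n _
    simp only [Function.comp]
    push_cast
    rw [one_div, one_div, mul_inv, mul_comm]

theorem uf_unit {n : ℕ} (hn : 0 < n) : UF (1 / (n : ℚ)) 1 :=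
  ⟨{n}, by simp, by simpa using hn, by simp⟩

theorem uf_sum {ι : Type*} (s : Finset ι) (f : ι → ℚ) (c : ℕ) (h : ∀ i ∈ s, UF (f i) c) :
    UF (∑ i ∈ s, f i) (s.card * c) := by
  classical
  induction s using Finset.induction_on with
  | empty => simpa using uf_zero 0
  | insert a s ha ih =>
    rw [Finset.sum_insert ha, Finset.card_insert_of_notMem ha]
    have h1 := uf_add (h a (Finset.mem_insert_self a s))
      (ih (fun i hi => h i (Finset.mem_insert_of_mem hi)))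
    have e : c + s.card * c = (s.card + 1) * c := by ring
    rw [e] at h1
    exact h1

/-- every `m ≤ Z` has `m / W` a sum of at most `H` unit fractions -/
def VRep (W Z H : ℕ) : Prop := ∀ m ≤ Z, UF ((m : ℚ) / W) H

theorem vrep_of_rrep {D Z H : ℕ} (hD : 0 < D) (h : RRep D Z H) : VRep D Z H := by
  intro m hm
  obtain ⟨T, t1, t2, t3⟩ := h m hm
  have hDq : (D : ℚ) ≠ 0 := by exact_mod_cast hD.ne'
  have h1 : (m : ℚ) / D = ∑ d ∈ T, (1 : ℚ) / ((D / d : ℕ) : ℚ) := by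
    rw [← t3, Nat.cast_sum, Finset.sum_div]
    apply Finset.sum_congr rfl
    intro d hd
    have hdv := (Nat.mem_divisors.1 (t1 hd)).1
    have hdpos : 0 < d := Nat.pos_of_dvd_of_pos hdv hD
    have e1 : d * (D / d) = D := Nat.mul_div_cancel' hdv
    have p1 : 0 < D / d := Nat.div_pos (Nat.le_of_dvd hD hdv) hdpos
    have h1 : (d : ℚ) * ((D / d : ℕ) : ℚ) = D := by exact_mod_cast e1
    have h2 : ((D / d : ℕ) : ℚ) ≠ 0 := by exact_mod_cast p1.ne'
    rw [div_eq_div_iff hDq h2, one_mul, h1]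
  rw [h1]
  have h2 := uf_sum T (fun d => (1 : ℚ) / ((D / d : ℕ) : ℚ)) 1 (fun d hd => by
    have hdv := (Nat.mem_divisors.1 (t1 hd)).1
    have hdpos : 0 < d := Nat.pos_of_dvd_of_pos hdv hD
    exact uf_unit (Nat.div_pos (Nat.le_of_dvd hD hdv) hdpos))
  exact uf_mono h2 (by omega)

theorem vrep_mul {W Z H : ℕ} (h : VRep W Z H) {P : ℕ} (hP : 0 < P) : VRep (W * P) Z H := by
  intro m hm
  have := uf_div (h m hm) hP
  rwa [div_div, ← Nat.cast_mul] at this

theorem vrep_step {W Z q H K : ℕ} (hq : 0 < q) (hV : VRep W Z H)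
    (hres : ∀ r : ℕ, ∃ t : ℕ, t ≤ Z ∧ t ≡ r [MOD q] ∧ UF ((t : ℚ) / ((q * W : ℕ) : ℚ)) K) :
    VRep (q * W) (q * Z) (H + K) := by
  intro m hm
  by_cases hmZ : m ≤ Z
  · have := uf_div (hV m hmZ) hq
    rw [div_div, ← Nat.cast_mul, mul_comm W q] at this
    exact uf_mono this (by omega)
  · obtain ⟨t, t1, t2, t3⟩ := hres m
    have htm : t ≤ m := by omega
    obtain ⟨m', hm'⟩ := (Nat.modEq_iff_dvd' htm).1 t2
    have hm'Z : m' ≤ Z := by
      by_contra hcon
      have : q * (Z + 1) ≤ q * m' := Nat.mul_le_mul_left q (by omega)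
      rw [Nat.mul_add] at this
      omega
    have hsplit : (m : ℚ) / ((q * W : ℕ) : ℚ) = (m' : ℚ) / W + (t : ℚ) / ((q * W : ℕ) : ℚ) := by
      have e : (m : ℚ) = q * m' + t := by
        have : m = q * m' + t := by omega
        exact_mod_cast this
      have hqq : (q : ℚ) ≠ 0 := by exact_mod_cast hq.ne'
      rcases Nat.eq_zero_or_pos W with hW | hW
      · subst hW; simp
      · have hWq : (W : ℚ) ≠ 0 := by exact_mod_cast hW.ne'
        rw [e]
        push_cast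
        field_simp
    rw [hsplit]
    exact uf_add (hV m' hm'Z) t3

/-- `γ` divides a sum of eight divisors of `P` -/
def GoodNum (P γ : ℕ) : Prop := ∃ d : Fin 8 → ℕ, (∀ l, d l ∣ P) ∧ γ ∣ ∑ l, d l

theorem uf_of_good {P γ W : ℕ} (hγ : 0 < γ) (hW : 0 < W) (hPW : P ∣ W)
    (h : GoodNum P γ) : UF ((γ : ℚ) / W) 8 := by
  obtain ⟨d, hd, u, hu⟩ := h
  have hdW : ∀ l, d l ∣ W := fun l => (hd l).trans hPW
  have hdpos : ∀ l, 0 < d l := fun l => Nat.pos_of_dvd_of_pos (hdW l) hW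
  have hsumpos : 0 < ∑ l, d l := Finset.sum_pos (fun l _ => hdpos l) ⟨0, Finset.mem_univ _⟩
  have hupos : 0 < u := by
    rcases Nat.eq_zero_or_pos u with h0 | h0
    · rw [h0, Nat.mul_zero] at hu; omega
    · exact h0
  have hWq : (W : ℚ) ≠ 0 := by exact_mod_cast hW.ne'
  have huq : (u : ℚ) ≠ 0 := by exact_mod_cast hupos.ne'
  have h1 : (γ : ℚ) / W = ∑ l, (1 : ℚ) / ((W / d l * u : ℕ) : ℚ) := by
    have e0 : (γ : ℚ) * u = ∑ l, (d l : ℚ) := by exact_mod_cast hu.symm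
    have e1 : (γ : ℚ) / W = (∑ l, (d l : ℚ)) / (W * u) := by
      rw [← e0]
      field_simp
    rw [e1, Finset.sum_div]
    apply Finset.sum_congr rfl
    intro l _
    have e2 : d l * (W / d l) = W := Nat.mul_div_cancel' (hdW l)
    have p1 : 0 < W / d l := Nat.div_pos (Nat.le_of_dvd hW (hdW l)) (hdpos l)
    have h3 : (d l : ℚ) * ((W / d l : ℕ) : ℚ) = W := by exact_mod_cast e2
    have h4 : ((W / d l : ℕ) : ℚ) ≠ 0 := by exact_mod_cast p1.ne'
    rw [Nat.cast_mul, div_eq_div_iff (mul_ne_zero hWq huq) (mul_ne_zero h4 huq), one_mul, ← h3]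
    ring
  rw [h1]
  have h2 := uf_sum Finset.univ (fun l : Fin 8 => (1 : ℚ) / ((W / d l * u : ℕ) : ℚ)) 1 (fun l _ =>
    uf_unit (Nat.mul_pos (Nat.div_pos (Nat.le_of_dvd hW (hdW l)) (hdpos l)) hupos))
  simpa using h2

end Vale.Agent.P012
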