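import Vale.Agent.P012.Cover
import Vale.Agent.P012.UF

namespace Vale.Agent.P012

open Finset

/-- Real layer: a large set of virtual primes all of whose small sub-products are good numerators. -/
theorem virtual_primes (U V : Finset ℕ) (hU : ∀ p ∈ U, p.Prime) (hV : ∀ p ∈ V, p.Prime)
    (e u x jt : ℕ) (hUc : U.card = u) (hVc : V.card = u)
    (hUle : ∀ p ∈ U, p ≤ 2 ^ e) (hVle : ∀ p ∈ V, p ≤ 2 ^ e)
    (h4 : 2 ^ (3 * x) * (e * u) * jt + jt ≤ Nat.primeCounting (2 ^ (4 * x))) (h6 : 1 ≤ jt) :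
    ∃ VV : Finset ℕ, (∀ p ∈ VV, p.Prime ∧ p ≤ 2 ^ (4 * x)) ∧ VV.card = jt ∧
      ∀ I ⊆ VV, 3 * x * I.card ≤ u → 2 * I.card * 2 ^ 48 ≤ 2 ^ (4 * x) →
        GoodNum ((∏ p ∈ U, p) * ∏ p ∈ V, p) (∏ p ∈ I, p) := by
  classical
  set qU := ∏ p ∈ U, p with hqU
  set qV := ∏ p ∈ V, p with hqV
  have hqUpos : 0 < qU := prod_primes_pos U hU
  have hqVpos : 0 < qV := prod_primes_pos V hV
  have hqUle : qU ≤ 2 ^ (e * u) := by
    have := prod_le_pow_card_of_le U (2 ^ e) hUle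
    rwa [hUc, ← pow_mul] at this
  have hqVle : qV ≤ 2 ^ (e * u) := by
    have := prod_le_pow_card_of_le V (2 ^ e) hVle
    rwa [hVc, ← pow_mul] at this
  set A : Finset ℤ := qU.divisors.image (fun d => ((d : ℕ) : ℤ)) with hA
  set B : Finset ℤ := qV.divisors.image (fun d => ((d : ℕ) : ℤ)) with hB
  have hAcard : A.card = 2 ^ u := by
    rw [hA, Finset.card_image_of_injective _ Nat.cast_injective, card_divisors_prod_primes U hU, hUc]
  have hBcard : B.card = 2 ^ u := by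
    rw [hB, Finset.card_image_of_injective _ Nat.cast_injective, card_divisors_prod_primes V hV, hVc]
  have hAbd : ∀ a ∈ A, 0 ≤ a ∧ a ≤ 2 ^ (e * u) := by
    intro a ha
    obtain ⟨d, hd, rfl⟩ := Finset.mem_image.mp ha
    refine ⟨by positivity, ?_⟩
    have : d ≤ 2 ^ (e * u) := (Nat.le_of_dvd hqUpos (Nat.dvd_of_mem_divisors hd)).trans hqUle
    exact_mod_cast this
  have hBbd : ∀ a ∈ B, 0 ≤ a ∧ a ≤ 2 ^ (e * u) := by
    intro a ha
    obtain ⟨d, hd, rfl⟩ := Finset.mem_image.mp ha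
    refine ⟨by positivity, ?_⟩
    have : d ≤ 2 ^ (e * u) := (Nat.le_of_dvd hqVpos (Nat.dvd_of_mem_divisors hd)).trans hqVle
    exact_mod_cast this
  obtain ⟨J, hJ, -, hJc, hcov⟩ := cover_sub A B (2 ^ u) (e * u) x jt ∅ hAcard hBcard hAbd hBbd
    (by simpa using h4) h6
  refine ⟨J, hJ, hJc, ?_⟩
  intro I hI h3 h5
  obtain ⟨a, b, ha, hb, hdvd⟩ := hcov I hI (Nat.pow_le_pow_right (by norm_num) h3) h5 0
  have ha' : ∀ l, ∃ d ∈ qU.divisors, ((d : ℕ) : ℤ) = a l := fun l => by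
    obtain ⟨d, hd, hda⟩ := Finset.mem_image.mp (ha l)
    exact ⟨d, hd, hda⟩
  have hb' : ∀ l, ∃ d ∈ qV.divisors, ((d : ℕ) : ℤ) = b l := fun l => by
    obtain ⟨d, hd, hda⟩ := Finset.mem_image.mp (hb l)
    exact ⟨d, hd, hda⟩
  choose a' ha'1 ha'2 using ha'
  choose b' hb'1 hb'2 using hb'
  refine ⟨fun l => a' l * b' l, fun l =>
    mul_dvd_mul (Nat.dvd_of_mem_divisors (ha'1 l)) (Nat.dvd_of_mem_divisors (hb'1 l)), ?_⟩
  have hcast : ((∑ l, a' l * b' l : ℕ) : ℤ) = ∑ l, a l * b l := by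
    rw [Nat.cast_sum]
    apply Finset.sum_congr rfl
    intro l _
    rw [← ha'2 l, ← hb'2 l]
    push_cast
    ring
  rw [sub_zero, ← hcast] at hdvd
  exact_mod_cast hdvd

/-- Virtual layer: one tower stage whose terms are products of `2 * h` virtual primes. -/
theorem virtual_stage (P : ℕ) (V1 V2 : Finset ℕ) (e h x uv j : ℕ)
    (hV1 : ∀ p ∈ V1, p.Prime ∧ p ≤ 2 ^ (4 * x)) (hV2 : ∀ p ∈ V2, p.Prime ∧ p ≤ 2 ^ (4 * x))
    (hdisj : Disjoint V1 V2) (hc1 : V1.card = uv) (hc2 : V2.card = uv)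
    (hgood : ∀ I ⊆ V1 ∪ V2, I.card = 2 * h → GoodNum P (∏ p ∈ I, p))
    (h3 : 2 ^ (3 * x * j) ≤ uv.choose h)
    (h4 : 2 ^ (3 * x) * (4 * x * h) * j + j + Nat.primeCounting (2 ^ e) ≤
      Nat.primeCounting (2 ^ (4 * x)))
    (h5 : 2 * j * 2 ^ 48 ≤ 2 ^ (4 * x)) (h6 : 1 ≤ j)
    {W Z H : ℕ} (hW : 0 < W) (hPW : P ∣ W) (hZ : 8 * 2 ^ (8 * x * h) ≤ Z) (hV : VRep W Z H) :
    ∃ q : ℕ, 2 ^ (e * j) ≤ q ∧ VRep (q * W) (q * Z) (H + 64) := by
  classical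
  have hV1p : ∀ p ∈ V1, p.Prime := fun p hp => (hV1 p hp).1
  have hV2p : ∀ p ∈ V2, p.Prime := fun p hp => (hV2 p hp).1
  have hsub1 : ∀ I ∈ V1.powersetCard h, (∏ p ∈ I, p) ≤ 2 ^ (4 * x * h) := by
    intro I hI
    obtain ⟨hIU, hIc⟩ := Finset.mem_powersetCard.mp hI
    have := prod_le_pow_card_of_le I (2 ^ (4 * x)) (fun p hp => (hV1 p (hIU hp)).2)
    rwa [hIc, ← pow_mul] at this
  have hsub2 : ∀ I ∈ V2.powersetCard h, (∏ p ∈ I, p) ≤ 2 ^ (4 * x * h) := by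
    intro I hI
    obtain ⟨hIU, hIc⟩ := Finset.mem_powersetCard.mp hI
    have := prod_le_pow_card_of_le I (2 ^ (4 * x)) (fun p hp => (hV2 p (hIU hp)).2)
    rwa [hIc, ← pow_mul] at this
  set A : Finset ℤ := (V1.powersetCard h).image (fun I => ((∏ p ∈ I, p : ℕ) : ℤ)) with hA
  set B : Finset ℤ := (V2.powersetCard h).image (fun I => ((∏ p ∈ I, p : ℕ) : ℤ)) with hB
  have hAcard : A.card = uv.choose h := by
    rw [hA, Finset.card_image_of_injOn, Finset.card_powersetCard, hc1]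
    intro I hI I' hI' hdd
    have hdd' : ((∏ p ∈ I, p : ℕ) : ℤ) = ((∏ p ∈ I', p : ℕ) : ℤ) := hdd
    have h0 : ∏ p ∈ I, p = ∏ p ∈ I', p := by exact_mod_cast hdd'
    exact prod_injOn_powersetCard V1 hV1p h hI hI' h0
  have hBcard : B.card = uv.choose h := by
    rw [hB, Finset.card_image_of_injOn, Finset.card_powersetCard, hc2]
    intro I hI I' hI' hdd
    have hdd' : ((∏ p ∈ I, p : ℕ) : ℤ) = ((∏ p ∈ I', p : ℕ) : ℤ) := hdd
    have h0 : ∏ p ∈ I, p = ∏ p ∈ I', p := by exact_mod_cast hdd'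
    exact prod_injOn_powersetCard V2 hV2p h hI hI' h0
  have hAbd : ∀ a ∈ A, 0 ≤ a ∧ a ≤ 2 ^ (4 * x * h) := by
    intro a ha
    obtain ⟨I, hI, rfl⟩ := Finset.mem_image.mp ha
    refine ⟨by positivity, ?_⟩
    exact_mod_cast hsub1 I hI
  have hBbd : ∀ a ∈ B, 0 ≤ a ∧ a ≤ 2 ^ (4 * x * h) := by
    intro a ha
    obtain ⟨I, hI, rfl⟩ := Finset.mem_image.mp ha
    refine ⟨by positivity, ?_⟩
    exact_mod_cast hsub2 I hI
  obtain ⟨J, hJ, hJdisj, hJc, hcov⟩ := cover_sub A B (uv.choose h) (4 * x * h) x j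
    (Nat.primesLE (2 ^ e)) hAcard hBcard hAbd hBbd
    (by rw [Nat.primesLE_card_eq_primeCounting]; exact h4) h6
  have hJp : ∀ p ∈ J, p.Prime := fun p hp => (hJ p hp).1
  set q := ∏ p ∈ J, p with hq
  have hqpos : 0 < q := prod_primes_pos J hJp
  have hJbig : 2 ^ (e * j) ≤ q := by
    rw [pow_mul, ← hJc, ← Finset.prod_const]
    apply Finset.prod_le_prod'
    intro p hpJ
    by_contra hcon
    have hmem : p ∈ Nat.primesLE (2 ^ e) := Nat.mem_primesLE.2 ⟨by omega, hJp p hpJ⟩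
    exact (Finset.disjoint_left.mp hJdisj hpJ) hmem
  refine ⟨q, hJbig, vrep_step hqpos hV ?_⟩
  intro r
  obtain ⟨a, b, ha, hb, hdvd⟩ := hcov J (Finset.Subset.refl J) (by rw [hJc]; exact h3)
    (by rw [hJc]; exact h5) (r : ℤ)
  have ha' : ∀ l, ∃ I ∈ V1.powersetCard h, ((∏ p ∈ I, p : ℕ) : ℤ) = a l := fun l => by
    obtain ⟨d, hd, hda⟩ := Finset.mem_image.mp (ha l)
    exact ⟨d, hd, hda⟩
  have hb' : ∀ l, ∃ I ∈ V2.powersetCard h, ((∏ p ∈ I, p : ℕ) : ℤ) = b l := fun l => by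
    obtain ⟨d, hd, hda⟩ := Finset.mem_image.mp (hb l)
    exact ⟨d, hd, hda⟩
  choose a' ha'1 ha'2 using ha'
  choose b' hb'1 hb'2 using hb'
  let d : Fin 8 → ℕ := fun l => (∏ p ∈ a' l, p) * (∏ p ∈ b' l, p)
  have hdle : ∀ l, d l ≤ 2 ^ (8 * x * h) := by
    intro l
    have h0 : d l ≤ 2 ^ (4 * x * h) * 2 ^ (4 * x * h) :=
      Nat.mul_le_mul (hsub1 _ (ha'1 l)) (hsub2 _ (hb'1 l))
    have h00 : 2 ^ (4 * x * h) * 2 ^ (4 * x * h) = 2 ^ (8 * x * h) := by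
      rw [← pow_add]
      congr 1
      ring
    rwa [h00] at h0
  have hdgood : ∀ l, GoodNum P (d l) ∧ 0 < d l := by
    intro l
    obtain ⟨s1, c1⟩ := Finset.mem_powersetCard.mp (ha'1 l)
    obtain ⟨s2, c2⟩ := Finset.mem_powersetCard.mp (hb'1 l)
    have hdj : Disjoint (a' l) (b' l) := Finset.disjoint_of_subset_left s1
      (Finset.disjoint_of_subset_right s2 hdisj)
    have e1 : d l = ∏ p ∈ a' l ∪ b' l, p := by
      rw [Finset.prod_union hdj]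
    refine ⟨?_, ?_⟩
    · rw [e1]
      apply hgood _ (Finset.union_subset_union s1 s2)
      rw [Finset.card_union_of_disjoint hdj, c1, c2]
      ring
    · exact Nat.mul_pos (prod_primes_pos _ (fun p hp => hV1p p (s1 hp)))
        (prod_primes_pos _ (fun p hp => hV2p p (s2 hp)))
  refine ⟨∑ l, d l, ?_, ?_, ?_⟩
  · calc ∑ l, d l ≤ ∑ _l : Fin 8, 2 ^ (8 * x * h) := Finset.sum_le_sum (fun l _ => hdle l)
      _ = 8 * 2 ^ (8 * x * h) := by simp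
      _ ≤ Z := hZ
  · rw [Nat.modEq_iff_dvd]
    have hcast : ((∑ l, d l : ℕ) : ℤ) = ∑ l, a l * b l := by
      rw [Nat.cast_sum]
      apply Finset.sum_congr rfl
      intro l _
      rw [← ha'2 l, ← hb'2 l]
      simp only [d]
      push_cast
      ring
    rw [hcast, ← dvd_neg, neg_sub]
    exact hdvd
  · have hqW : 0 < q * W := Nat.mul_pos hqpos hW
    have h1 : ((∑ l, d l : ℕ) : ℚ) / ((q * W : ℕ) : ℚ) = ∑ l, (d l : ℚ) / ((q * W : ℕ) : ℚ) := by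
      rw [Nat.cast_sum, Finset.sum_div]
    rw [h1]
    have h2 := uf_sum Finset.univ (fun l : Fin 8 => (d l : ℚ) / ((q * W : ℕ) : ℚ)) 8 (fun l _ =>
      uf_of_good (hdgood l).2 hqW (hPW.mul_left q) (hdgood l).1)
    simpa using h2

end Vale.Agent.P012
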